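import Crest.Agent.R350.QSampL

/-! Row 350, T2: amplitude amplification. -/

set_option autoImplicit false

namespace Crest.Agent.R350

open Finset Matrix

namespace Amp

variable {ι : Type} [Fintype ι] [DecidableEq ι]

theorem OM_mul_self (W : Type) [Fintype W] [DecidableEq W] (x : ι → Bool) :
    OM W x * OM W x = 1 := by
  ext e e'
  simp only [Matrix.mul_apply, OM, Matrix.one_apply]
  rw [Finset.sum_eq_single (e.1, xor e.2.1 (x e.1), e.2.2)]
  · simp only [if_true, one_mul]
    have : (e.1, ((e.2.1 ^^ x e.1) ^^ x e.1), e.2.2) = e := by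
      rcases e with ⟨i, b, z⟩
      simp
    rw [this]
    by_cases h : e' = e
    · simp [h]
    · simp [h, Ne.symm h]
  · intro b _ hb
    simp [hb]
  · simp

omit [Fintype ι] in
theorem OM_conjTranspose (W : Type) [Fintype W] [DecidableEq W] (x : ι → Bool) :
    (OM W x)ᴴ = OM W x := by
  ext e e'
  simp only [Matrix.conjTranspose_apply, OM]
  have : (e = (e'.1, xor e'.2.1 (x e'.1), e'.2.2)) ↔ (e' = (e.1, xor e.2.1 (x e.1), e.2.2)) := by
    rcases e with ⟨i, b, z⟩
    rcases e' with ⟨i', b', z'⟩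
    simp only [Prod.mk.injEq]
    constructor
    · rintro ⟨rfl, rfl, rfl⟩
      simp
    · rintro ⟨rfl, rfl, rfl⟩
      simp
  by_cases h : e' = (e.1, xor e.2.1 (x e.1), e.2.2)
  · rw [if_pos h, if_pos (this.2 h)]; simp
  · rw [if_neg h, if_neg (fun h' => h (this.1 h'))]; simp

theorem OM_unitary (W : Type) [Fintype W] [DecidableEq W] (x : ι → Bool) :
    OM W x ∈ Matrix.unitaryGroup (ι × Bool × W) ℂ := by
  rw [Matrix.mem_unitaryGroup_iff, Matrix.star_eq_conjTranspose, OM_conjTranspose, OM_mul_self]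

variable {W : Type} [Fintype W] [DecidableEq W]

theorem impl_unitary {q : ℕ} {V : (ι → Bool) → Matrix (ι × Bool × W) (ι × Bool × W) ℂ}
    (h : Impl W q V) (x : ι → Bool) : V x ∈ Matrix.unitaryGroup (ι × Bool × W) ℂ := by
  induction h with
  | const U hU => exact hU
  | step q V h U hU ih =>
    exact mul_mem (mul_mem hU (OM_unitary W x)) ih

theorem impl_const_mul {q : ℕ} {V : (ι → Bool) → Matrix (ι × Bool × W) (ι × Bool × W) ℂ}
    (h : Impl W q V) (U : Matrix (ι × Bool × W) (ι × Bool × W) ℂ)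
    (hU : U ∈ Matrix.unitaryGroup (ι × Bool × W) ℂ) : Impl W q (fun x => U * V x) := by
  cases h with
  | const U' hU' => exact Impl.const _ (mul_mem hU hU')
  | step q V h U' hU' =>
    have := Impl.step q V h (U * U') (mul_mem hU hU')
    convert this using 2 with x
    simp only [Matrix.mul_assoc]

theorem impl_mul {q q' : ℕ} {V V' : (ι → Bool) → Matrix (ι × Bool × W) (ι × Bool × W) ℂ}
    (h : Impl W q V) (h' : Impl W q' V') : Impl W (q + q') (fun x => V' x * V x) := by
  induction h' with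
  | const U hU => exact impl_const_mul h U hU
  | step q' V' h' U hU ih =>
    have := Impl.step _ _ ih U hU
    have h2 : (fun x => U * OM W x * (V' x * V x)) = (fun x => U * OM W x * V' x * V x) := by
      funext x
      simp only [Matrix.mul_assoc]
    rw [h2] at this
    exact this

theorem impl_star {q : ℕ} {V : (ι → Bool) → Matrix (ι × Bool × W) (ι × Bool × W) ℂ}
    (h : Impl W q V) : Impl W q (fun x => (V x)ᴴ) := by
  induction h with
  | const U hU =>
    refine Impl.const _ ?_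
    rw [← Matrix.star_eq_conjTranspose]
    exact Unitary.star_mem hU
  | step q V h U hU ih =>
    have hU' : Uᴴ ∈ Matrix.unitaryGroup (ι × Bool × W) ℂ := by
      rw [← Matrix.star_eq_conjTranspose]
      exact Unitary.star_mem hU
    have h1 : Impl W (0 + 1) (fun x : ι → Bool => (1 : Matrix (ι × Bool × W) (ι × Bool × W) ℂ) *
        OM W x * Uᴴ) := Impl.step 0 _ (Impl.const Uᴴ hU') 1 (one_mem _)
    have h2 := impl_mul h1 ih
    have h3 : 0 + 1 + q = q + 1 := by omega
    rw [h3] at h2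
    convert h2 using 2 with x
    simp only [Matrix.conjTranspose_mul, OM_conjTranspose, Matrix.one_mul, Matrix.mul_assoc]

theorem reflection_unitary {n : Type} [Fintype n] [DecidableEq n] (P : Matrix n n ℂ)
    (h1 : Pᴴ = P) (h2 : P * P = P) : (1 - (2 : ℂ) • P) ∈ Matrix.unitaryGroup n ℂ := by
  rw [Matrix.mem_unitaryGroup_iff, Matrix.star_eq_conjTranspose]
  have : (1 - (2 : ℂ) • P)ᴴ = 1 - (2 : ℂ) • P := by
    rw [Matrix.conjTranspose_sub, Matrix.conjTranspose_smul, h1]
    simp
  rw [this]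
  simp only [Matrix.mul_sub, Matrix.sub_mul, Matrix.mul_smul, Matrix.smul_mul, h2, Matrix.mul_one,
    Matrix.one_mul]
  module

theorem neg_unitary {n : Type} [Fintype n] [DecidableEq n] (U : Matrix n n ℂ)
    (h : U ∈ Matrix.unitaryGroup n ℂ) : -U ∈ Matrix.unitaryGroup n ℂ := by
  rw [Matrix.mem_unitaryGroup_iff] at h ⊢
  simpa using h

/-- coefficients `(s_j, c_j)` of the good and bad part after `j` Grover iterations -/
def sc (a : ℝ) : ℕ → ℝ × ℝ
  | 0 => (1, 1)
  | j + 1 => ((1 - 2 * a) * (sc a j).1 + 2 * (1 - a) * (sc a j).2,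
      (1 - 2 * a) * (sc a j).2 - 2 * a * (sc a j).1)

theorem sc_trig (θ : ℝ) (j : ℕ) :
    (sc (Real.sin θ ^ 2) j).1 * Real.sin θ = Real.sin ((2 * j + 1) * θ) ∧
    (sc (Real.sin θ ^ 2) j).2 * Real.cos θ = Real.cos ((2 * j + 1) * θ) := by
  induction j with
  | zero => simp [sc]
  | succ j ih =>
    obtain ⟨h1, h2⟩ := ih
    have hc : Real.cos (2 * θ) = 1 - 2 * Real.sin θ ^ 2 := by
      have := Real.sin_sq_add_cos_sq θ
      rw [Real.cos_two_mul]
      linarith
    have hs : Real.sin (2 * θ) = 2 * Real.sin θ * Real.cos θ := Real.sin_two_mul θ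
    have h3 : Real.cos θ ^ 2 = 1 - Real.sin θ ^ 2 := by
      have := Real.sin_sq_add_cos_sq θ
      linarith
    have harg : (2 * ((j + 1 : ℕ) : ℝ) + 1) * θ = (2 * j + 1) * θ + 2 * θ := by push_cast; ring
    rw [harg, Real.sin_add, Real.cos_add, hc, hs, ← h1, ← h2]
    constructor
    · simp only [sc]
      rw [← h3]; ring
    · simp only [sc]
      ring

theorem trig_sum (θ : ℝ) (T : ℕ) :
    2 * Real.sin (2 * θ) * ∑ j ∈ range T, Real.cos (2 * ((2 * j + 1) * θ)) =
      Real.sin (4 * T * θ) := by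
  induction T with
  | zero => simp
  | succ T ih =>
    rw [Finset.sum_range_succ, mul_add, ih]
    have h1 : (4 * ((T + 1 : ℕ) : ℝ) * θ) = 2 * ((2 * T + 1) * θ) + 2 * θ := by push_cast; ring
    have h2 : (4 * (T : ℝ) * θ) = 2 * ((2 * T + 1) * θ) - 2 * θ := by ring
    rw [h1, h2, Real.sin_add, Real.sin_sub]
    ring

theorem avg_bound (θ : ℝ) (T : ℕ) (hT : 1 ≤ T) (h : 1 ≤ T * Real.sin (2 * θ)) :
    (1 : ℝ) / 4 ≤ (∑ j ∈ range T, Real.sin ((2 * j + 1) * θ) ^ 2) / T := by
  have hTpos : (0 : ℝ) < T := by exact_mod_cast hT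
  have hspos : 0 < Real.sin (2 * θ) := by
    by_contra hcon
    push Not at hcon
    nlinarith
  have h1 : ∀ j : ℕ, Real.sin ((2 * j + 1) * θ) ^ 2 =
      1 / 2 - Real.cos (2 * ((2 * j + 1) * θ)) / 2 := fun j => Real.sin_sq_eq_half_sub _
  simp only [h1, Finset.sum_sub_distrib, Finset.sum_const, Finset.card_range, nsmul_eq_mul]
  rw [← Finset.sum_div, le_div_iff₀ hTpos]
  have h2 := trig_sum θ T
  have h3 : Real.sin (4 * T * θ) ≤ 1 := Real.sin_le_one _
  have h4 : (∑ j ∈ range T, Real.cos (2 * ((2 * j + 1) * θ))) ≤ T / 2 := by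
    by_contra hcon
    push Not at hcon
    have : 2 * Real.sin (2 * θ) * (T / 2) < 2 * Real.sin (2 * θ) *
        ∑ j ∈ range T, Real.cos (2 * ((2 * j + 1) * θ)) := by
      apply mul_lt_mul_of_pos_left hcon (by positivity)
    nlinarith
  linarith

theorem grover_bound (a : ℝ) (T : ℕ) (hT : 1 ≤ T) (ha : 1 / (T : ℝ) ^ 2 ≤ a) (ha1 : a ≤ 1) :
    (1 : ℝ) / 8 ≤ (a * (sc a 0).1 ^ 2 + (∑ j ∈ range T, a * (sc a j).1 ^ 2) / T) / 2 := by
  have hTpos : (0 : ℝ) < T := by exact_mod_cast hT
  have ha0 : 0 < a := lt_of_lt_of_le (by positivity) ha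
  have hsum0 : 0 ≤ (∑ j ∈ range T, a * (sc a j).1 ^ 2) / T := by
    apply div_nonneg _ hTpos.le
    apply Finset.sum_nonneg
    intro j _
    positivity
  by_cases h34 : 3 / 4 < a
  · simp only [sc, one_pow, mul_one]
    linarith
  · push Not at h34
    obtain ⟨θ, hθ⟩ : ∃ θ, θ = Real.arcsin (Real.sqrt a) := ⟨_, rfl⟩
    have hsqrt1 : Real.sqrt a ≤ 1 := by rw [Real.sqrt_le_one]; exact ha1
    have hsin : Real.sin θ = Real.sqrt a := by
      rw [hθ, Real.sin_arcsin (by linarith [Real.sqrt_nonneg a]) hsqrt1]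
    have hcos : Real.cos θ = Real.sqrt (1 - a) := by
      rw [hθ, Real.cos_arcsin, Real.sq_sqrt ha0.le]
    have hcos2 : 1 / 2 ≤ Real.cos θ := by
      rw [hcos]
      apply Real.le_sqrt_of_sq_le
      norm_num
      linarith
    have hsinT : 1 / (T : ℝ) ≤ Real.sin θ := by
      rw [hsin]
      apply Real.le_sqrt_of_sq_le
      rw [div_pow, one_pow]
      exact ha
    have haeq : a = Real.sin θ ^ 2 := by rw [hsin, Real.sq_sqrt ha0.le]
    have h2θ : 1 ≤ T * Real.sin (2 * θ) := by
      rw [Real.sin_two_mul]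
      have h1 : 1 ≤ T * Real.sin θ := by
        rw [div_le_iff₀ hTpos] at hsinT
        linarith
      have h2 : 0 ≤ T * Real.sin θ := by linarith
      nlinarith
    have key := avg_bound θ T hT h2θ
    have hEq : ∀ j : ℕ, a * (sc a j).1 ^ 2 = Real.sin ((2 * j + 1) * θ) ^ 2 := by
      intro j
      rw [← (sc_trig θ j).1, ← haeq, mul_pow]
      rw [← haeq]; ring
    have h0 : 0 ≤ a * (sc a 0).1 ^ 2 := by positivity
    simp only [hEq] at hsum0 h0 ⊢
    set A := Real.sin ((2 * ((0 : ℕ) : ℝ) + 1) * θ) ^ 2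
    set B := (∑ j ∈ range T, Real.sin ((2 * (j : ℝ) + 1) * θ) ^ 2) / (T : ℝ)
    linarith

theorem grover_matrix {H K : Type} [Fintype H] [DecidableEq H] [Fintype K] [DecidableEq K]
    (V : Matrix H H ℂ) (hV : V ∈ Matrix.unitaryGroup H ℂ) (J : Matrix H Unit ℂ)
    (J' : Matrix H K ℂ) (hJ' : J'ᴴ * J' = 1) (ψ : K → ℂ)
    (hVJ : V * J = J' * Matrix.of fun k _ => ψ k) (hψ : ∑ k, ‖ψ k‖ ^ 2 = 1)
    (g : K → Prop) [DecidablePred g] (a s c : ℝ) (ha : a = ∑ k, if g k then ‖ψ k‖ ^ 2 else 0) :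
    (V * (-(1 - (2 : ℂ) • (J * Jᴴ))) * Vᴴ *
      (1 - (2 : ℂ) • (J' * Matrix.diagonal (fun k => if g k then (1 : ℂ) else 0) * J'ᴴ))) *
      (J' * Matrix.of fun k (_ : Unit) => (((if g k then s else c : ℝ) : ℂ) * ψ k)) =
    J' * Matrix.of fun k (_ : Unit) => (((if g k then (1 - 2 * a) * s + 2 * (1 - a) * c
      else (1 - 2 * a) * c - 2 * a * s : ℝ) : ℂ) * ψ k) := by
  have hVV : V * Vᴴ = 1 := by
    rw [Matrix.mem_unitaryGroup_iff, Matrix.star_eq_conjTranspose] at hV
    exact hV
  set A : Matrix K Unit ℂ := Matrix.of fun k _ => ψ k with hA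
  set P : Matrix K K ℂ := Matrix.diagonal (fun k => if g k then (1 : ℂ) else 0) with hP
  set B : Matrix K Unit ℂ :=
    Matrix.of fun k (_ : Unit) => (((if g k then s else c : ℝ) : ℂ) * ψ k) with hB
  set B' : Matrix K Unit ℂ :=
    Matrix.of fun k (_ : Unit) => (((if g k then -s else c : ℝ) : ℂ) * ψ k) with hB'
  have e1 : V * (-(1 - (2 : ℂ) • (J * Jᴴ))) * Vᴴ = -(1 - (2 : ℂ) • ((J' * A) * (J' * A)ᴴ)) := by
    rw [← hVJ, Matrix.conjTranspose_mul]
    simp only [Matrix.mul_neg, Matrix.neg_mul, Matrix.mul_sub, Matrix.sub_mul, Matrix.mul_one,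
      Matrix.mul_smul, Matrix.smul_mul, hVV, Matrix.mul_assoc]
  have e2 : (1 - (2 : ℂ) • (J' * P * J'ᴴ)) * (J' * B) = J' * B' := by
    have h1 : (1 - (2 : ℂ) • (J' * P * J'ᴴ)) * (J' * B) = J' * (B - (2 : ℂ) • (P * B)) := by
      simp only [Matrix.sub_mul, Matrix.one_mul, Matrix.smul_mul, Matrix.mul_sub, Matrix.mul_smul]
      congr 2
      calc J' * P * J'ᴴ * (J' * B) = J' * P * (J'ᴴ * J') * B := by simp only [Matrix.mul_assoc]
        _ = J' * (P * B) := by rw [hJ', Matrix.mul_one, Matrix.mul_assoc]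
    rw [h1]
    congr 1
    ext k u
    simp only [hB, hB', hP, Matrix.sub_apply, Matrix.smul_apply, Matrix.diagonal_mul,
      Matrix.of_apply, smul_eq_mul]
    split_ifs
    · push_cast; ring
    · ring
  have e3 : Aᴴ * B' = Matrix.of fun _ _ => (((-s * a + c * (1 - a) : ℝ)) : ℂ) := by
    ext u u'
    simp only [hA, hB', Matrix.mul_apply, Matrix.conjTranspose_apply, Matrix.of_apply]
    have h1 : ∀ k, star (ψ k) * ((((if g k then -s else c : ℝ)) : ℂ) * ψ k) =
        (((if g k then -s else c) * ‖ψ k‖ ^ 2 : ℝ) : ℂ) := by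
      intro k
      have : star (ψ k) * ψ k = ((‖ψ k‖ ^ 2 : ℝ) : ℂ) := by
        rw [Complex.star_def, mul_comm, Complex.mul_conj, Complex.normSq_eq_norm_sq]
      rw [mul_left_comm, this]
      push_cast
      ring
    rw [Finset.sum_congr rfl (fun k _ => h1 k), ← Complex.ofReal_sum]
    congr 1
    have h2 : ∀ k, (if g k then -s else c) * ‖ψ k‖ ^ 2 =
        -(s + c) * (if g k then ‖ψ k‖ ^ 2 else 0) + c * ‖ψ k‖ ^ 2 := by
      intro k
      split_ifs <;> ring
    rw [Finset.sum_congr rfl (fun k _ => h2 k), Finset.sum_add_distrib, ← Finset.mul_sum,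
      ← Finset.mul_sum, ← ha, hψ]
    ring
  rw [Matrix.mul_assoc, e2, e1]
  have e4 : -(1 - (2 : ℂ) • ((J' * A) * (J' * A)ᴴ)) * (J' * B') =
      J' * (-B' + (2 : ℂ) • (A * (Aᴴ * B'))) := by
    rw [Matrix.conjTranspose_mul]
    have h1 : J' * A * (Aᴴ * J'ᴴ) * (J' * B') = J' * (A * (Aᴴ * B')) := by
      calc J' * A * (Aᴴ * J'ᴴ) * (J' * B') = J' * A * Aᴴ * (J'ᴴ * J') * B' := by
            simp only [Matrix.mul_assoc]
        _ = J' * (A * (Aᴴ * B')) := by
            rw [hJ', Matrix.mul_one]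
            simp only [Matrix.mul_assoc]
    simp only [Matrix.neg_mul, Matrix.sub_mul, Matrix.one_mul, Matrix.smul_mul, Matrix.mul_add,
      Matrix.mul_neg, Matrix.mul_smul, h1]
    abel
  rw [e4, e3]
  congr 1
  ext k u
  simp only [hA, hB', Matrix.add_apply, Matrix.neg_apply, Matrix.smul_apply, Matrix.mul_apply,
    Matrix.of_apply, smul_eq_mul, Finset.univ_unique, Finset.sum_singleton]
  split_ifs
  · push_cast; ring
  · push_cast; ring

theorem QSamp_grover {Ω : Type} [Fintype Ω] [DecidableEq Ω] {q : ℕ}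
    {μ : (ι → Bool) → Ω → ℝ} (h : QSamp Ω q μ) (G : Ω → Prop) [DecidablePred G] (j : ℕ) :
    QSamp Ω ((2 * j + 1) * q) (fun x ω =>
      (if G ω then (sc (∑ ω, if G ω then μ x ω else 0) j).1 ^ 2
        else (sc (∑ ω, if G ω then μ x ω else 0) j).2 ^ 2) * μ x ω) := by
  obtain ⟨K, _, _, ψ, out, ⟨W, _, _, V, J, J', hV, hJ, hJ', hVJ⟩, hμ⟩ := h
  have ha : ∀ x, (∑ ω, if G ω then μ x ω else 0) = ∑ k, if G (out k) then ‖ψ x k‖ ^ 2 else 0 := by
    intro x
    have h1 : ∀ ω, (if G ω then μ x ω else 0) =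
        ∑ k, if out k = ω then (if G (out k) then ‖ψ x k‖ ^ 2 else 0) else 0 := by
      intro ω
      by_cases hG : G ω
      · rw [if_pos hG, hμ]
        apply Finset.sum_congr rfl
        intro k _
        by_cases hk : out k = ω
        · simp [hk, hG]
        · simp [hk]
      · rw [if_neg hG]
        symm
        apply Finset.sum_eq_zero
        intro k _
        by_cases hk : out k = ω
        · simp [hk, hG]
        · simp [hk]
    rw [Finset.sum_congr rfl (fun ω _ => h1 ω), Finset.sum_comm]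
    apply Finset.sum_congr rfl
    intro k _
    simp
  have hψ : ∀ x, ∑ k, ‖ψ x k‖ ^ 2 = 1 := by
    intro x
    have hu := impl_unitary hV x
    rw [Matrix.mem_unitaryGroup_iff', Matrix.star_eq_conjTranspose] at hu
    have h1 : (V x * J)ᴴ * (V x * J) = 1 := by
      rw [Matrix.conjTranspose_mul]
      calc Jᴴ * (V x)ᴴ * (V x * J) = Jᴴ * ((V x)ᴴ * V x) * J := by simp only [Matrix.mul_assoc]
        _ = 1 := by rw [hu, Matrix.mul_one, hJ]
    rw [hVJ x, Matrix.conjTranspose_mul] at h1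
    have h2 : (Matrix.of fun k (_ : Unit) => ψ x k)ᴴ * (Matrix.of fun k (_ : Unit) => ψ x k) =
        (1 : Matrix Unit Unit ℂ) := by
      calc _ = (Matrix.of fun k (_ : Unit) => ψ x k)ᴴ * (J'ᴴ * J') *
          (Matrix.of fun k (_ : Unit) => ψ x k) := by rw [hJ', Matrix.mul_one]
        _ = 1 := by rw [← h1]; simp only [Matrix.mul_assoc]
    have h3 := congrFun (congrFun h2 ()) ()
    simp only [Matrix.mul_apply, Matrix.conjTranspose_apply, Matrix.of_apply,
      Matrix.one_apply_eq] at h3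
    have h4 : ∀ k, star (ψ x k) * ψ x k = ((‖ψ x k‖ ^ 2 : ℝ) : ℂ) := by
      intro k
      rw [Complex.star_def, mul_comm, Complex.mul_conj, Complex.normSq_eq_norm_sq]
    rw [Finset.sum_congr rfl (fun k _ => h4 k), ← Complex.ofReal_sum] at h3
    exact_mod_cast h3
  refine ⟨K, inferInstance, inferInstance, fun x k =>
    (((if G (out k) then (sc (∑ ω, if G ω then μ x ω else 0) j).1
      else (sc (∑ ω, if G ω then μ x ω else 0) j).2 : ℝ)) : ℂ) * ψ x k, out, ?_, ?_⟩
  · set D : Matrix (ι × Bool × W) (ι × Bool × W) ℂ := (1 - (2 : ℂ) •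
      (J' * Matrix.diagonal (fun k => if G (out k) then (1 : ℂ) else 0) * J'ᴴ)) with hD
    have hDu : D ∈ Matrix.unitaryGroup (ι × Bool × W) ℂ := by
      apply reflection_unitary
      · simp only [Matrix.conjTranspose_mul, Matrix.conjTranspose_conjTranspose,
          Matrix.diagonal_conjTranspose, Matrix.mul_assoc]
        congr 2
        congr 1
        funext k
        simp only [Pi.star_apply]
        split_ifs <;> simp
      · calc _ = J' * Matrix.diagonal (fun k => if G (out k) then (1 : ℂ) else 0) * (J'ᴴ * J') *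
            Matrix.diagonal (fun k => if G (out k) then (1 : ℂ) else 0) * J'ᴴ := by
              simp only [Matrix.mul_assoc]
          _ = _ := by
            rw [hJ', Matrix.mul_one, Matrix.mul_assoc J', Matrix.diagonal_mul_diagonal]
            congr 3
            funext k
            split_ifs <;> simp
    have hRu : (-(1 - (2 : ℂ) • (J * Jᴴ))) ∈ Matrix.unitaryGroup (ι × Bool × W) ℂ := by
      apply neg_unitary
      apply reflection_unitary
      · rw [Matrix.conjTranspose_mul, Matrix.conjTranspose_conjTranspose]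
      · calc _ = J * (Jᴴ * J) * Jᴴ := by simp only [Matrix.mul_assoc]
          _ = _ := by rw [hJ, Matrix.mul_one]
    -- the iterates
    have hVj : ∃ Vj : (ι → Bool) → Matrix (ι × Bool × W) (ι × Bool × W) ℂ,
        Impl W ((2 * j + 1) * q) Vj ∧ ∀ x, Vj x * J = J' * Matrix.of fun k (_ : Unit) =>
          (((if G (out k) then (sc (∑ ω, if G ω then μ x ω else 0) j).1
          else (sc (∑ ω, if G ω then μ x ω else 0) j).2 : ℝ)) : ℂ) * ψ x k := by
      induction j with
      | zero =>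
        refine ⟨V, ?_, ?_⟩
        · have : (2 * 0 + 1) * q = q := by ring
          rw [this]; exact hV
        · intro x
          rw [hVJ x]
          simp [sc]
      | succ j ih =>
        obtain ⟨Vj, hVj, hVjJ⟩ := ih
        refine ⟨fun x => V x * ((-(1 - (2 : ℂ) • (J * Jᴴ))) * ((V x)ᴴ * (D * Vj x))), ?_, ?_⟩
        · have h1 := impl_const_mul hVj D hDu
          have h2 := impl_mul h1 (impl_star hV)
          have h3 := impl_const_mul h2 _ hRu
          have h4 := impl_mul h3 hV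
          have : (2 * (j + 1) + 1) * q = (2 * j + 1) * q + q + q := by ring
          rw [this]
          exact h4
        · intro x
          have := grover_matrix (V x) (impl_unitary hV x) J J' hJ' (ψ x) (hVJ x) (hψ x)
            (fun k => G (out k)) (∑ ω, if G ω then μ x ω else 0)
            (sc (∑ ω, if G ω then μ x ω else 0) j).1 (sc (∑ ω, if G ω then μ x ω else 0) j).2
            (ha x)
          rw [← hVjJ x] at this
          have h5 : V x * ((-(1 - (2 : ℂ) • (J * Jᴴ))) * ((V x)ᴴ * (D * Vj x))) * J =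
              V x * (-(1 - (2 : ℂ) • (J * Jᴴ))) * (V x)ᴴ * D * (Vj x * J) := by
            simp only [Matrix.mul_assoc]
          rw [h5, this]
          rfl
    obtain ⟨Vj, hVj, hVjJ⟩ := hVj
    exact ⟨W, inferInstance, inferInstance, Vj, J, J', hVj, hJ, hJ', hVjJ⟩
  · intro x ω
    simp only
    rw [hμ, Finset.mul_sum]
    apply Finset.sum_congr rfl
    intro k _
    by_cases hk : out k = ω
    · subst hk
      simp only [if_true, norm_mul, mul_pow, Complex.norm_real, Real.norm_eq_abs, sq_abs]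
      split_ifs <;> rfl
    · simp [hk]

end Amp

/-- T2 (Amp): amplitude amplification with a random number `< T` of iterations. The good set `G`
is a fixed set of outcomes. Within `G` (and within its complement) relative weights are kept. -/
theorem QSamp_amplify {ι : Type} [Fintype ι] [DecidableEq ι] [Nonempty ι] {Ω : Type} [Fintype Ω]
    [DecidableEq Ω] {q : ℕ}
    {μ : (ι → Bool) → Ω → ℝ} (h : QSamp Ω q μ) (G : Ω → Prop) [DecidablePred G] (T : ℕ)
    (hT : 1 ≤ T) :
    ∃ ν : (ι → Bool) → Ω → ℝ, QSamp Ω ((2 * T + 1) * q) ν ∧ ∀ x, ∃ c c' : ℝ, 0 ≤ c ∧ 0 ≤ c' ∧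
      (∀ ω, G ω → ν x ω = c * μ x ω) ∧ (∀ ω, ¬ G ω → ν x ω = c' * μ x ω) ∧
      ((1 : ℝ) / (T : ℝ) ^ 2 ≤ ∑ ω, (if G ω then μ x ω else 0) →
        (1 : ℝ) / 8 ≤ ∑ ω, (if G ω then ν x ω else 0)) := by
  have hTpos : (0 : ℝ) < T := by exact_mod_cast hT
  set a : (ι → Bool) → ℝ := fun x => ∑ ω, if G ω then μ x ω else 0 with ha
  set νj : ℕ → (ι → Bool) → Ω → ℝ := fun j x ω =>
    (if G ω then (Amp.sc (a x) j).1 ^ 2 else (Amp.sc (a x) j).2 ^ 2) * μ x ω with hνj
  have hj : ∀ j, QSamp Ω ((2 * j + 1) * q) (νj j) := fun j => Amp.QSamp_grover h G j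
  set idx : Option (Fin T) → ℕ := fun o => o.elim 0 (fun i => (i : ℕ)) with hidx
  set p : Option (Fin T) → ℝ := fun o => o.elim (1 / 2) (fun _ => 1 / (2 * T)) with hp
  have hp0 : ∀ o, 0 ≤ p o := by
    intro o
    cases o with
    | none => simp [hp]
    | some i => simp only [hp, Option.elim]; positivity
  have hp1 : ∑ o, p o = 1 := by
    rw [Fintype.sum_option]
    simp only [hp, Option.elim, Finset.sum_const, Finset.card_univ, Fintype.card_fin, nsmul_eq_mul]
    field_simp
    norm_num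
  have hbind := QSamp_bind (ι := ι) (QSamp_const p hp0 hp1)
    (q' := (2 * T + 1) * q) (ν := fun o => νj (idx o)) (by
      intro o
      apply QSamp_mono (hj (idx o))
      apply Nat.mul_le_mul_right
      cases o with
      | none => simp only [hidx, Option.elim]; omega
      | some i =>
        simp only [hidx, Option.elim]
        have := i.2
        omega)
  rw [Nat.zero_add] at hbind
  refine ⟨_, hbind, ?_⟩
  intro x
  refine ⟨∑ o, p o * (Amp.sc (a x) (idx o)).1 ^ 2, ∑ o, p o * (Amp.sc (a x) (idx o)).2 ^ 2,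
    Finset.sum_nonneg (fun o _ => mul_nonneg (hp0 o) (sq_nonneg _)),
    Finset.sum_nonneg (fun o _ => mul_nonneg (hp0 o) (sq_nonneg _)), ?_, ?_, ?_⟩
  · intro ω hω
    rw [Finset.sum_mul]
    apply Finset.sum_congr rfl
    intro o _
    simp only [hνj, if_pos hω]
    ring
  · intro ω hω
    rw [Finset.sum_mul]
    apply Finset.sum_congr rfl
    intro o _
    simp only [hνj, if_neg hω]
    ring
  · intro hge
    have ha1 : a x ≤ 1 := by
      have h1 := QSamp_sum_one h x
      rw [← h1]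
      apply Finset.sum_le_sum
      intro ω _
      split_ifs
      · exact le_rfl
      · exact QSamp_nonneg h x ω
    have key := Amp.grover_bound (a x) T hT hge ha1
    refine le_trans key (le_of_eq ?_)
    have h2 : ∀ ω, (if G ω then ∑ o, p o * νj (idx o) x ω else 0) =
        (∑ o, p o * (Amp.sc (a x) (idx o)).1 ^ 2) * (if G ω then μ x ω else 0) := by
      intro ω
      split_ifs with hω
      · rw [Finset.sum_mul]
        apply Finset.sum_congr rfl
        intro o _
        simp only [hνj, if_pos hω]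
        ring
      · simp
    have h3 : (∑ ω, if G ω then ∑ o, p o * νj (idx o) x ω else 0) =
        (∑ o, p o * (Amp.sc (a x) (idx o)).1 ^ 2) * a x := by
      rw [Finset.sum_congr rfl (fun ω _ => h2 ω), ← Finset.mul_sum]
    rw [h3, Fintype.sum_option]
    simp only [hp, hidx, Option.elim]
    rw [Fin.sum_univ_eq_sum_range (fun i => 1 / (2 * (T : ℝ)) * (Amp.sc (a x) i).1 ^ 2),
      ← Finset.mul_sum, ← Finset.mul_sum]
    field_simp

end Crest.Agent.R350
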