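import Crest.Agent.R350.Defs2
import Crest.Agent.R350.HTestPath

/-! Row 350, task T8b: planted secrets are good with high probability (Chebyshev). -/

set_option autoImplicit false

namespace Crest.Agent.R350

open Finset

/-- flipping one bit -/
theorem flip_invol {ι : Type} [DecidableEq ι] (i : ι) :
    Function.Involutive (fun x : ι → Bool => Function.update x i (!x i)) := by
  intro x
  funext j
  by_cases h : j = i
  · subst h; simp
  · simp [Function.update_of_ne h]

theorem sum_sg_prod_zero (k t : ℕ) (p : Fin (k + 1) → NN t) :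
    ∑ x : Fin (k + 1) × NN t → Bool, ∏ a, sg (x (a, p a)) = 0 := by
  classical
  set i₀ : Fin (k + 1) × NN t := (0, p 0) with hi₀
  have key : ∀ x : Fin (k + 1) × NN t → Bool,
      ∏ a, sg ((Function.update x i₀ (!x i₀)) (a, p a)) = - ∏ a, sg (x (a, p a)) := by
    intro x
    rw [Fin.prod_univ_succ, Fin.prod_univ_succ]
    have h0 : sg ((Function.update x i₀ (!x i₀)) (0, p 0)) = - sg (x (0, p 0)) := by
      rw [hi₀]
      simp only [Function.update_self]
      cases x (0, p 0) <;> simp [sg]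
    have h1 : ∀ a : Fin k, (Function.update x i₀ (!x i₀)) (a.succ, p a.succ)
        = x (a.succ, p a.succ) := by
      intro a
      apply Function.update_of_ne
      intro h
      have := congrArg Prod.fst h
      simp [hi₀] at this
    rw [h0]
    simp only [h1]
    ring
  have h2 : ∑ x : Fin (k + 1) × NN t → Bool, ∏ a, sg (x (a, p a))
      = ∑ x : Fin (k + 1) × NN t → Bool,
        ∏ a, sg ((Function.update x i₀ (!x i₀)) (a, p a)) :=
    (Equiv.sum_comp (flip_invol i₀).toPerm
      (fun x : Fin (k + 1) × NN t → Bool => ∏ a, sg (x (a, p a)))).symm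
  simp only [key, sum_neg_distrib] at h2
  linarith

/-- the uniform average of `phi` is `0` -/
theorem phi_avg (k t : ℕ) :
    ∑ x : Fin (k + 1) × NN t → Bool, phi k t (fun a i => x (a, i)) = 0 := by
  unfold phi
  rw [← Finset.sum_div, Finset.sum_comm]
  have : ∀ p : Fin (k + 1) → NN t,
      ∑ x : Fin (k + 1) × NN t → Bool,
        (∏ a, sg (x (a, p a))) * ∏ a : Fin k, wal (p a.castSucc) (p a.succ) = 0 := by
    intro p
    rw [← Finset.sum_mul, sum_sg_prod_zero, zero_mul]
  simp only [this, Finset.sum_const_zero, zero_div]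

section product

variable {L Ω : Type} [Fintype L] [DecidableEq L] [Fintype Ω]

theorem prodw_prod (w h : L → Ω → ℝ) :
    ∑ y : L → Ω, (∏ l, w l (y l)) * ∏ l, h l (y l) = ∏ l, ∑ ω, w l ω * h l ω := by
  rw [Finset.prod_univ_sum, Fintype.piFinset_univ]
  refine Finset.sum_congr rfl fun y _ => ?_
  rw [Finset.prod_mul_distrib]

theorem prodw_one (w : L → Ω → ℝ) (hw : ∀ l, ∑ ω, w l ω = 1) :
    ∑ y : L → Ω, ∏ l, w l (y l) = 1 := by
  have := prodw_prod w (fun _ _ => 1)
  simp only [mul_one, Finset.prod_const_one, hw] at this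
  exact this

theorem prodw_single (w : L → Ω → ℝ) (hw : ∀ l, ∑ ω, w l ω = 1) (a : L) (g : Ω → ℝ) :
    ∑ y : L → Ω, (∏ l, w l (y l)) * g (y a) = ∑ ω, w a ω * g ω := by
  have := prodw_prod w (fun l ω => if l = a then g ω else 1)
  have h1 : ∀ y : L → Ω, (∏ l, if l = a then g (y l) else 1) = g (y a) := by
    intro y
    rw [Finset.prod_ite_eq' Finset.univ a (fun l => g (y l))]
    simp
  simp only [h1] at this
  rw [this, Finset.prod_eq_single a]
  · simp
  · intro b _ hb
    simp [hb, hw]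
  · intro h; exact absurd (Finset.mem_univ a) h

theorem prodw_pair (w : L → Ω → ℝ) (hw : ∀ l, ∑ ω, w l ω = 1) (a b : L) (hab : a ≠ b)
    (g g' : Ω → ℝ) :
    ∑ y : L → Ω, (∏ l, w l (y l)) * (g (y a) * g' (y b))
      = (∑ ω, w a ω * g ω) * ∑ ω, w b ω * g' ω := by
  have := prodw_prod w (fun l ω => if l = a then g ω else if l = b then g' ω else 1)
  have h1 : ∀ y : L → Ω, (∏ l, if l = a then g (y l) else if l = b then g' (y l) else 1)
      = g (y a) * g' (y b) := by
    intro y
    rw [← Finset.mul_prod_erase Finset.univ _ (Finset.mem_univ a)]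
    have hb : b ∈ Finset.univ.erase a := by simp [hab.symm]
    rw [← Finset.mul_prod_erase _ _ hb]
    rw [Finset.prod_eq_one]
    · simp [hab.symm]
    · intro l hl
      simp only [Finset.mem_erase, Finset.mem_univ, and_true] at hl
      simp [hl.1, hl.2]
  simp only [h1] at this
  rw [this]
  rw [← Finset.mul_prod_erase Finset.univ _ (Finset.mem_univ a)]
  have hb : b ∈ Finset.univ.erase a := by simp [hab.symm]
  rw [← Finset.mul_prod_erase _ _ hb]
  rw [Finset.prod_eq_one (s := (Finset.univ.erase a).erase b)]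
  · simp [hab.symm]
  · intro l hl
    simp only [Finset.mem_erase, Finset.mem_univ, and_true] at hl
    simp [hl.1, hl.2, hw]

/-- second moment of a sum of independent centred variables over a subset of the coordinates -/
theorem prodw_var (w : L → Ω → ℝ) (hw : ∀ l, ∑ ω, w l ω = 1) (A : Finset L) (g : Ω → ℝ)
    (hg : ∀ l ∈ A, ∑ ω, w l ω * g ω = 0) (V : ℝ) (hV : ∀ l ∈ A, ∑ ω, w l ω * g ω ^ 2 ≤ V) :
    ∑ y : L → Ω, (∏ l, w l (y l)) * (∑ a ∈ A, g (y a)) ^ 2 ≤ A.card * V := by
  have h1 : ∀ y : L → Ω, (∏ l, w l (y l)) * (∑ a ∈ A, g (y a)) ^ 2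
      = ∑ a ∈ A, ∑ b ∈ A, (∏ l, w l (y l)) * (g (y a) * g (y b)) := by
    intro y
    rw [sq, Finset.sum_mul_sum, Finset.mul_sum]
    refine Finset.sum_congr rfl fun a _ => ?_
    rw [Finset.mul_sum]
  simp only [h1]
  rw [Finset.sum_comm]
  have h2 : ∀ a ∈ A, ∑ y : L → Ω, ∑ b ∈ A, (∏ l, w l (y l)) * (g (y a) * g (y b)) ≤ V := by
    intro a ha
    rw [Finset.sum_comm, Finset.sum_eq_single a]
    · have := prodw_single w hw a (fun ω => g ω ^ 2)
      simp only [← sq]
      rw [this]
      exact hV a ha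
    · intro b hb hba
      rw [prodw_pair w hw a b (Ne.symm hba) g g, hg a ha, zero_mul]
    · intro h; exact absurd ha h
  calc _ ≤ ∑ a ∈ A, V := Finset.sum_le_sum h2
    _ = A.card * V := by rw [Finset.sum_const, nsmul_eq_mul]

end product

/-- T8b: planted secrets are good with high probability (Chebyshev). -/
theorem good_prob (k t τ S : ℕ) (hS : 1 ≤ S) (β θ : ℝ) (hβ : 0 < β) (hθ : 0 < θ)
    (hSβ : 16 * (τ : ℝ) / (β * θ ^ 2) ≤ S)
    (μ : (Fin (k + 1) × NN t → Bool) → ℝ) (h0 : ∀ x, 0 ≤ μ x) (h1 : ∑ x, μ x = 1)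
    (hμ : θ ≤ ∑ x, μ x * phi k t (fun a i => x (a, i))) (κ : Fin τ → Bool)
    [DecidablePred (Good k t τ S (θ / 4) (3 * θ / 4) κ)] :
    1 - β ≤ ∑ z : ZI k t τ S → Bool, if Good k t τ S (θ / 4) (3 * θ / 4) κ z then
      ∏ l : Fin τ × Fin S, (if κ l.1 then μ (fun i => z (l, i))
        else 1 / (Fintype.card (Fin (k + 1) × NN t → Bool) : ℝ)) else 0 := by
  classical
  set w : Fin τ × Fin S → (Fin (k + 1) × NN t → Bool) → ℝ := fun l ω => if κ l.1 then μ ω else
    1 / (Fintype.card (Fin (k + 1) × NN t → Bool) : ℝ) with hw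
  have hcard : (0 : ℝ) < Fintype.card (Fin (k + 1) × NN t → Bool) := by
    exact_mod_cast Fintype.card_pos
  have hw1 : ∀ l, ∑ ω, w l ω = 1 := by
    intro l
    simp only [hw]
    cases κ l.1
    · simp only [Bool.false_eq_true, if_false, Finset.sum_const, Finset.card_univ, nsmul_eq_mul]
      field_simp
    · simpa using h1
  have hw0 : ∀ l ω, 0 ≤ w l ω := by
    intro l ω
    simp only [hw]
    split_ifs
    · exact h0 ω
    · positivity
  set φ : (Fin (k + 1) × NN t → Bool) → ℝ := fun ω => phi k t (fun a i => ω (a, i)) with hφ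
  have hφ1 : ∀ ω, φ ω ^ 2 ≤ 1 := by
    intro ω
    have := phi_abs_le k t (fun a i => ω (a, i))
    rw [← sq_abs]
    have h3 : |φ ω| ≤ 1 := this
    nlinarith [abs_nonneg (φ ω)]
  set M : ℝ := ∑ x, μ x * phi k t (fun a i => x (a, i)) with hM
  set m : Fin τ → ℝ := fun u => if κ u then M else 0 with hm
  have hmean : ∀ l, ∑ ω, w l ω * φ ω = m l.1 := by
    intro l
    simp only [hw, hm]
    cases κ l.1
    · simp only [Bool.false_eq_true, if_false, ← Finset.mul_sum]
      have := phi_avg k t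
      simp only [hφ]
      rw [this, mul_zero]
    · simp [hM, hφ]
  have hcent : ∀ l, ∑ ω, w l ω * (φ ω - m l.1) = 0 := by
    intro l
    simp only [mul_sub, Finset.sum_sub_distrib, hmean, ← Finset.sum_mul, hw1]
    ring
  have hvar : ∀ l, ∑ ω, w l ω * (φ ω - m l.1) ^ 2 ≤ 1 := by
    intro l
    have e1 : ∀ ω, w l ω * (φ ω - m l.1) ^ 2
        = w l ω * φ ω ^ 2 - 2 * m l.1 * (w l ω * φ ω) + m l.1 ^ 2 * w l ω := by
      intro ω; ring
    simp only [e1, Finset.sum_add_distrib, Finset.sum_sub_distrib, ← Finset.mul_sum, hmean, hw1]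
    have e2 : ∑ ω, w l ω * φ ω ^ 2 ≤ ∑ ω, w l ω := by
      refine Finset.sum_le_sum fun ω _ => ?_
      have := mul_le_mul_of_nonneg_left (hφ1 ω) (hw0 l ω)
      linarith
    rw [hw1] at e2
    nlinarith [sq_nonneg (m l.1)]
  -- reindex
  set P : (ZI k t τ S → Bool) → ℝ := fun z => ∏ l : Fin τ × Fin S, w l (fun i => z (l, i))
    with hP
  have hP0 : ∀ z, 0 ≤ P z := fun z => Finset.prod_nonneg fun l _ => hw0 l _
  have hcur : ∀ F : (Fin τ × Fin S → (Fin (k + 1) × NN t → Bool)) → ℝ,
      ∑ z : ZI k t τ S → Bool, F (fun l i => z (l, i)) = ∑ y, F y := by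
    intro F
    exact Equiv.sum_comp (Equiv.curry (Fin τ × Fin S) (Fin (k + 1) × NN t) Bool) F
  have hP1 : ∑ z, P z = 1 := by
    rw [hcur (fun y => ∏ l, w l (y l)), prodw_one w hw1]
  set X : Fin τ → (ZI k t τ S → Bool) → ℝ := fun u z =>
    ∑ s : Fin S, (φ (fun i => z ((u, s), i)) - m u) with hX
  have hXvar : ∀ u, ∑ z, P z * X u z ^ 2 ≤ S := by
    intro u
    have h3 := prodw_var w hw1 (({u} : Finset (Fin τ)) ×ˢ (Finset.univ : Finset (Fin S)))
      (fun ω => φ ω - m u)
      (by
        intro l hl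
        simp only [Finset.mem_product, Finset.mem_singleton, Finset.mem_univ, and_true] at hl
        rw [← hl]; exact hcent l) 1
      (by
        intro l hl
        simp only [Finset.mem_product, Finset.mem_singleton, Finset.mem_univ, and_true] at hl
        rw [← hl]; exact hvar l)
    simp only [Finset.sum_product, Finset.sum_singleton, Finset.card_product,
      Finset.card_singleton, one_mul, Finset.card_univ, Fintype.card_fin, mul_one] at h3
    rw [← hcur (fun y => (∏ l, w l (y l)) * (∑ s : Fin S, (φ (y (u, s)) - m u)) ^ 2)] at h3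
    exact h3
  have hSpos : (0 : ℝ) < S := by exact_mod_cast hS
  have hXavg : ∀ u z, X u z = S * (avgphi k t τ S z u - m u) := by
    intro u z
    simp only [hX, hφ, avgphi, Finset.sum_sub_distrib, Finset.sum_const, Finset.card_univ,
      Fintype.card_fin, nsmul_eq_mul]
    field_simp
  have hbad : ∀ z, ¬ Good k t τ S (θ / 4) (3 * θ / 4) κ z →
      1 ≤ 16 / (S ^ 2 * θ ^ 2) * ∑ u, X u z ^ 2 := by
    intro z hz
    have : ∃ u, (S * θ / 4) ^ 2 ≤ X u z ^ 2 := by
      by_contra hcon
      push Not at hcon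
      apply hz
      intro u
      have h4 := abs_lt_of_sq_lt_sq (hcon u) (by positivity)
      rw [hXavg, abs_lt] at h4
      obtain ⟨h5, h6⟩ := h4
      have h7 : -(θ / 4) < avgphi k t τ S z u - m u := by
        have : S * (-(θ / 4)) < S * (avgphi k t τ S z u - m u) := by linarith
        exact lt_of_mul_lt_mul_left this hSpos.le
      have h8 : avgphi k t τ S z u - m u < θ / 4 := by
        have : S * (avgphi k t τ S z u - m u) < S * (θ / 4) := by linarith
        exact lt_of_mul_lt_mul_left this hSpos.le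
      constructor
      · intro hκ
        have : m u = M := by simp [hm, hκ]
        rw [this] at h7
        linarith
      · intro hκ
        have : m u = 0 := by simp [hm, hκ]
        rw [this] at h8
        linarith
    obtain ⟨u, hu⟩ := this
    have h9 : X u z ^ 2 ≤ ∑ u, X u z ^ 2 :=
      Finset.single_le_sum (f := fun u => X u z ^ 2) (fun i _ => sq_nonneg _) (Finset.mem_univ u)
    have h10 : (S * θ / 4) ^ 2 ≤ ∑ u, X u z ^ 2 := le_trans hu h9
    have h11 : 16 / (S ^ 2 * θ ^ 2) * (S * θ / 4) ^ 2 = (1 : ℝ) := by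
      field_simp
      norm_num
    calc (1 : ℝ) = 16 / (S ^ 2 * θ ^ 2) * (S * θ / 4) ^ 2 := h11.symm
      _ ≤ _ := mul_le_mul_of_nonneg_left h10 (by positivity)
  -- conclusion
  have hfin : ∑ z, (P z - (if Good k t τ S (θ / 4) (3 * θ / 4) κ z then P z else 0))
      ≤ ∑ z, P z * (16 / (S ^ 2 * θ ^ 2) * ∑ u, X u z ^ 2) := by
    refine Finset.sum_le_sum fun z _ => ?_
    by_cases hz : Good k t τ S (θ / 4) (3 * θ / 4) κ z
    · rw [if_pos hz, sub_self]
      exact mul_nonneg (hP0 z) (mul_nonneg (by positivity)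
        (Finset.sum_nonneg fun u _ => sq_nonneg _))
    · rw [if_neg hz, sub_zero]
      have := mul_le_mul_of_nonneg_left (hbad z hz) (hP0 z)
      linarith
  have hrhs : ∑ z, P z * (16 / (S ^ 2 * θ ^ 2) * ∑ u, X u z ^ 2) ≤ β := by
    have e1 : ∀ z, P z * (16 / ((S : ℝ) ^ 2 * θ ^ 2) * ∑ u, X u z ^ 2)
        = 16 / ((S : ℝ) ^ 2 * θ ^ 2) * ∑ u, P z * X u z ^ 2 := by
      intro z; rw [Finset.mul_sum, Finset.mul_sum, Finset.mul_sum]
      refine Finset.sum_congr rfl fun u _ => ?_
      ring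
    simp only [e1]
    rw [← Finset.mul_sum, Finset.sum_comm]
    have e2 : ∑ u : Fin τ, ∑ z, P z * X u z ^ 2 ≤ ∑ u : Fin τ, (S : ℝ) :=
      Finset.sum_le_sum fun u _ => hXvar u
    rw [Finset.sum_const, Finset.card_univ, Fintype.card_fin, nsmul_eq_mul] at e2
    calc _ ≤ 16 / ((S : ℝ) ^ 2 * θ ^ 2) * (τ * S) :=
          mul_le_mul_of_nonneg_left e2 (by positivity)
      _ = 16 * τ / (S * θ ^ 2) := by field_simp
      _ ≤ β := by
        rw [div_le_iff₀ (by positivity)] at hSβ ⊢
        nlinarith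
  rw [Finset.sum_sub_distrib, hP1] at hfin
  linarith

end Crest.Agent.R350
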