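import Crest.Agent.R350.HTestPath
import Crest.Agent.R350.QCore

/-! Row 350, T3: the Hadamard test for `phi`. -/

set_option autoImplicit false

namespace Crest.Agent.R350

open Finset Matrix

set_option linter.unusedSectionVars false

variable {ι : Type} [Fintype ι] [DecidableEq ι]

section phase

variable {K : Type} [Fintype K] [DecidableEq K]

/-- amplitude of the target qubit: `|+⟩` if the control is off, `|-⟩` if it is on -/
noncomputable def tg (c b : Bool) : ℝ := (1 / Real.sqrt 2) * (if c && b then -1 else 1)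

theorem tg_norm (c : Bool) : ∑ b, tg c b * tg c b = 1 := by
  have h : (1 / Real.sqrt 2) * (1 / Real.sqrt 2) = (1 / 2 : ℝ) := by
    rw [div_mul_div_comm, Real.mul_self_sqrt (by norm_num)]
    norm_num
  rw [Fintype.sum_bool]
  unfold tg
  cases c <;> norm_num at h ⊢ <;> linarith

theorem tg_xor (c b v : Bool) : tg c (xor b v) = tg c b * (if c then sg v else 1) := by
  unfold tg sg
  cases c <;> cases b <;> cases v <;> simp

/-- phase-query embedding -/
noncomputable def phJ (adr : K → ι) (ctl : K → Bool) : Matrix (ι × Bool × K) K ℂ :=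
  fun e k => if e.1 = adr k ∧ e.2.2 = k then ((tg (ctl k) e.2.1 : ℝ) : ℂ) else 0

/-- the phase matrix -/
noncomputable def phD (adr : K → ι) (ctl : K → Bool) (x : ι → Bool) : Matrix K K ℂ :=
  Matrix.diagonal fun k => (((if ctl k then sg (x (adr k)) else 1) : ℝ) : ℂ)

theorem phJ_iso (adr : K → ι) (ctl : K → Bool) : (phJ adr ctl)ᴴ * phJ adr ctl = 1 := by
  ext k k'
  rw [Matrix.mul_apply, Matrix.one_apply]
  simp only [Matrix.conjTranspose_apply, phJ]
  rw [Fintype.sum_prod_type]
  simp_rw [Fintype.sum_prod_type]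
  by_cases h : k = k'
  · subst h
    rw [if_pos rfl, sum_eq_single (adr k)]
    · have h1 : ∀ b, (∑ z : K, star (if adr k = adr k ∧ z = k then ((tg (ctl k) b : ℝ) : ℂ) else 0) *
          (if adr k = adr k ∧ z = k then ((tg (ctl k) b : ℝ) : ℂ) else 0)) =
          ((tg (ctl k) b * tg (ctl k) b : ℝ) : ℂ) := by
        intro b
        rw [sum_eq_single k]
        · simp
        · intro z _ hz
          simp [hz]
        · simp
      rw [sum_congr rfl (fun b _ => h1 b), ← Complex.ofReal_sum, tg_norm]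
      simp
    · intro i _ hi
      simp [hi]
    · simp
  · rw [if_neg h]
    refine sum_eq_zero fun i _ => sum_eq_zero fun b _ => sum_eq_zero fun z _ => ?_
    by_cases h1 : z = k
    · have h2 : ¬ z = k' := fun h2 => h (h1.symm.trans h2)
      simp [h2]
    · simp [h1]

theorem OM_phJ (adr : K → ι) (ctl : K → Bool) (x : ι → Bool) :
    OM K x * phJ adr ctl = phJ adr ctl * phD adr ctl x := by
  ext e k
  rw [Matrix.mul_apply]
  have h1 : ∀ e', OM K x e e' * phJ adr ctl e' k =
      if e' = (e.1, xor e.2.1 (x e.1), e.2.2) then phJ adr ctl e' k else 0 := by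
    intro e'
    unfold OM
    split_ifs <;> simp
  simp_rw [h1]
  rw [sum_ite_eq' univ, if_pos (mem_univ _)]
  unfold phD
  rw [Matrix.mul_diagonal]
  simp only [phJ]
  by_cases h : e.1 = adr k ∧ e.2.2 = k
  · rw [if_pos h, if_pos h, tg_xor, h.1]
    push_cast
    rfl
  · rw [if_neg h, if_neg h, zero_mul]

theorem QI_phase (adr : K → ι) (ctl : K → Bool) : QI K K 1 (phD adr ctl) := by
  refine ⟨K, inferInstance, inferInstance, fun x => 1 * OM K x * 1, phJ adr ctl, phJ adr ctl,
    ?_, phJ_iso _ _, phJ_iso _ _, fun x => ?_⟩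
  · exact Impl.step 0 (fun _ => 1) (Impl.const 1 (one_mem _)) 1 (one_mem _)
  · show (1 * OM K x * 1) * phJ adr ctl = _
    rw [one_mul, mul_one, OM_phJ]

end phase

/-- controlled Walsh transform -/
noncomputable def cWal (t : ℕ) : Matrix (Bool × NN t) (Bool × NN t) ℂ :=
  fun a b => (((if a.1 = b.1 then (if a.1 then wal a.2 b.2 / Real.sqrt (2 ^ t) else
    (if a.2 = b.2 then 1 else 0)) else 0) : ℝ) : ℂ)

theorem cWal_iso (t : ℕ) : (cWal t)ᴴ * cWal t = 1 := by
  ext ⟨a, i⟩ ⟨b, j⟩
  rw [Matrix.mul_apply, Matrix.one_apply]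
  simp only [Matrix.conjTranspose_apply, cWal, Complex.star_def, Complex.conj_ofReal]
  simp_rw [← Complex.ofReal_mul]
  rw [← Complex.ofReal_sum, Fintype.sum_prod_type, Fintype.sum_bool]
  have h0 := sqrt_two_pow_pos t
  have hs := sqrt_two_pow_mul t
  have h1 : ∑ y : NN t, wal y i / Real.sqrt (2 ^ t) * (wal y j / Real.sqrt (2 ^ t)) =
      if i = j then 1 else 0 := by
    have h2 : ∀ y : NN t, wal y i / Real.sqrt (2 ^ t) * (wal y j / Real.sqrt (2 ^ t)) =
        (wal i y * wal y j) / 2 ^ t := by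
      intro y
      rw [div_mul_div_comm, hs, wal_symm y i]
    simp_rw [h2]
    rw [← sum_div, wal_orth]
    split_ifs <;> simp
  cases a <;> cases b
  · by_cases hij : i = j
    · subst hij; simp
    · simp [hij, Ne.symm hij]
  · simp
  · simp
  · simp only [if_true, Bool.false_eq_true, if_false, Prod.mk.injEq, true_and]
    rw [h1]
    split_ifs <;> simp

/-- final Hadamard gate on the control -/
noncomputable def fHad (t : ℕ) : Matrix (Bool × NN t) (Bool × NN t) ℂ :=
  fun a b => (((if a.2 = b.2 then tg a.1 b.1 else 0) : ℝ) : ℂ)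

theorem fHad_iso (t : ℕ) : (fHad t)ᴴ * fHad t = 1 := by
  have h : (1 / Real.sqrt 2) * (1 / Real.sqrt 2) = (1 / 2 : ℝ) := by
    rw [div_mul_div_comm, Real.mul_self_sqrt (by norm_num)]
    norm_num
  ext ⟨a, i⟩ ⟨b, j⟩
  rw [Matrix.mul_apply, Matrix.one_apply]
  simp only [Matrix.conjTranspose_apply, fHad, Complex.star_def, Complex.conj_ofReal]
  simp_rw [← Complex.ofReal_mul]
  rw [← Complex.ofReal_sum, Fintype.sum_prod_type]
  have h1 : ∀ c : Bool, ∑ y : NN t, (if y = i then tg c a else 0) * (if y = j then tg c b else 0)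
      = if i = j then tg c a * tg c b else 0 := by
    intro c
    rw [sum_eq_single i]
    · simp
    · intro y _ hy
      simp [hy]
    · simp
  simp only
  simp_rw [h1]
  rw [Fintype.sum_bool]
  unfold tg
  by_cases hij : i = j
  · subst hij
    cases a <;> cases b <;> simp at h ⊢ <;> norm_cast <;> linarith
  · simp [hij]

/-- the state before the final Hadamard gate -/
noncomputable def preV (t k : ℕ) (y : Fin (k + 1) → NN t → Bool) : Matrix (Bool × NN t) Unit ℂ :=
  fun a _ => (((if a.1 then vec t k y a.2 else 1 / Real.sqrt (2 ^ t)) / Real.sqrt 2 : ℝ) : ℂ)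

/-- the initial state -/
noncomputable def iniV (t : ℕ) : Matrix (Bool × NN t) Unit ℂ :=
  fun _ _ => (((1 / Real.sqrt (2 ^ t)) / Real.sqrt 2 : ℝ) : ℂ)

theorem iniV_iso (t : ℕ) : (iniV t)ᴴ * iniV t = 1 := by
  ext ⟨⟩ ⟨⟩
  rw [Matrix.mul_apply, Matrix.one_apply, if_pos rfl]
  simp only [Matrix.conjTranspose_apply, iniV, Complex.star_def, Complex.conj_ofReal]
  simp_rw [← Complex.ofReal_mul]
  rw [← Complex.ofReal_sum, Fintype.sum_prod_type, Fintype.sum_bool]
  have h1 : ∑ _j : NN t, ((1 / Real.sqrt (2 ^ t)) / Real.sqrt 2) *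
      ((1 / Real.sqrt (2 ^ t)) / Real.sqrt 2) = 1 / 2 := by
    have h2 : ((1 / Real.sqrt (2 ^ t)) / Real.sqrt 2) * ((1 / Real.sqrt (2 ^ t)) / Real.sqrt 2) =
        (1 / Real.sqrt (2 ^ t)) ^ 2 / 2 := by
      rw [div_mul_div_comm, Real.mul_self_sqrt (by norm_num), sq]
    rw [h2, ← sum_div, unif_norm]
  rw [h1]
  norm_num

theorem phD_cWal_preV (t k : ℕ) (adr : Fin (k + 2) → NN t → ι) (x : ι → Bool) :
    phD (fun a : Bool × NN t => adr (Fin.last (k + 1)) a.2) (fun a => a.1) x *
      (cWal t * preV t k (fun a i => x (adr a.castSucc i))) =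
    preV t (k + 1) (fun a i => x (adr a i)) := by
  ext ⟨a, i⟩ ⟨⟩
  unfold phD
  rw [Matrix.diagonal_mul, Matrix.mul_apply]
  simp only [cWal, preV]
  simp_rw [← Complex.ofReal_mul]
  rw [← Complex.ofReal_sum, ← Complex.ofReal_mul]
  congr 1
  rw [Fintype.sum_prod_type, Fintype.sum_bool]
  cases a
  · simp
  · simp only [if_true, Bool.true_eq_false, if_false, zero_mul, sum_const_zero, add_zero, vec]
    simp_rw [← mul_div_assoc]
    rw [← sum_div, mul_div_assoc]

theorem phD_iniV (t : ℕ) (adr : Fin 1 → NN t → ι) (x : ι → Bool) :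
    phD (fun a : Bool × NN t => adr 0 a.2) (fun a => a.1) x * iniV t =
    preV t 0 (fun a i => x (adr a i)) := by
  ext ⟨a, i⟩ ⟨⟩
  unfold phD
  rw [Matrix.diagonal_mul]
  simp only [iniV, preV, vec]
  rw [← Complex.ofReal_mul]
  congr 1
  cases a
  · simp
  · simp only [if_true]
    ring

theorem QI_preV (t k : ℕ) (adr : Fin (k + 1) → NN t → ι) :
    QI Unit (Bool × NN t) (k + 1) (fun x => preV t k (fun a i => x (adr a i))) := by
  have : Nonempty ι := ⟨adr 0 (fun _ => false)⟩
  induction k with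
  | zero =>
    have h := QI_comp (QI_const (ι := ι) (iniV t) (iniV_iso t))
      (QI_phase (fun a : Bool × NN t => adr 0 a.2) (fun a => a.1))
    simp_rw [phD_iniV] at h
    exact h
  | succ k ih =>
    have h := QI_comp (QI_comp (ih (fun a => adr a.castSucc)) (QI_const (ι := ι) (cWal t) (cWal_iso t)))
      (QI_phase (fun a : Bool × NN t => adr (Fin.last (k + 1)) a.2) (fun a => a.1))
    simp_rw [phD_cWal_preV] at h
    exact h

theorem fHad_preV (t k : ℕ) (y : Fin (k + 1) → NN t → Bool) :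
    fHad t * preV t k y = fun a _ =>
      ((((1 / Real.sqrt (2 ^ t)) + (if a.1 then -1 else 1) * vec t k y a.2) / 2 : ℝ) : ℂ) := by
  have h : Real.sqrt 2 * Real.sqrt 2 = 2 := Real.mul_self_sqrt (by norm_num)
  ext ⟨a, i⟩ ⟨⟩
  rw [Matrix.mul_apply]
  simp only [fHad, preV]
  simp_rw [← Complex.ofReal_mul]
  rw [← Complex.ofReal_sum]
  congr 1
  rw [Fintype.sum_prod_type, Fintype.sum_bool]
  simp only [ite_mul, zero_mul, sum_ite_eq, mem_univ, if_true]
  unfold tg
  have h2 : ∀ c v : ℝ, 1 / Real.sqrt 2 * c * (v / Real.sqrt 2) = c * v / 2 := by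
    intro c v
    have h0 : Real.sqrt 2 ≠ 0 := by positivity
    generalize Real.sqrt 2 = s at h h0 ⊢
    rw [← h]
    field_simp
  simp_rw [h2]
  cases a
  · simp only [Bool.false_and, Bool.false_eq_true, if_false]
    ring
  · simp only [Bool.true_and, Bool.false_eq_true, if_false, if_true]
    ring

/-- T3 (HTest): Hadamard test for `phi` on the blocks at addresses `adr a i`. -/
theorem QSamp_htest (k t : ℕ) (adr : Fin (k + 1) → NN t → ι) :
    QSamp (ι := ι) Bool (k + 1)
      (fun x b => (1 + (if b then 1 else -1) * phi k t (fun a i => x (adr a i))) / 2) := by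
  have : Nonempty ι := ⟨adr 0 (fun _ => false)⟩
  have h := QI_comp (QI_preV t k adr) (QI_const (ι := ι) (fHad t) (fHad_iso t))
  simp_rw [fHad_preV] at h
  refine ⟨Bool × NN t, inferInstance, inferInstance, fun x a =>
    ((((1 / Real.sqrt (2 ^ t)) + (if a.1 then -1 else 1) *
      vec t k (fun a i => x (adr a i)) a.2) / 2 : ℝ) : ℂ), fun a => !a.1, h, fun x b => ?_⟩
  rw [Fintype.sum_prod_type, Fintype.sum_bool]
  have hn : ∀ r : ℝ, ‖(r : ℂ)‖ ^ 2 = r ^ 2 := fun r => by
    rw [Complex.norm_real, Real.norm_eq_abs, sq_abs]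
  simp_rw [hn]
  cases b
  · simp only [Bool.not_true, Bool.not_false, if_true, Bool.false_eq_true, Bool.true_eq_false,
      if_false, sum_const_zero, add_zero]
    rw [htest_sum k t _ (-1) (by norm_num)]
  · simp only [Bool.not_true, Bool.not_false, if_true, Bool.false_eq_true, Bool.true_eq_false,
      if_false, sum_const_zero, zero_add]
    rw [htest_sum k t _ 1 (by norm_num)]

end Crest.Agent.R350
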