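import Crest.Agent.R350.QCore

/-! Row 350, T1: the calculus of `QSamp`. -/

set_option autoImplicit false
set_option linter.unusedSectionVars false
set_option linter.unusedSimpArgs false

namespace Crest.Agent.R350

open Finset Matrix Crest.MathPhysics.Query

variable {ι : Type} [Fintype ι] [DecidableEq ι]

theorem QSamp_nonneg {Ω : Type} [DecidableEq Ω] {q : ℕ} {μ : (ι → Bool) → Ω → ℝ}
    (h : QSamp Ω q μ) (x : ι → Bool) (ω : Ω) : 0 ≤ μ x ω := by
  obtain ⟨K, _, _, ψ, out, _, hμ⟩ := h
  rw [hμ]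
  refine Finset.sum_nonneg fun k _ => ?_
  split_ifs <;> positivity

theorem QI_norm {K : Type} [Fintype K] [DecidableEq K] {q : ℕ} {ψ : (ι → Bool) → K → ℂ}
    (h : QI Unit K q (fun x => Matrix.of fun k (_ : Unit) => ψ x k)) (x : ι → Bool) :
    ∑ k, ‖ψ x k‖ ^ 2 = 1 := by
  have := congrFun (congrFun (QI_isom h x) ()) ()
  rw [Matrix.mul_apply] at this
  simp only [conjTranspose_apply, Matrix.of_apply, Matrix.one_apply_eq] at this
  have h2 : ((∑ k, ‖ψ x k‖ ^ 2 : ℝ) : ℂ) = 1 := by
    rw [← this]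
    push_cast
    refine Finset.sum_congr rfl fun k _ => ?_
    rw [Complex.star_def, Complex.conj_mul']
  exact_mod_cast h2

theorem QSamp_sum_one {Ω : Type} [Fintype Ω] [DecidableEq Ω] {q : ℕ} {μ : (ι → Bool) → Ω → ℝ}
    (h : QSamp Ω q μ) (x : ι → Bool) : ∑ ω, μ x ω = 1 := by
  obtain ⟨K, _, _, ψ, out, hψ, hμ⟩ := h
  simp only [hμ]
  rw [Finset.sum_comm]
  simp only [Finset.sum_ite_eq, Finset.mem_univ, if_true]
  exact QI_norm hψ x


/-- reading a bit as an isometry -/
theorem QI_read (i : ι) :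
    QI (ι := ι) Unit Bool 1 (fun x => Matrix.of fun b (_ : Unit) => if x i = b then (1 : ℂ) else 0) := by
  refine ⟨Unit, inferInstance, inferInstance, fun x => OM Unit x,
    Matrix.of fun e (_ : Unit) => if e = (i, false, ()) then 1 else 0,
    Matrix.of fun e b => if e = (i, b, ()) then 1 else 0, Impl_OM, ?_, ?_, ?_⟩
  · ext a b
    rw [Matrix.mul_apply]
    simp only [conjTranspose_apply, Matrix.of_apply]
    rw [Finset.sum_eq_single (i, false, ())]
    · simp
    · intro c _ hc
      simp [hc]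
    · intro h
      exact absurd (Finset.mem_univ _) h
  · ext a b
    rw [Matrix.mul_apply]
    simp only [conjTranspose_apply, Matrix.of_apply]
    rw [Finset.sum_eq_single (i, b, ())]
    · by_cases h : a = b
      · subst h; simp
      · have h' : ¬ b = a := fun hh => h hh.symm
        simp [h, h', Matrix.one_apply]
    · intro c _ hc
      simp [hc]
    · intro h
      exact absurd (Finset.mem_univ _) h
  · intro x
    ext e u
    rw [OM_mul_apply, Matrix.mul_apply]
    simp only [Matrix.of_apply]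
    rw [Finset.sum_eq_single (x i)]
    · rcases e with ⟨j, b, w⟩
      by_cases hj : j = i
      · subst hj
        cases b <;> cases hx : x j <;> simp [hx]
      · simp [hj]
    · intro b _ hb
      have : ¬ x i = b := fun hh => hb hh.symm
      simp [this]
    · intro h
      exact absurd (Finset.mem_univ _) h

theorem QSamp_const [Nonempty ι] {Ω : Type} [Fintype Ω] [DecidableEq Ω] (p : Ω → ℝ)
    (h0 : ∀ ω, 0 ≤ p ω) (h1 : ∑ ω, p ω = 1) : QSamp (ι := ι) Ω 0 (fun _ => p) := by
  refine ⟨Ω, inferInstance, inferInstance, fun _ ω => ((Real.sqrt (p ω) : ℝ) : ℂ), id, ?_, ?_⟩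
  · refine QI_const _ ?_
    ext a b
    rw [Matrix.mul_apply]
    simp only [conjTranspose_apply, Matrix.of_apply]
    have : ∀ ω, star ((Real.sqrt (p ω) : ℝ) : ℂ) * ((Real.sqrt (p ω) : ℝ) : ℂ) = ((p ω : ℝ) : ℂ) := by
      intro ω
      rw [Complex.star_def, Complex.conj_ofReal, ← Complex.ofReal_mul,
        Real.mul_self_sqrt (h0 ω)]
    simp only [this]
    rw [← Complex.ofReal_sum, h1]
    simp
  · intro x ω
    have : ∀ k, ‖((Real.sqrt (p k) : ℝ) : ℂ)‖ ^ 2 = p k := by
      intro k
      rw [Complex.norm_real, Real.norm_eq_abs, sq_abs, Real.sq_sqrt (h0 k)]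
    simp only [this, id]
    simp

theorem QSamp_read (i : ι) : QSamp (ι := ι) Bool 1 (fun x b => if x i = b then 1 else 0) := by
  refine ⟨Bool, inferInstance, inferInstance, fun x b => if x i = b then (1 : ℂ) else 0, id,
    QI_read i, ?_⟩
  intro x b
  simp only [id]
  rw [Finset.sum_ite_eq']
  simp only [Finset.mem_univ, if_true]
  split_ifs <;> simp

/-- post-processing by a fixed isometry -/
theorem QI_post [Nonempty ι] {K K' K'' : Type} [Fintype K] [DecidableEq K] [Fintype K']
    [DecidableEq K'] [Fintype K''] [DecidableEq K''] {q : ℕ} {A : (ι → Bool) → Matrix K' K ℂ}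
    (h : QI K K' q A) (B : Matrix K'' K' ℂ) (hB : Bᴴ * B = 1) :
    QI K K'' q (fun x => B * A x) := by
  have := QI_comp h (QI_const (ι := ι) B hB)
  simpa using this

theorem QSamp_map {Ω Ω' : Type} [Fintype Ω] [DecidableEq Ω] [Fintype Ω'] [DecidableEq Ω'] {q : ℕ}
    {μ : (ι → Bool) → Ω → ℝ} (h : QSamp Ω q μ) (F : Ω → Ω') :
    QSamp Ω' q (fun x ω' => ∑ ω, if F ω = ω' then μ x ω else 0) := by
  obtain ⟨K, _, _, ψ, out, hψ, hμ⟩ := h
  refine ⟨K, inferInstance, inferInstance, ψ, fun k => F (out k), hψ, ?_⟩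
  intro x ω'
  simp only [hμ]
  have : ∀ ω, (if F ω = ω' then ∑ k, (if out k = ω then ‖ψ x k‖ ^ 2 else 0) else 0)
      = ∑ k, (if out k = ω then (if F ω = ω' then ‖ψ x k‖ ^ 2 else 0) else 0) := by
    intro ω
    split_ifs with hF
    · rfl
    · simp
  simp only [this]
  rw [Finset.sum_comm]
  refine Finset.sum_congr rfl fun k _ => ?_
  simp

theorem QSamp_bind {Ω Ω' : Type} [Fintype Ω] [DecidableEq Ω] [Fintype Ω'] [DecidableEq Ω']
    {q q' : ℕ} {μ : (ι → Bool) → Ω → ℝ} {ν : Ω → (ι → Bool) → Ω' → ℝ}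
    (hμ : QSamp Ω q μ) (hν : ∀ ω, QSamp Ω' q' (ν ω)) :
    QSamp Ω' (q + q') (fun x ω' => ∑ ω, μ x ω * ν ω x ω') := by
  obtain ⟨K, _, _, ψ, out, hψ, hμ⟩ := hμ
  -- `ι` is nonempty
  have hne : Nonempty ι := by
    obtain ⟨W, _, _, V, J, J', hI, hJ, hJ', hV⟩ := hψ
    by_contra hemp
    rw [not_nonempty_iff] at hemp
    have := congrFun (congrFun hJ ()) ()
    rw [Matrix.mul_apply] at this
    simp at this
  choose K₂ fK dK ψ₂ out₂ hψ₂ hν₂ using hν
  let _ : ∀ ω, Fintype (K₂ ω) := fK
  let _ : ∀ ω, DecidableEq (K₂ ω) := dK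
  -- common space
  let L : Type := Σ ω, K₂ ω
  have hL : ∀ ω, QI (ι := ι) Unit L q' (fun x => Matrix.of fun (l : L) (_ : Unit) =>
      if h : l.1 = ω then ψ₂ ω x (h ▸ l.2) else 0) := by
    intro ω
    set B : Matrix L (K₂ ω) ℂ := Matrix.of fun l k => if l = ⟨ω, k⟩ then 1 else 0 with hB
    have hBB : Bᴴ * B = 1 := by
      ext a b
      rw [Matrix.mul_apply]
      simp only [conjTranspose_apply, Matrix.of_apply, hB]
      rw [Finset.sum_eq_single (⟨ω, b⟩ : L)]
      · by_cases h : a = b
        · subst h; simp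
        · have h' : ¬ ((⟨ω, b⟩ : L) = ⟨ω, a⟩) := fun hh => h (eq_of_heq (Sigma.mk.inj hh).2).symm
          simp [h', Matrix.one_apply, h]
      · intro c _ hc
        simp [hc]
      · intro h
        exact absurd (Finset.mem_univ _) h
    have := QI_post (hψ₂ ω) B hBB
    convert this using 2 with x
    ext l u
    rw [Matrix.mul_apply]
    simp only [Matrix.of_apply, hB]
    rcases l with ⟨ω', k⟩
    by_cases h : ω' = ω
    · subst h
      rw [Finset.sum_eq_single k]
      · simp
      · intro b _ hb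
        have : ¬ ((⟨ω', k⟩ : L) = ⟨ω', b⟩) := fun hh => hb (eq_of_heq (Sigma.mk.inj hh).2).symm
        rw [if_neg this, zero_mul]
      · intro h
        exact absurd (Finset.mem_univ _) h
    · rw [dif_neg h]
      symm
      refine Finset.sum_eq_zero fun b _ => ?_
      rw [if_neg]
      · simp
      · intro hh
        exact h (congrArg Sigma.fst hh)
  have hC := QI_ctrl (C := K) (fun k => hL (out k))
  have hT := QI_comp hψ hC
  refine ⟨K × L, inferInstance, inferInstance,
    fun x p => ψ x p.1 * (if h : p.2.1 = out p.1 then ψ₂ (out p.1) x (h ▸ p.2.2) else 0),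
    fun p => out₂ p.2.1 p.2.2, ?_, ?_⟩
  · convert hT using 2 with x
    ext p u
    rw [Matrix.mul_apply]
    simp only [Matrix.of_apply]
    rw [Finset.sum_eq_single p.1]
    · simp [mul_comm]
    · intro b _ hb
      have : ¬ p.1 = b := fun hh => hb hh.symm
      simp [this]
    · intro h
      exact absurd (Finset.mem_univ _) h
  · intro x ω'
    rw [Fintype.sum_prod_type]
    have inner : ∀ k, ∑ l : L, (if out₂ l.1 l.2 = ω' then
        ‖ψ x k * (if h : l.1 = out k then ψ₂ (out k) x (h ▸ l.2) else 0)‖ ^ 2 else 0)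
        = ‖ψ x k‖ ^ 2 * ν (out k) x ω' := by
      intro k
      rw [hν₂, Finset.mul_sum, ← Finset.univ_sigma_univ, Finset.sum_sigma,
        Finset.sum_eq_single (out k)]
      · refine Finset.sum_congr rfl fun a _ => ?_
        simp only [dif_pos]
        split_ifs <;> simp [mul_pow]
      · intro ω _ hω
        refine Finset.sum_eq_zero fun a _ => ?_
        simp [hω]
      · intro h
        exact absurd (Finset.mem_univ _) h
    simp only [inner, hμ]
    simp only [Finset.sum_mul]
    rw [Finset.sum_comm]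
    refine Finset.sum_congr rfl fun k _ => ?_
    rw [Finset.sum_eq_single (out k)]
    · simp
    · intro b _ hb
      have : ¬ out k = b := fun hh => hb hh.symm
      simp [this]
    · intro h
      exact absurd (Finset.mem_univ _) h


theorem QSamp_succ [Nonempty ι] {Ω : Type} [Fintype Ω] [DecidableEq Ω] {q : ℕ}
    {μ : (ι → Bool) → Ω → ℝ} (h : QSamp Ω q μ) : QSamp Ω (q + 1) μ := by
  obtain ⟨i₀⟩ := (inferInstance : Nonempty ι)
  have h1 : ∀ ω : Ω, QSamp (ι := ι) Ω 1 (fun _ ω' => if ω = ω' then 1 else 0) := by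
    intro ω
    have hc : ∀ _ : Bool, QSamp (ι := ι) Ω 0 (fun _ ω' => if ω = ω' then 1 else 0) := fun _ =>
      QSamp_const _ (fun ω' => by split_ifs <;> norm_num) (by simp)
    have := QSamp_bind (QSamp_read (ι := ι) i₀) hc
    convert this using 3 with x ω'
    simp
  have h2 := QSamp_bind h h1
  convert h2 using 3 with x ω
  simp

theorem QSamp_mono [Nonempty ι] {Ω : Type} [Fintype Ω] [DecidableEq Ω] {q q' : ℕ}
    {μ : (ι → Bool) → Ω → ℝ} (h : QSamp Ω q μ) (hq : q ≤ q') : QSamp Ω q' μ := by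
  induction hq with
  | refl => exact h
  | step _ ih => exact QSamp_succ ih

theorem QSamp_ofDTE [Nonempty ι] {Ω : Type} [Fintype Ω] [DecidableEq Ω] {d : ℕ}
    {f : (ι → Bool) → Ω} (h : DTE d f) :
    QSamp Ω d (fun x ω => if f x = ω then 1 else 0) := by
  induction h with
  | const d c =>
    refine QSamp_mono (QSamp_const _ (fun ω' => ?_) ?_) (Nat.zero_le _)
    · split_ifs <;> norm_num
    · simp
  | ask d i f g hf hg ihf ihg =>
    have hb : ∀ b : Bool, QSamp (ι := ι) Ω d
        (if b then (fun x ω => if g x = ω then (1 : ℝ) else 0)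
          else (fun x ω => if f x = ω then (1 : ℝ) else 0)) := by
      intro b
      cases b
      · simpa using ihf
      · simpa using ihg
    have := QSamp_bind (QSamp_read (ι := ι) i) hb
    rw [add_comm] at this
    convert this using 3 with x ω
    rw [Fintype.sum_bool]
    cases hx : x i <;> simp [hx]

section reindex

variable {ι' : Type} [Fintype ι'] [DecidableEq ι']

/-- reindexing isometry -/
def reE (W : Type) [DecidableEq W] (e : ι ≃ ι') : Matrix (ι' × Bool × W) (ι × Bool × W) ℂ :=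
  fun a b => if a = (e b.1, b.2.1, b.2.2) then 1 else 0

theorem reE_mul {W : Type} [Fintype W] [DecidableEq W] (e : ι ≃ ι') :
    (reE W e)ᴴ * reE W e = 1 ∧ reE W e * (reE W e)ᴴ = 1 := by
  have h1 : (reE W e)ᴴ * reE W e = 1 := by
    ext a b
    rw [Matrix.mul_apply]
    simp only [conjTranspose_apply, reE]
    rw [Finset.sum_eq_single (e b.1, b.2.1, b.2.2)]
    · rcases a with ⟨a1, a2, a3⟩
      rcases b with ⟨b1, b2, b3⟩
      by_cases h : (a1, a2, a3) = (b1, b2, b3)
      · rw [h]; simp
      · rw [if_neg, Matrix.one_apply_ne h]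
        · simp
        · intro hh
          apply h
          simp only [Prod.mk.injEq, EmbeddingLike.apply_eq_iff_eq] at hh ⊢
          exact ⟨hh.1.symm, hh.2.1.symm, hh.2.2.symm⟩
    · intro c _ hc
      simp [hc]
    · intro h
      exact absurd (Finset.mem_univ _) h
  refine ⟨h1, ?_⟩
  ext a b
  rw [Matrix.mul_apply]
  simp only [conjTranspose_apply, reE]
  rw [Finset.sum_eq_single (e.symm b.1, b.2.1, b.2.2)]
  · rcases a with ⟨a1, a2, a3⟩
    rcases b with ⟨b1, b2, b3⟩
    by_cases h : (a1, a2, a3) = (b1, b2, b3)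
    · rw [h]; simp
    · rw [Matrix.one_apply_ne h]
      simp only [Prod.mk.injEq, Equiv.apply_symm_apply, not_and] at h ⊢
      rw [if_neg]
      · simp
      · intro hh
        exact h hh.1 hh.2.1 hh.2.2
  · intro c _ hc
    rw [if_neg (c := b = (e c.1, c.2.1, c.2.2))]
    · simp
    · intro hh
      apply hc
      rw [hh]
      simp
  · intro h
    exact absurd (Finset.mem_univ _) h

theorem reE_OM {W : Type} [Fintype W] [DecidableEq W] (e : ι ≃ ι') (x' : ι' → Bool) :
    (OM W x' * reE W e : Matrix (ι' × Bool × W) (ι × Bool × W) ℂ)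
      = reE W e * OM W (fun i => x' (e i)) := by
  ext a b
  rw [OM_mul_apply, Matrix.mul_apply]
  simp only [reE, OM]
  rcases a with ⟨i, c, w⟩
  rcases b with ⟨i', c', w'⟩
  rw [Finset.sum_eq_single (i', xor c' (x' (e i')), w')]
  · simp only [Prod.mk.injEq]
    by_cases h : i = e i'
    · subst h
      by_cases hw : w = w'
      · cases c <;> cases c' <;> cases x' (e i') <;> simp [hw]
      · simp [hw]
    · simp [h]
  · intro d _ hd
    rw [if_neg (c := (i', c', w') = (d.1, xor d.2.1 (x' (e d.1)), d.2.2)), mul_zero]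
    intro h
    apply hd
    rcases d with ⟨d1, d2, d3⟩
    simp only [Prod.mk.injEq] at h ⊢
    obtain ⟨rfl, h2, rfl⟩ := h
    refine ⟨rfl, ?_, rfl⟩
    rw [h2]
    simp
  · intro h
    exact absurd (Finset.mem_univ _) h

theorem Impl_reindex {W : Type} [Fintype W] [DecidableEq W] (e : ι ≃ ι') {q : ℕ}
    {V : (ι → Bool) → Matrix (ι × Bool × W) (ι × Bool × W) ℂ} (h : Impl W q V) :
    Impl (ι := ι') W q (fun x' => reE W e * V (fun i => x' (e i)) * (reE W e)ᴴ) := by
  obtain ⟨r1, r2⟩ := reE_mul (W := W) e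
  have conjU : ∀ U ∈ Matrix.unitaryGroup (ι × Bool × W) ℂ,
      reE W e * U * (reE W e)ᴴ ∈ Matrix.unitaryGroup (ι' × Bool × W) ℂ := by
    intro U hU
    have hU1 := mem_unitaryGroup_iff'.1 hU
    rw [Matrix.star_eq_conjTranspose] at hU1
    rw [mem_unitaryGroup_iff', Matrix.star_eq_conjTranspose]
    calc (reE W e * U * (reE W e)ᴴ)ᴴ * (reE W e * U * (reE W e)ᴴ)
        = reE W e * (Uᴴ * ((reE W e)ᴴ * reE W e) * U) * (reE W e)ᴴ := by
          simp only [conjTranspose_mul, conjTranspose_conjTranspose, Matrix.mul_assoc]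
      _ = 1 := by rw [r1, Matrix.mul_one, hU1, Matrix.mul_one, r2]
  induction h with
  | const U hU => exact Impl.const _ (conjU U hU)
  | step q V h U hU ih =>
    have := Impl.step q _ ih _ (conjU U hU)
    convert this using 2 with x'
    have e1 : (reE W e)ᴴ * OM W x' * reE W e = OM W (fun i => x' (e i)) := by
      rw [Matrix.mul_assoc, reE_OM, ← Matrix.mul_assoc, r1, Matrix.one_mul]
    calc reE W e * (U * OM W (fun i => x' (e i)) * V fun i => x' (e i)) * (reE W e)ᴴ
        = reE W e * (U * ((reE W e)ᴴ * OM W x' * reE W e) * V fun i => x' (e i))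
          * (reE W e)ᴴ := by rw [e1]
      _ = _ := by simp only [Matrix.mul_assoc]

theorem QSamp_reindex (e : ι ≃ ι') {Ω : Type}
    [DecidableEq Ω] {q : ℕ} {μ : (ι → Bool) → Ω → ℝ} (h : QSamp Ω q μ) :
    QSamp (ι := ι') Ω q (fun x' => μ (fun i => x' (e i))) := by
  obtain ⟨K, _, _, ψ, out, ⟨W, _, _, V, J, J', hI, hJ, hJ', hV⟩, hμ⟩ := h
  obtain ⟨r1, r2⟩ := reE_mul (W := W) e
  refine ⟨K, inferInstance, inferInstance, fun x' => ψ (fun i => x' (e i)), out,
    ⟨W, inferInstance, inferInstance, _, reE W e * J, reE W e * J', Impl_reindex e hI, ?_, ?_, ?_⟩,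
    fun x' ω => hμ _ ω⟩
  · rw [conjTranspose_mul, Matrix.mul_assoc, ← Matrix.mul_assoc (reE W e)ᴴ, r1, Matrix.one_mul, hJ]
  · rw [conjTranspose_mul, Matrix.mul_assoc, ← Matrix.mul_assoc (reE W e)ᴴ, r1, Matrix.one_mul,
      hJ']
  · intro x'
    rw [Matrix.mul_assoc, ← Matrix.mul_assoc (reE W e)ᴴ, r1, Matrix.one_mul, Matrix.mul_assoc,
      hV, Matrix.mul_assoc]

end reindex


section computes

theorem oracle_eq {n w : ℕ} (x : Fin n → Bool) (φ : QIdx n w → ℂ) :
    oracle x φ = (OM (Fin w) x).mulVec φ := by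
  funext e
  rw [OM_mulVec]
  rfl

theorem stateAfter_congr {n w : ℕ} {U U' : ℕ → Matrix (QIdx n w) (QIdx n w) ℂ} (x : Fin n → Bool)
    (ψ₀ : QIdx n w → ℂ) (t : ℕ) (h : ∀ s ≤ t, U s = U' s) :
    stateAfter U x ψ₀ t = stateAfter U' x ψ₀ t := by
  induction t with
  | zero => simp [stateAfter, h 0 le_rfl]
  | succ t ih =>
    simp only [stateAfter]
    rw [ih (fun s hs => h s (by omega)), h (t + 1) le_rfl]

theorem Impl_stateAfter {n w q : ℕ}
    {V : (Fin n → Bool) → Matrix (Fin n × Bool × Fin w) (Fin n × Bool × Fin w) ℂ}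
    (h : Impl (Fin w) q V) :
    ∃ U : ℕ → Matrix (QIdx n w) (QIdx n w) ℂ, (∀ t, U t ∈ Matrix.unitaryGroup (QIdx n w) ℂ) ∧
      ∀ x ψ₀, stateAfter U x ψ₀ q = (V x).mulVec ψ₀ := by
  induction h with
  | const U hU => exact ⟨fun _ => U, fun _ => hU, fun x ψ₀ => rfl⟩
  | step q V h U hU ih =>
    obtain ⟨U', hU', hs⟩ := ih
    refine ⟨Function.update U' (q + 1) U, ?_, ?_⟩
    · intro t
      by_cases ht : t = q + 1
      · subst ht; simpa using hU
      · rw [Function.update_of_ne ht]; exact hU' t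
    · intro x ψ₀
      have hcong : stateAfter (Function.update U' (q + 1) U) x ψ₀ q = stateAfter U' x ψ₀ q := by
        refine stateAfter_congr x ψ₀ q fun s hs => ?_
        rw [Function.update_of_ne (by omega)]
      simp only [stateAfter]
      rw [hcong, hs, oracle_eq]
      simp [Matrix.mulVec_mulVec, Matrix.mul_assoc]

theorem QSamp_computes {n q : ℕ} {f : (Fin n → Bool) → Bool} {μ : (Fin n → Bool) → Bool → ℝ}
    (h : QSamp Bool q μ) (hf : ∀ x, 2 / 3 ≤ μ x (f x)) : QuantumComputes f q := by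
  obtain ⟨K, _, _, ψ, out, hψ, hμ⟩ := h
  have hne : Nonempty (Fin n) := by
    obtain ⟨W, _, _, V, J, J', hI, hJ, hJ', hV⟩ := hψ
    by_contra hemp
    rw [not_nonempty_iff] at hemp
    have := congrFun (congrFun hJ ()) ()
    rw [Matrix.mul_apply] at this
    simp at this
  obtain ⟨i₀⟩ := hne
  obtain ⟨W, _, _, V, J, j, hI, hJ, hj, hV⟩ := QI_basis i₀ hψ
  let w := Fintype.card W
  let eW : W ≃ Fin w := Fintype.equivFin W
  set E : Matrix (Fin n × Bool × Fin w) (Fin n × Bool × W) ℂ := embW eW with hE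
  have hEE : Eᴴ * E = 1 := embW_isom _ eW.injective
  obtain ⟨V', hV', hm⟩ := Impl_lift E hEE (embW_OM _) hI
  obtain ⟨U, hU, hs⟩ := Impl_stateAfter hV'
  -- start vector
  let ψ₀ : QIdx n w → ℂ := fun e => (E * J) e ()
  -- basis position of `k`
  let pos : K → QIdx n w := fun k => (i₀, false, eW (j k))
  have hpos : Function.Injective pos := by
    intro a b hab
    simp only [pos, Prod.mk.injEq, EmbeddingLike.apply_eq_iff_eq, true_and] at hab
    exact hj hab
  have hfinal : ∀ x, stateAfter U x ψ₀ q = fun e => ∑ k, if e = pos k then ψ x k else 0 := by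
    intro x
    rw [hs]
    funext e
    have e1 : (V' x).mulVec ψ₀ e = (V' x * (E * J)) e () := by
      rw [Matrix.mul_apply]; rfl
    rw [e1, ← Matrix.mul_assoc, hm, Matrix.mul_assoc, hV, ← Matrix.mul_assoc, Matrix.mul_apply]
    refine Finset.sum_congr rfl fun k _ => ?_
    have e2 : (E * ((embW j : Matrix (Fin n × Bool × W) (Fin n × Bool × K) ℂ) *
        (basE i₀ : Matrix (Fin n × Bool × K) K ℂ))) e k = if e = pos k then 1 else 0 := by
      rw [Matrix.mul_apply, Finset.sum_eq_single (i₀, false, j k)]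
      · rw [Matrix.mul_apply, Finset.sum_eq_single (i₀, false, k)]
        · simp [hE, embW, basE, pos]
        · intro b _ hb
          simp [basE, hb]
        · intro h
          exact absurd (Finset.mem_univ _) h
      · intro b _ hb
        rw [Matrix.mul_apply, Finset.sum_eq_single (i₀, false, k)]
        · simp [embW, hb]
        · intro b _ hb
          simp [basE, hb]
        · intro h
          exact absurd (Finset.mem_univ _) h
      · intro h
        exact absurd (Finset.mem_univ _) h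
    rw [e2]
    simp
  refine ⟨w, U, ψ₀, fun e => if h : ∃ k, pos k = e then out h.choose else false, hU, ?_, ?_⟩
  · have h1 : ((E * J)ᴴ * (E * J)) () () = 1 := by
      rw [conjTranspose_mul, Matrix.mul_assoc, ← Matrix.mul_assoc Eᴴ, hEE, Matrix.one_mul, hJ]
      simp
    rw [Matrix.mul_apply] at h1
    have h2 : ((∑ e, ‖ψ₀ e‖ ^ 2 : ℝ) : ℂ) = 1 := by
      rw [← h1]
      push_cast
      refine Finset.sum_congr rfl fun e _ => ?_
      rw [conjTranspose_apply, Complex.star_def, Complex.conj_mul']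
    exact_mod_cast h2
  · intro x
    have h1 := hf x
    rw [hμ] at h1
    refine h1.trans (le_of_eq ?_)
    rw [hfinal]
    have hout : ∀ k, (if h : ∃ k', pos k' = pos k then out h.choose else false) = out k := by
      intro k
      have hex : ∃ k', pos k' = pos k := ⟨k, rfl⟩
      rw [dif_pos hex]
      exact congrArg out (hpos hex.choose_spec)
    have hval : ∀ k, (∑ k', if pos k = pos k' then ψ x k' else 0) = ψ x k := by
      intro k
      rw [Finset.sum_eq_single k]
      · simp
      · intro b _ hb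
        rw [if_neg]
        intro hh
        exact hb (hpos hh).symm
      · intro h
        exact absurd (Finset.mem_univ _) h
    have hzero : ∀ e, (∀ k, pos k ≠ e) → (∑ k', if e = pos k' then ψ x k' else 0) = 0 := by
      intro e he
      refine Finset.sum_eq_zero fun k _ => ?_
      rw [if_neg]
      exact fun hh => he k hh.symm
    symm
    have himg : ∑ e : QIdx n w, (if (if h : ∃ k, pos k = e then out h.choose else false) = f x
          then ‖∑ k, if e = pos k then ψ x k else 0‖ ^ 2 else 0)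
        = ∑ e ∈ Finset.univ.image pos, (if (if h : ∃ k, pos k = e then out h.choose else false)
            = f x then ‖∑ k, if e = pos k then ψ x k else 0‖ ^ 2 else 0) := by
      symm
      refine Finset.sum_subset (Finset.subset_univ _) ?_
      intro e _ he
      have : ∀ k, pos k ≠ e := by
        intro k hk
        exact he (Finset.mem_image.2 ⟨k, Finset.mem_univ _, hk⟩)
      rw [hzero e this]
      simp
    rw [himg, Finset.sum_image (fun a _ b _ hab => hpos hab)]
    refine Finset.sum_congr rfl fun k _ => ?_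
    rw [hout, hval]

end computes

end Crest.Agent.R350
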