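import Crest.Agent.R350.Defs2
import Crest.Agent.R350.QSampL
import Crest.Agent.R350.HTest
import Crest.Agent.R350.GoodProb

/-! Row 350, task T8: the quantum decoder of the secret. -/

set_option autoImplicit false

namespace Crest.Agent.R350

open Finset

section


variable {ι : Type} [Fintype ι] [DecidableEq ι]

/-- independent samples -/
theorem QSamp_pi [Nonempty ι] {Ω : Type} [Fintype Ω] [DecidableEq Ω] {q : ℕ} (n : ℕ)
    (μ : Fin n → (ι → Bool) → Ω → ℝ) (h : ∀ j, QSamp Ω q (μ j)) :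
    QSamp (Fin n → Ω) (n * q) (fun x ω => ∏ j, μ j x (ω j)) := by
  induction n with
  | zero =>
    have := QSamp_const (ι := ι) (Ω := Fin 0 → Ω) (fun _ => 1) (fun _ => zero_le_one) (by simp)
    simpa using this
  | succ n ih =>
    have h1 := ih (fun j => μ j.castSucc) (fun j => h _)
    have h2 : ∀ ω : Fin n → Ω, QSamp (ι := ι) (Fin (n + 1) → Ω) q (fun x ω' =>
        ∑ y, if (Fin.snoc ω y : Fin (n + 1) → Ω) = ω' then μ (Fin.last n) x y else 0) :=
      fun ω => QSamp_map (h (Fin.last n)) (fun y => (Fin.snoc ω y : Fin (n + 1) → Ω))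
    have h3 := QSamp_bind h1 h2
    have h4 : n * q + q = (n + 1) * q := by ring
    rw [h4] at h3
    convert h3 using 1
    funext x ω'
    rw [Fin.prod_univ_castSucc]
    rw [Finset.sum_eq_single (Fin.init ω' : Fin n → Ω)]
    · congr 1
      rw [Finset.sum_eq_single (ω' (Fin.last n))]
      · rw [if_pos (Fin.snoc_init_self ω')]
      · intro y _ hy
        rw [if_neg]
        intro h5
        apply hy
        have := congrFun h5 (Fin.last n)
        simpa using this
      · intro h5; exact absurd (Finset.mem_univ _) h5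
    · intro ω _ hω
      rw [Finset.sum_eq_zero, mul_zero]
      intro y _
      rw [if_neg]
      intro h5
      apply hω
      rw [← h5, Fin.init_snoc]
    · intro h5; exact absurd (Finset.mem_univ _) h5

/-- one random test of the secret bit `u` -/
theorem QSamp_test [Nonempty ι] (k t τ S : ℕ) (hS : 1 ≤ S) (adr : ZI k t τ S → ι) (u : Fin τ) :
    QSamp (ι := ι) Bool (k + 1)
      (fun x b => (1 + (if b then 1 else -1) * avgphi k t τ S (fun w => x (adr w)) u) / 2) := by
  have hSpos : (0 : ℝ) < S := by exact_mod_cast hS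
  have h1 := QSamp_const (ι := ι) (Ω := Fin S) (fun _ => 1 / (S : ℝ))
    (fun _ => by positivity) (by
      rw [Finset.sum_const, Finset.card_univ, Fintype.card_fin, nsmul_eq_mul]
      field_simp)
  have h2 : ∀ s : Fin S, QSamp (ι := ι) Bool (k + 1)
      (fun x b => (1 + (if b then 1 else -1) *
        phi k t (fun a i => x (adr ((u, s), (a, i))))) / 2) :=
    fun s => QSamp_htest k t (fun a i => adr ((u, s), (a, i)))
  have h3 := QSamp_bind h1 h2
  rw [zero_add] at h3
  convert h3 using 1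
  funext x b
  have e1 : ∀ s : Fin S, 1 / (S : ℝ) * ((1 + (if b then 1 else -1) *
        phi k t (fun a i => x (adr ((u, s), (a, i))))) / 2)
      = 1 / (2 * S) + (if b then 1 else -1) / (2 * S) *
        phi k t (fun a i => x (adr ((u, s), (a, i)))) := by
    intro s
    field_simp
  simp only [e1, Finset.sum_add_distrib, Finset.sum_const, Finset.card_univ, Fintype.card_fin,
    nsmul_eq_mul, ← Finset.mul_sum, avgphi]
  field_simp

/-- number of `true` outcomes -/
def ctrue {n : ℕ} (ω : Fin n → Bool) : ℝ := ∑ j, (if ω j then (1 : ℝ) else 0)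

theorem cheb_bool (n : ℕ) (hn : 0 < n) (p : ℝ) (hp0 : 0 ≤ p) (hp1 : p ≤ 1) (D : ℝ) (hD : 0 < D)
    (B : (Fin n → Bool) → Prop) [DecidablePred B]
    (hB : ∀ ω, B ω → (n * D) ^ 2 ≤ (ctrue ω - n * p) ^ 2) :
    ∑ ω : Fin n → Bool, (if B ω then ∏ j, (if ω j then p else 1 - p) else 0)
      ≤ 1 / (4 * n * D ^ 2) := by
  have hnpos : (0 : ℝ) < n := by exact_mod_cast hn
  set w : Fin n → Bool → ℝ := fun _ b => if b then p else 1 - p with hw
  have hw1 : ∀ l, ∑ b, w l b = 1 := by intro l; simp [hw]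
  have hw0 : ∀ l b, 0 ≤ w l b := by
    intro l b; simp only [hw]; split_ifs <;> linarith
  have h1 := prodw_var w hw1 Finset.univ (fun b => (if b then (1 : ℝ) else 0) - p)
    (by intro l _; simp [hw]; ring) (1 / 4)
    (by
      intro l _
      simp only [hw, Fintype.sum_bool, if_true, Bool.false_eq_true, if_false]
      nlinarith [sq_nonneg (p - 1 / 2)])
  simp only [Finset.card_univ, Fintype.card_fin] at h1
  have h2 : ∀ ω : Fin n → Bool, ∑ a, ((if ω a then (1 : ℝ) else 0) - p) = ctrue ω - n * p := by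
    intro ω
    rw [Finset.sum_sub_distrib, Finset.sum_const, Finset.card_univ, Fintype.card_fin,
      nsmul_eq_mul, ctrue]
  simp only [h2] at h1
  have h3 : ∀ ω : Fin n → Bool, (if B ω then ∏ j, (if ω j then p else 1 - p) else 0)
      ≤ 1 / (n * D) ^ 2 * ((∏ l, w l (ω l)) * (ctrue ω - n * p) ^ 2) := by
    intro ω
    have hP : 0 ≤ ∏ l, w l (ω l) := Finset.prod_nonneg fun l _ => hw0 l _
    by_cases hb : B ω
    · rw [if_pos hb]
      have h4 := hB ω hb
      have h5 : (1 : ℝ) ≤ 1 / (n * D) ^ 2 * (ctrue ω - n * p) ^ 2 := by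
        rw [one_div, inv_mul_eq_div, le_div_iff₀ (by positivity)]
        linarith
      calc ∏ j, (if ω j then p else 1 - p) = (∏ l, w l (ω l)) * 1 := by simp [hw]
        _ ≤ (∏ l, w l (ω l)) * (1 / (n * D) ^ 2 * (ctrue ω - n * p) ^ 2) :=
          mul_le_mul_of_nonneg_left h5 hP
        _ = _ := by ring
    · rw [if_neg hb]; positivity
  calc _ ≤ ∑ ω : Fin n → Bool, 1 / (n * D) ^ 2 * ((∏ l, w l (ω l)) * (ctrue ω - n * p) ^ 2) :=
        Finset.sum_le_sum fun ω _ => h3 ω
    _ = 1 / (n * D) ^ 2 * ∑ ω : Fin n → Bool, (∏ l, w l (ω l)) * (ctrue ω - n * p) ^ 2 := by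
        rw [Finset.mul_sum]
    _ ≤ 1 / (n * D) ^ 2 * (n * (1 / 4)) := mul_le_mul_of_nonneg_left h1 (by positivity)
    _ = _ := by field_simp

/-- T8 (Decode): quantum decoder of the secret. -/
theorem decode_exists [Nonempty ι] (k t τ S T0 : ℕ)
    (hS : 1 ≤ S) (hτ : 1 ≤ τ) (θ0 θ1 : ℝ) (hθ : θ0 < θ1)
    (hT0 : 8 * (τ : ℝ) / (θ1 - θ0) ^ 2 ≤ T0) (adr : ZI k t τ S → ι) :
    ∃ dec : (ι → Bool) → (Fin τ → Bool) → ℝ, QSamp (Fin τ → Bool) (τ * (T0 * (k + 1))) dec ∧
      ∀ x κ, Good k t τ S θ0 θ1 κ (fun w => x (adr w)) → 1 / 2 ≤ dec x κ := by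
  classical
  have hτpos : (0 : ℝ) < τ := by exact_mod_cast hτ
  have hd : 0 < θ1 - θ0 := by linarith
  have hT0pos : (0 : ℝ) < T0 := lt_of_lt_of_le (by positivity) hT0
  have hT0n : 0 < T0 := by exact_mod_cast hT0pos
  set thr : ℝ := T0 * ((1 + (θ0 + θ1) / 2) / 2) with hthr
  -- threshold decision
  set F : (Fin T0 → Bool) → Bool := fun ω => decide (thr ≤ ctrue ω) with hF
  set test : Fin τ → (ι → Bool) → Bool → ℝ := fun u x b =>
    (1 + (if b then 1 else -1) * avgphi k t τ S (fun w => x (adr w)) u) / 2 with htest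
  have hQt : ∀ u, QSamp (ι := ι) Bool (k + 1) (test u) := fun u => QSamp_test k t τ S hS adr u
  have hQp : ∀ u, QSamp (ι := ι) (Fin T0 → Bool) (T0 * (k + 1))
      (fun x ω => ∏ j, test u x (ω j)) := fun u =>
    QSamp_pi T0 (fun _ => test u) (fun _ => hQt u)
  set D : Fin τ → (ι → Bool) → Bool → ℝ := fun u x b =>
    ∑ ω : Fin T0 → Bool, if F ω = b then ∏ j, test u x (ω j) else 0 with hDdef
  have hQD : ∀ u, QSamp (ι := ι) Bool (T0 * (k + 1)) (D u) := fun u => QSamp_map (hQp u) F
  refine ⟨fun x κ => ∏ u, D u x (κ u), QSamp_pi τ D hQD, ?_⟩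
  intro x κ hG
  have hD0 : ∀ u b, 0 ≤ D u x b := fun u b => QSamp_nonneg (hQD u) x b
  have hD1 : ∀ u, D u x true + D u x false = 1 := by
    intro u
    have := QSamp_sum_one (hQD u) x
    simpa using this
  have hmain : ∀ u, 1 - 1 / (2 * (τ : ℝ)) ≤ D u x (κ u) := by
    intro u
    set p : ℝ := test u x true with hp
    have hpf : test u x false = 1 - p := by simp only [hp, htest]; simp; ring
    have hp0 : 0 ≤ p := QSamp_nonneg (hQt u) x true
    have hp1 : p ≤ 1 := by
      have := QSamp_nonneg (hQt u) x false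
      linarith
    have hpav : p = (1 + avgphi k t τ S (fun w => x (adr w)) u) / 2 := by
      simp [hp, htest]
    have htp : ∀ b, test u x b = if b then p else 1 - p := by
      intro b; cases b <;> simp [hpf, hp]
    have hbd : ∀ B : (Fin T0 → Bool) → Prop, ∀ [DecidablePred B],
        (∀ ω, B ω → (T0 * ((θ1 - θ0) / 4)) ^ 2 ≤ (ctrue ω - T0 * p) ^ 2) →
        ∑ ω : Fin T0 → Bool, (if B ω then ∏ j, (if ω j then p else 1 - p) else 0)
          ≤ 1 / (2 * (τ : ℝ)) := by
      intro B _ hB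
      refine le_trans (cheb_bool T0 hT0n p hp0 hp1 ((θ1 - θ0) / 4) (by positivity) B hB) ?_
      rw [div_le_div_iff₀ (by positivity) (by positivity)]
      rw [div_le_iff₀ (by positivity)] at hT0
      nlinarith
    have hDeq : ∀ b, D u x b = ∑ ω : Fin T0 → Bool,
        (if F ω = b then ∏ j, (if ω j then p else 1 - p) else 0) := by
      intro b
      simp only [hDdef, htp]
    cases hκ : κ u
    · have hav := (hG u).2 hκ
      have h1 : D u x true ≤ 1 / (2 * (τ : ℝ)) := by
        rw [hDeq]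
        apply hbd (fun ω => F ω = true)
        intro ω hω
        simp only [hF, decide_eq_true_eq] at hω
        have h2 : T0 * ((θ1 - θ0) / 4) ≤ ctrue ω - T0 * p := by
          have h3 : T0 * p ≤ T0 * ((1 + θ0) / 2) :=
            mul_le_mul_of_nonneg_left (by rw [hpav]; linarith) hT0pos.le
          rw [hthr] at hω
          linarith
        exact pow_le_pow_left₀ (by positivity) h2 2
      have := hD1 u
      linarith
    · have hav := (hG u).1 hκ
      have h1 : D u x false ≤ 1 / (2 * (τ : ℝ)) := by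
        rw [hDeq]
        apply hbd (fun ω => F ω = false)
        intro ω hω
        simp only [hF, decide_eq_false_iff_not, not_le] at hω
        have h2 : T0 * ((θ1 - θ0) / 4) ≤ -(ctrue ω - T0 * p) := by
          have h3 : T0 * ((1 + θ1) / 2) ≤ T0 * p :=
            mul_le_mul_of_nonneg_left (by rw [hpav]; linarith) hT0pos.le
          rw [hthr] at hω
          linarith
        rw [← neg_sq (ctrue ω - T0 * p)]
        exact pow_le_pow_left₀ (by positivity) h2 2
      have := hD1 u
      linarith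
  have hge : (1 - 1 / (2 * (τ : ℝ))) ^ τ ≤ ∏ u, D u x (κ u) := by
    have h1 : (0 : ℝ) ≤ 1 - 1 / (2 * (τ : ℝ)) := by
      rw [sub_nonneg, div_le_one (by positivity)]
      have : (1 : ℝ) ≤ τ := by exact_mod_cast hτ
      linarith
    calc (1 - 1 / (2 * (τ : ℝ))) ^ τ = ∏ _u : Fin τ, (1 - 1 / (2 * (τ : ℝ))) := by simp
      _ ≤ _ := Finset.prod_le_prod (fun _ _ => h1) (fun u _ => hmain u)
  refine le_trans ?_ hge
  have h2 := one_add_mul_le_pow (a := -(1 / (2 * (τ : ℝ)))) (by
    rw [neg_le_neg_iff, div_le_iff₀ (by positivity)]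
    have : (1 : ℝ) ≤ τ := by exact_mod_cast hτ
    linarith) τ
  have h3 : 1 + (τ : ℝ) * -(1 / (2 * (τ : ℝ))) = 1 / 2 := by
    field_simp; norm_num
  rw [h3] at h2
  rw [sub_eq_add_neg]
  exact h2

end

end Crest.Agent.R350
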