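import Mathlib
import Crest.Prelude.Def_QueryComplexity

/-! Row 350 (S0554): shared definitions. -/

set_option autoImplicit false

namespace Crest.Agent.R350

open Finset Matrix

/-- index set of `t`-bit strings (`2^t` elements): rows, columns, nodes of the Walsh transform. -/
abbrev NN (t : ℕ) : Type := Fin t → Bool

/-- sign of a bit: `false ↦ 1`, `true ↦ -1`. -/
def sg (b : Bool) : ℝ := if b then -1 else 1

/-- Walsh sign `(-1)^{x·y}`. -/
def wal {t : ℕ} (x y : NN t) : ℝ := ∏ i, (if (x i && y i) then (-1 : ℝ) else 1)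

/-- `(k+1)`-fold Forrelation of `k+1` blocks `x a : NN t → Bool`, in `[-1,1]`:
`n^{-(k+2)/2} ∑_{p_0..p_k} ∏ x_a(p_a) ∏ H(p_a,p_{a+1})`, `n = 2^t`. -/
noncomputable def phi (k t : ℕ) (x : Fin (k + 1) → NN t → Bool) : ℝ :=
  (∑ p : Fin (k + 1) → NN t,
    (∏ a, sg (x a (p a))) * ∏ a : Fin k, wal (p a.castSucc) (p a.succ)) /
      Real.sqrt (2 ^ t) ^ (k + 2)

/-- `DTC d f`: `f` is computed by a decision tree of depth at most `d` with real answers in
`[0,1]`. -/
inductive DTC {ι : Type} : ℕ → ((ι → Bool) → ℝ) → Prop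
  | const (d : ℕ) (c : ℝ) (h0 : 0 ≤ c) (h1 : c ≤ 1) : DTC d (fun _ => c)
  | ask (d : ℕ) (i : ι) (f g : (ι → Bool) → ℝ) (hf : DTC d f) (hg : DTC d g) :
      DTC (d + 1) (fun x => if x i then g x else f x)

/-- `DTE d f`: `f : (ι → Bool) → Ω` is computed exactly by a decision tree of depth at most `d`. -/
inductive DTE {ι Ω : Type} : ℕ → ((ι → Bool) → Ω) → Prop
  | const (d : ℕ) (c : Ω) : DTE d (fun _ => c)
  | ask (d : ℕ) (i : ι) (f g : (ι → Bool) → Ω) (hf : DTE d f) (hg : DTE d g) :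
      DTE (d + 1) (fun x => if x i then g x else f x)

/-- `RComp F r`: bounded-error randomized computation of `F` reading at most `r` bits (index type
arbitrary). -/
def RComp {ι : Type} (F : (ι → Bool) → Bool) (r : ℕ) : Prop :=
  ∃ (s : ℕ) (p : Fin s → ℝ) (f : Fin s → (ι → Bool) → ℝ),
    (∀ j, 0 ≤ p j) ∧ ∑ j, p j = 1 ∧ (∀ j, DTC r (f j)) ∧
      (∀ x, F x = true → 2 / 3 ≤ ∑ j, p j * f j x) ∧
      (∀ x, F x = false → ∑ j, p j * f j x ≤ 1 / 3)

section quantum

variable {ι : Type} [Fintype ι] [DecidableEq ι]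

/-- oracle matrix of the input `x` on `ι × Bool × W`: `|i,b,z⟩ ↦ |i, b ⊕ x i, z⟩`. -/
def OM (W : Type) [DecidableEq W] (x : ι → Bool) :
    Matrix (ι × Bool × W) (ι × Bool × W) ℂ :=
  fun e e' => if e' = (e.1, xor e.2.1 (x e.1), e.2.2) then 1 else 0

/-- `Impl W q V`: the `x`-dependent operator `V x` is `U_q O_x U_{q-1} ⋯ O_x U_0` for fixed
unitaries. -/
inductive Impl (W : Type) [Fintype W] [DecidableEq W] :
    ℕ → ((ι → Bool) → Matrix (ι × Bool × W) (ι × Bool × W) ℂ) → Prop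
  | const (U : Matrix (ι × Bool × W) (ι × Bool × W) ℂ)
      (hU : U ∈ Matrix.unitaryGroup (ι × Bool × W) ℂ) : Impl W 0 (fun _ => U)
  | step (q : ℕ) (V : (ι → Bool) → Matrix (ι × Bool × W) (ι × Bool × W) ℂ) (h : Impl W q V)
      (U : Matrix (ι × Bool × W) (ι × Bool × W) ℂ)
      (hU : U ∈ Matrix.unitaryGroup (ι × Bool × W) ℂ) :
      Impl W (q + 1) (fun x => U * OM W x * V x)

/-- `QI K K' q A`: the family of isometries `A x : ℂ^K → ℂ^{K'}` is implemented with `q` oracle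
calls (up to fixed isometric embeddings `J`, `J'` into some query space). -/
def QI (K K' : Type) [Fintype K] [DecidableEq K] [Fintype K'] [DecidableEq K'] (q : ℕ)
    (A : (ι → Bool) → Matrix K' K ℂ) : Prop :=
  ∃ (W : Type) (_ : Fintype W) (_ : DecidableEq W)
    (V : (ι → Bool) → Matrix (ι × Bool × W) (ι × Bool × W) ℂ)
    (J : Matrix (ι × Bool × W) K ℂ) (J' : Matrix (ι × Bool × W) K' ℂ),
    Impl W q V ∧ Jᴴ * J = 1 ∧ J'ᴴ * J' = 1 ∧ ∀ x, V x * J = J' * A x

/-- `QSamp Ω q μ`: some quantum algorithm with `q` oracle calls has, on input `x`, an outcome in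
`Ω` distributed as `μ x`. -/
def QSamp (Ω : Type) [DecidableEq Ω] (q : ℕ) (μ : (ι → Bool) → Ω → ℝ) : Prop :=
  ∃ (K : Type) (_ : Fintype K) (_ : DecidableEq K) (ψ : (ι → Bool) → K → ℂ) (out : K → Ω),
    QI Unit K q (fun x => Matrix.of fun k _ => ψ x k) ∧
      ∀ x ω, μ x ω = ∑ k, if out k = ω then ‖ψ x k‖ ^ 2 else 0

end quantum

end Crest.Agent.R350
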