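import Crest.Agent.R350.Defs

/-! Row 350 (S0554): more shared definitions (instances of a column, the planted input). -/

set_option autoImplicit false

namespace Crest.Agent.R350

/-- index set of the Forrelation instances of one column: copy `(u,s)`, block `a`, node `i`. -/
abbrev ZI (k t τ S : ℕ) : Type := (Fin τ × Fin S) × (Fin (k + 1) × NN t)

/-- average of `phi` over the `S` copies of secret bit `u` -/
noncomputable def avgphi (k t τ S : ℕ) (z : ZI k t τ S → Bool) (u : Fin τ) : ℝ :=
  (∑ s : Fin S, phi k t (fun a i => z ((u, s), (a, i)))) / S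

/-- the secret `κ` is (robustly) the decoding of `z` -/
def Good (k t τ S : ℕ) (θ0 θ1 : ℝ) (κ : Fin τ → Bool) (z : ZI k t τ S → Bool) : Prop :=
  ∀ u, (κ u = true → θ1 ≤ avgphi k t τ S z u) ∧ (κ u = false → avgphi k t τ S z u ≤ θ0)

/-- input of the planted distribution -/
def build {N ζ Kp η : Type} [DecidableEq N] [DecidableEq Kp]
    (content : N → Kp → (N → N) → (ζ → Bool) → η → Bool)
    (b : N) (κ : Kp) (e : N → N) (z : N → ζ → Bool) :
    (N × N) ⊕ (N × ζ) ⊕ (N × Kp × η) → Bool
  | .inl (r, c) => if c = b then true else decide (r ≠ e c)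
  | .inr (.inl (c, w)) => z c w
  | .inr (.inr (c, κ', h)) => if c = b ∧ κ' = κ then content b κ e (z b) h else false

end Crest.Agent.R350
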