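import Crest.Agent.R350.Interp2

/-! Row 350, T5c: level bound in path form. -/

set_option autoImplicit false

namespace Crest.Agent.R350

open Finset

theorem DTC.toDTF {ι : Type} [Fintype ι] [DecidableEq ι] {d : ℕ} {f : (ι → Bool) → ℝ}
    (h : DTC d f) : DTF d f := by
  induction h with
  | const d c h0 h1 => exact DTF.const c (by rw [abs_of_nonneg h0]; exact h1)
  | ask d i f g hf hg ihf ihg =>
    have := DTF.node i (fun b => if b then g else f) (fun b => by cases b <;> simpa)
    convert this using 2 with x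
    cases x i <;> simp

theorem spath_injective {k t : ℕ} :
    Function.Injective (fun p : Fin (k + 1) → NN t => spath (k := k) le_rfl p) := by
  intro p p' h
  funext b
  have hb : ((Fin.castLE le_rfl b, p b) : Fin (k + 1) × NN t) ∈ spath (k := k) le_rfl p :=
    mem_image.2 ⟨b, mem_univ _, rfl⟩
  simp only at h
  rw [h] at hb
  obtain ⟨c, _, hc⟩ := mem_image.1 hb
  simp only [Prod.mk.injEq] at hc
  have : c = b := by
    have := hc.1
    ext
    simpa [Fin.ext_iff] using congrArg Fin.val this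
  rw [← hc.2, this]

theorem spath_card {k t : ℕ} (p : Fin (k + 1) → NN t) :
    (spath (k := k) le_rfl p).card = k + 1 := by
  unfold spath
  rw [card_image_of_injective, card_univ, Fintype.card_fin]
  intro a b hab
  simp only [Prod.mk.injEq] at hab
  ext
  simpa [Fin.ext_iff] using congrArg Fin.val hab.1

theorem wpath_sq {a t : ℕ} (p : Fin (a + 1) → NN t) :
    wpath p ^ 2 = (((2 : ℝ) ^ t)⁻¹) ^ a := by
  unfold wpath
  rw [← Finset.prod_pow]
  have : ∀ b : Fin a, Wm (p b.castSucc) (p b.succ) ^ 2 = ((2 : ℝ) ^ t)⁻¹ := by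
    intro b
    unfold Wm
    rw [div_pow, Real.sq_sqrt (by positivity), ← sq_abs, abs_wal]
    simp
  simp only [this, prod_const, card_univ, Fintype.card_fin]

theorem level_bound (k t d q : ℕ) (hq : 1 ≤ q) (g : ℝ) (hg : 0 ≤ g)
    (f : (Fin (k + 1) × NN t → Bool) → ℝ) (hf : DTC d f) (z : Fin (k + 1) × NN t → ℝ)
    (hz : ∀ c, |z c| ≤ 1 / 2) :
    (∑ p : Fin (k + 1) → NN t, (g ^ (k + 1) * wpath p) * dmext (spath le_rfl p) f z) ^ 2 ≤
      (d * (4 * 9 ^ q)) ^ (k + 1) * (g ^ (k + 1)) ^ 2 * ((2 : ℝ) ^ t) ^ (-(k : ℝ)) *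
        ((2 : ℝ) ^ t) ^ (((k : ℝ) + 1) / q) := by
  classical
  have hq0 : (0 : ℝ) < q := by exact_mod_cast hq
  set a : Finset (Fin (k + 1) × NN t) → ℝ := fun S =>
    ∑ p : Fin (k + 1) → NN t, if spath (k := k) le_rfl p = S then g ^ (k + 1) * wpath p else 0
    with ha
  -- the sum is `Lam`
  have h1 : ∑ p : Fin (k + 1) → NN t, (g ^ (k + 1) * wpath p) * dmext (spath le_rfl p) f z
      = Lam z a f := by
    unfold Lam
    simp only [ha, Finset.sum_mul]
    rw [Finset.sum_comm]
    refine Finset.sum_congr rfl fun p _ => ?_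
    rw [Finset.sum_eq_single (spath (k := k) le_rfl p)]
    · simp
    · intro S _ hS
      rw [if_neg (Ne.symm hS), zero_mul]
    · intro h; exact absurd (mem_univ _) h
  rw [h1]
  refine (Lam_sq_le q hq z hz d f hf.toDTF a).trans ?_
  -- values of `a`
  have ha1 : ∀ p, a (spath (k := k) le_rfl p) = g ^ (k + 1) * wpath p := by
    intro p
    simp only [ha]
    rw [Finset.sum_eq_single p]
    · simp
    · intro p' _ hp'
      rw [if_neg]
      intro h
      exact hp' (spath_injective h)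
    · intro h; exact absurd (mem_univ _) h
  have ha0 : ∀ S, S ∉ univ.image (fun p : Fin (k + 1) → NN t => spath (k := k) le_rfl p) →
      a S = 0 := by
    intro S hS
    simp only [ha]
    refine Finset.sum_eq_zero fun p _ => ?_
    rw [if_neg]
    intro h
    exact hS (mem_image.2 ⟨p, mem_univ _, h⟩)
  -- levels other than `k+1` vanish
  have hB0 : ∀ j, j ≠ k + 1 → Bn q j a = 0 := by
    intro j hj
    unfold Bn
    rw [Finset.sum_eq_zero, Real.zero_rpow (by positivity)]
    intro S hS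
    have hc := (mem_powersetCard.1 hS).2
    rw [ha0 S]
    · simp; omega
    · intro hS'
      obtain ⟨p, _, hp⟩ := mem_image.1 hS'
      apply hj
      rw [← hc, ← hp, spath_card]
  -- level `k+1`
  have hB1 : Bn q (k + 1) a = (g ^ (k + 1)) ^ 2 * ((2 : ℝ) ^ t) ^ (-(k : ℝ)) *
        ((2 : ℝ) ^ t) ^ (((k : ℝ) + 1) / q) := by
    have hsum : ∑ S ∈ powersetCard (k + 1) univ, (a S ^ 2) ^ q
        = ∑ p : Fin (k + 1) → NN t, ((g ^ (k + 1) * wpath p) ^ 2) ^ q := by
      have hsub : univ.image (fun p : Fin (k + 1) → NN t => spath (k := k) le_rfl p)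
          ⊆ powersetCard (k + 1) univ := by
        intro S hS
        obtain ⟨p, _, hp⟩ := mem_image.1 hS
        rw [mem_powersetCard]
        exact ⟨subset_univ _, by rw [← hp, spath_card]⟩
      rw [← Finset.sum_subset hsub]
      · rw [Finset.sum_image (fun x _ y _ h => spath_injective h)]
        refine Finset.sum_congr rfl fun p _ => ?_
        rw [ha1]
      · intro S _ hS
        rw [ha0 S hS]
        simp; omega
    unfold Bn
    rw [hsum]
    have hval : ∀ p : Fin (k + 1) → NN t, ((g ^ (k + 1) * wpath p) ^ 2) ^ q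
        = ((g ^ (k + 1)) ^ 2 * (((2 : ℝ) ^ t)⁻¹) ^ k) ^ q := by
      intro p
      rw [mul_pow, wpath_sq]
    simp only [hval, sum_const, card_univ, nsmul_eq_mul]
    have hcard : (Fintype.card (Fin (k + 1) → NN t) : ℝ) = ((2 : ℝ) ^ t) ^ ((k : ℝ) + 1) := by
      rw [Fintype.card_fun, Fintype.card_fun, Fintype.card_bool, Fintype.card_fin,
        Fintype.card_fin]
      push_cast
      rw [← Real.rpow_natCast ((2 : ℝ) ^ t)]
      norm_num
    have hn : (0 : ℝ) < (2 : ℝ) ^ t := by positivity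
    rw [hcard, Real.mul_rpow (by positivity) (by positivity), ← Real.rpow_mul hn.le,
      ← Real.rpow_natCast (((g ^ (k + 1)) ^ 2 * (((2 : ℝ) ^ t)⁻¹) ^ k)) q,
      ← Real.rpow_mul (by positivity), mul_one_div_cancel hq0.ne', Real.rpow_one,
      Real.rpow_neg hn.le, Real.rpow_natCast, inv_pow]
    rw [show ((k : ℝ) + 1) * (1 / q) = ((k : ℝ) + 1) / q by ring]
    ring
  -- assemble
  unfold Gp
  have hnn : 0 ≤ Bn q (k + 1) a := Bn_nonneg _ _ _
  by_cases hd : k + 1 ≤ d
  · rw [Finset.sum_eq_single (k + 1)]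
    · rw [hB1] at hnn ⊢
      have hch : (d.choose (k + 1) : ℝ) ≤ (d : ℝ) ^ (k + 1) := by
        exact_mod_cast Nat.choose_le_pow d (k + 1)
      calc ((d.choose (k + 1) : ℝ) * (4 * 9 ^ q) ^ (k + 1)) *
            ((g ^ (k + 1)) ^ 2 * ((2 : ℝ) ^ t) ^ (-(k : ℝ)) * ((2 : ℝ) ^ t) ^ (((k : ℝ) + 1) / q))
          ≤ ((d : ℝ) ^ (k + 1) * (4 * 9 ^ q) ^ (k + 1)) *
            ((g ^ (k + 1)) ^ 2 * ((2 : ℝ) ^ t) ^ (-(k : ℝ)) *
              ((2 : ℝ) ^ t) ^ (((k : ℝ) + 1) / q)) := by
            apply mul_le_mul_of_nonneg_right _ hnn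
            exact mul_le_mul_of_nonneg_right hch (by positivity)
        _ = _ := by rw [mul_pow]; ring
    · intro j _ hj
      rw [hB0 j hj, mul_zero]
    · intro h
      exact absurd (mem_range.2 (by omega)) h
  · rw [Finset.sum_eq_zero]
    · positivity
    · intro j hj
      rw [hB0 j (by have := mem_range.1 hj; omega), mul_zero]

end Crest.Agent.R350
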