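import Crest.Agent.R350.Interp2

/-! Row 350, T5d (`phi_deriv`) and T5e (`abs_dmext_le`). -/

set_option autoImplicit false

namespace Crest.Agent.R350

open Finset

lemma pd_prod_sum {ι : Type*} [Fintype ι] [DecidableEq ι] (w : ι → Bool → ℝ) :
    ∑ x : ι → Bool, ∏ i, w i (x i) = ∏ i, ∑ b, w i b := by
  rw [Finset.prod_univ_sum, Fintype.piFinset_univ]

/-- T5e: values off the cube. -/
theorem abs_dmext_le {ι : Type*} [Fintype ι] [DecidableEq ι] (S : Finset ι)
    (f : (ι → Bool) → ℝ) (hf : ∀ x, |f x| ≤ 1) (z : ι → ℝ) :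
    |dmext S f z| ≤ ∏ i, max 1 |z i| := by
  unfold dmext
  calc |∑ x : ι → Bool, f x * ∏ i, (if i ∈ S then sg (x i) / 2 else qw (z i) (x i))|
      ≤ ∑ x : ι → Bool, |f x * ∏ i, (if i ∈ S then sg (x i) / 2 else qw (z i) (x i))| :=
        Finset.abs_sum_le_sum_abs _ _
    _ ≤ ∑ x : ι → Bool, ∏ i, |if i ∈ S then sg (x i) / 2 else qw (z i) (x i)| := by
        apply Finset.sum_le_sum
        intro x _
        rw [abs_mul, Finset.abs_prod]
        calc |f x| * ∏ i, |if i ∈ S then sg (x i) / 2 else qw (z i) (x i)|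
            ≤ 1 * ∏ i, |if i ∈ S then sg (x i) / 2 else qw (z i) (x i)| := by
              apply mul_le_mul_of_nonneg_right (hf x)
              exact Finset.prod_nonneg (fun i _ => abs_nonneg _)
          _ = _ := one_mul _
    _ = ∏ i, ∑ b, |if i ∈ S then sg b / 2 else qw (z i) b| :=
        pd_prod_sum (fun i b => |if i ∈ S then sg b / 2 else qw (z i) b|)
    _ ≤ ∏ i, max 1 |z i| := by
        apply Finset.prod_le_prod
        · intro i _
          exact Finset.sum_nonneg (fun b _ => abs_nonneg _)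
        · intro i _
          by_cases h : i ∈ S
          · simp only [h, if_true, Fintype.sum_bool, sg_true, sg_false]
            refine le_trans ?_ (le_max_left _ _)
            norm_num [abs_of_neg, abs_of_pos]
          · simp only [h, if_false, Fintype.sum_bool, qw, sg_true, sg_false]
            rcases abs_cases (z i) with ⟨h1, h2⟩ | ⟨h1, h2⟩ <;>
            rcases abs_cases ((1 + -1 * z i) / 2) with ⟨h3, h4⟩ | ⟨h3, h4⟩ <;>
            rcases abs_cases ((1 + 1 * z i) / 2) with ⟨h5, h6⟩ | ⟨h5, h6⟩ <;>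
            rw [h1, h3, h5] <;>
            first
              | (refine le_trans ?_ (le_max_left _ _); linarith)
              | (refine le_trans ?_ (le_max_right _ _); linarith)

/-- mixed derivatives of a character. -/
lemma dmext_char {ι : Type*} [Fintype ι] [DecidableEq ι] (S T : Finset ι) (z : ι → ℝ) :
    dmext S (fun x => ∏ i ∈ T, sg (x i)) z =
      ∏ i, (if i ∈ S then (if i ∈ T then (1 : ℝ) else 0) else (if i ∈ T then z i else 1)) := by
  unfold dmext
  have h1 : ∀ x : ι → Bool, (∏ i ∈ T, sg (x i)) *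
      ∏ i, (if i ∈ S then sg (x i) / 2 else qw (z i) (x i)) =
      ∏ i, ((if i ∈ T then sg (x i) else 1) *
        (if i ∈ S then sg (x i) / 2 else qw (z i) (x i))) := by
    intro x
    rw [Finset.prod_mul_distrib]
    congr 1
    rw [Finset.prod_ite_mem, Finset.univ_inter]
  simp only [h1]
  rw [pd_prod_sum (fun i b => (if i ∈ T then sg b else 1) *
        (if i ∈ S then sg b / 2 else qw (z i) b))]
  apply Finset.prod_congr rfl
  intro i _
  by_cases hS : i ∈ S <;> by_cases hT : i ∈ T <;>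
    simp [hS, hT, qw] <;> ring

lemma dmext_char_self {ι : Type*} [Fintype ι] [DecidableEq ι] (S : Finset ι) (z : ι → ℝ) :
    dmext S (fun x => ∏ i ∈ S, sg (x i)) z = 1 := by
  rw [dmext_char]
  apply Finset.prod_eq_one
  intro i _
  by_cases hS : i ∈ S <;> simp [hS]

lemma dmext_char_zero {ι : Type*} [Fintype ι] [DecidableEq ι] (S T : Finset ι) (z : ι → ℝ)
    (h : ¬ S ⊆ T) : dmext S (fun x => ∏ i ∈ T, sg (x i)) z = 0 := by
  rw [dmext_char]
  obtain ⟨i, hi, hi'⟩ := Finset.not_subset.1 h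
  apply Finset.prod_eq_zero (Finset.mem_univ i)
  simp [hi, hi']

lemma dmext_sum {ι κ : Type*} [Fintype ι] [DecidableEq ι] (S : Finset ι) (A : Finset κ)
    (F : κ → (ι → Bool) → ℝ) (z : ι → ℝ) :
    dmext S (fun x => ∑ q ∈ A, F q x) z = ∑ q ∈ A, dmext S (F q) z := by
  unfold dmext
  rw [Finset.sum_comm]
  apply Finset.sum_congr rfl
  intro x _
  rw [Finset.sum_mul]

lemma dmext_smul {ι : Type*} [Fintype ι] [DecidableEq ι] (S : Finset ι) (c : ℝ)
    (F : (ι → Bool) → ℝ) (z : ι → ℝ) :
    dmext S (fun x => c * F x) z = c * dmext S F z := by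
  unfold dmext
  rw [Finset.mul_sum]
  apply Finset.sum_congr rfl
  intro x _
  ring

lemma mem_spath_full {k t : ℕ} (p : Fin (k + 1) → NN t) (c : Fin (k + 1) × NN t) :
    c ∈ spath (k := k) le_rfl p ↔ p c.1 = c.2 := by
  unfold spath
  simp only [mem_image, mem_univ, true_and]
  constructor
  · rintro ⟨b, rfl⟩; rfl
  · intro h
    exact ⟨c.1, Prod.ext rfl h⟩

lemma prod_spath_full {k t : ℕ} (p : Fin (k + 1) → NN t) (F : Fin (k + 1) × NN t → ℝ) :
    ∏ c ∈ spath (k := k) le_rfl p, F c = ∏ a, F (a, p a) := by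
  unfold spath
  rw [Finset.prod_image]
  · rfl
  · intro a _ b _ h
    exact congrArg Prod.fst h

lemma spath_subset_iff {k t : ℕ} (p q : Fin (k + 1) → NN t) :
    spath (k := k) le_rfl p ⊆ spath (k := k) le_rfl q ↔ p = q := by
  constructor
  · intro h
    funext a
    have h1 : (a, p a) ∈ spath (k := k) le_rfl p := (mem_spath_full p _).2 rfl
    exact ((mem_spath_full q _).1 (h h1)).symm
  · rintro rfl
    exact Finset.Subset.refl _

lemma pd_wal_sq {t : ℕ} (x y : NN t) : wal x y * wal x y = 1 := by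
  unfold wal
  rw [← Finset.prod_mul_distrib]
  apply Finset.prod_eq_one
  intro i _
  by_cases h : (x i && y i) = true <;> simp [h]

/-- T5d: the `(k+1)`-fold derivative of `phi`. -/
theorem phi_deriv (k t : ℕ) (g : ℝ) (z : Fin (k + 1) × NN t → ℝ) :
    ∑ p : Fin (k + 1) → NN t, (g ^ (k + 1) * wpath p) *
      dmext (spath le_rfl p) (fun x => phi k t (fun a i => x (a, i))) z = g ^ (k + 1) := by
  have hs : (0 : ℝ) < Real.sqrt (2 ^ t) := Real.sqrt_pos.2 (by positivity)
  have h0 : ∀ p : Fin (k + 1) → NN t,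
      dmext (spath le_rfl p) (fun x => phi k t (fun a i => x (a, i))) z =
        (∏ a : Fin k, wal (p a.castSucc) (p a.succ)) / Real.sqrt (2 ^ t) ^ (k + 2) := by
    intro p
    have h1 : (fun x : Fin (k + 1) × NN t → Bool => phi k t (fun a i => x (a, i))) =
        fun x => ∑ q : Fin (k + 1) → NN t,
          ((∏ a : Fin k, wal (q a.castSucc) (q a.succ)) / Real.sqrt (2 ^ t) ^ (k + 2)) *
            ∏ c ∈ spath (k := k) le_rfl q, sg (x c) := by
      funext x
      unfold phi
      rw [Finset.sum_div]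
      apply Finset.sum_congr rfl
      intro q _
      rw [prod_spath_full q (fun c => sg (x c))]
      ring
    rw [h1, dmext_sum, Finset.sum_eq_single p]
    · rw [dmext_smul, dmext_char_self, mul_one]
    · intro q _ hq
      rw [dmext_smul, dmext_char_zero, mul_zero]
      rw [spath_subset_iff]
      exact fun h => hq h.symm
    · intro h; exact absurd (Finset.mem_univ _) h
  have h2 : ∀ p : Fin (k + 1) → NN t, (g ^ (k + 1) * wpath p) *
      dmext (spath le_rfl p) (fun x => phi k t (fun a i => x (a, i))) z =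
        g ^ (k + 1) * (1 / Real.sqrt (2 ^ t) ^ (2 * (k + 1))) := by
    intro p
    rw [h0 p]
    have h3 : wpath p = (∏ a : Fin k, wal (p a.castSucc) (p a.succ)) / Real.sqrt (2 ^ t) ^ k := by
      unfold wpath Wm
      rw [Finset.prod_div_distrib]
      simp
    rw [h3]
    have h4 : (∏ a : Fin k, wal (p a.castSucc) (p a.succ)) *
        (∏ a : Fin k, wal (p a.castSucc) (p a.succ)) = 1 := by
      rw [← Finset.prod_mul_distrib]
      exact Finset.prod_eq_one (fun a _ => pd_wal_sq _ _)
    have h5 : Real.sqrt (2 ^ t) ^ (2 * (k + 1)) =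
        Real.sqrt (2 ^ t) ^ k * Real.sqrt (2 ^ t) ^ (k + 2) := by
      rw [← pow_add]; congr 1; ring
    rw [h5]
    have h6 : Real.sqrt (2 ^ t) ^ k ≠ 0 := by positivity
    have h7 : Real.sqrt (2 ^ t) ^ (k + 2) ≠ 0 := by positivity
    calc g ^ (k + 1) * ((∏ a : Fin k, wal (p a.castSucc) (p a.succ)) / Real.sqrt (2 ^ t) ^ k) *
          ((∏ a : Fin k, wal (p a.castSucc) (p a.succ)) / Real.sqrt (2 ^ t) ^ (k + 2))
        = g ^ (k + 1) * (((∏ a : Fin k, wal (p a.castSucc) (p a.succ)) *
          (∏ a : Fin k, wal (p a.castSucc) (p a.succ))) /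
            (Real.sqrt (2 ^ t) ^ k * Real.sqrt (2 ^ t) ^ (k + 2))) := by ring
      _ = _ := by rw [h4]
  simp only [h2]
  rw [Finset.sum_const, Finset.card_univ, nsmul_eq_mul]
  have h8 : (Fintype.card (Fin (k + 1) → NN t) : ℝ) = Real.sqrt (2 ^ t) ^ (2 * (k + 1)) := by
    rw [pow_mul, Real.sq_sqrt (by positivity)]
    simp [Fintype.card_pi]
  rw [h8]
  have h9 : Real.sqrt (2 ^ t) ^ (2 * (k + 1)) ≠ 0 := by positivity
  field_simp

end Crest.Agent.R350
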