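import Crest.Agent.R350.Interp2

/-! Row 350, T5b: off-cube tail bound. -/

set_option autoImplicit false

namespace Crest.Agent.R350

open Finset MeasureTheory ProbabilityTheory

section rot

variable (k t : ℕ)

/-- blockwise Walsh transform -/
noncomputable def rot (v : Fin k × NN t → ℝ) : Fin k × NN t → ℝ :=
  fun c => ∑ j, Wm c.2 j * v (c.1, j)

theorem rot_sq (v : Fin k × NN t → ℝ) : ∑ c, rot k t v c ^ 2 = ∑ c, v c ^ 2 := by
  rw [Fintype.sum_prod_type, Fintype.sum_prod_type]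
  refine Finset.sum_congr rfl fun a _ => ?_
  have h1 : ∀ i : NN t, rot k t v (a, i) ^ 2
      = ∑ j, ∑ j', (Wm i j * Wm i j') * (v (a, j) * v (a, j')) := by
    intro i
    simp only [rot, sq, Finset.sum_mul_sum]
    refine Finset.sum_congr rfl fun j _ => Finset.sum_congr rfl fun j' _ => ?_
    ring
  simp only [h1]
  rw [Finset.sum_comm]
  refine Finset.sum_congr rfl fun j _ => ?_
  rw [Finset.sum_comm]
  have h2 : ∀ j' : NN t, ∑ i : NN t, Wm i j * Wm i j' * (v (a, j) * v (a, j'))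
      = (if j = j' then 1 else 0) * (v (a, j) * v (a, j')) := by
    intro j'
    rw [← Finset.sum_mul]
    congr 1
    have := Wm_orth j j'
    simp only [Wm_symm j, Wm_symm j'] at this
    exact this
  simp only [h2, ite_mul, one_mul, zero_mul, Finset.sum_ite_eq, Finset.mem_univ, if_true]
  ring

/-- blockwise Walsh transform as a linear isometry -/
noncomputable def rotL : EuclideanSpace ℝ (Fin k × NN t) →ₗᵢ[ℝ] EuclideanSpace ℝ (Fin k × NN t) where
  toFun v := WithLp.toLp 2 (rot k t (WithLp.ofLp v))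
  map_add' v w := by
    ext c
    simp [rot, mul_add, Finset.sum_add_distrib]
  map_smul' r v := by
    ext c
    simp only [rot, PiLp.smul_apply, WithLp.ofLp_smul, Pi.smul_apply, smul_eq_mul, RingHom.id_apply,
      Finset.mul_sum]
    refine Finset.sum_congr rfl fun j _ => ?_
    ring
  norm_map' v := by
    have h : ‖(WithLp.toLp 2 (rot k t (WithLp.ofLp v)) : EuclideanSpace ℝ (Fin k × NN t))‖ ^ 2
        = ‖v‖ ^ 2 := by
      rw [EuclideanSpace.real_norm_sq_eq, EuclideanSpace.real_norm_sq_eq]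
      exact rot_sq k t _
    exact (sq_eq_sq₀ (norm_nonneg _) (norm_nonneg _)).1 h

theorem map_rot : (gaus (Fin k × NN t)).map (rot k t) = gaus (Fin k × NN t) := by
  have hL : (stdGaussian (EuclideanSpace ℝ (Fin k × NN t))).map
      ((rotL k t).toLinearIsometryEquiv rfl) = stdGaussian (EuclideanSpace ℝ (Fin k × NN t)) :=
    stdGaussian_map _
  have hp : (gaus (Fin k × NN t)).map (WithLp.toLp 2)
      = stdGaussian (EuclideanSpace ℝ (Fin k × NN t)) := map_pi_eq_stdGaussian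
  have hm1 : Measurable (WithLp.toLp 2 : (Fin k × NN t → ℝ) → EuclideanSpace ℝ (Fin k × NN t)) := by
    fun_prop
  have hm2 : Measurable (WithLp.ofLp : EuclideanSpace ℝ (Fin k × NN t) → (Fin k × NN t → ℝ)) := by
    fun_prop
  have hm3 : Measurable ((rotL k t).toLinearIsometryEquiv rfl) := by fun_prop
  have hcomp : rot k t = WithLp.ofLp ∘ ((rotL k t).toLinearIsometryEquiv rfl) ∘ WithLp.toLp 2 := by
    funext v
    rfl
  have hback : (stdGaussian (EuclideanSpace ℝ (Fin k × NN t))).map WithLp.ofLp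
      = gaus (Fin k × NN t) := by
    rw [← hp, Measure.map_map hm2 hm1]
    have : (WithLp.ofLp ∘ WithLp.toLp 2 : (Fin k × NN t → ℝ) → (Fin k × NN t → ℝ)) = id := by
      funext v; rfl
    rw [this, Measure.map_id]
  rw [hcomp, ← Measure.map_map hm2 (hm3.comp hm1), ← Measure.map_map hm3 hm1, hp, hL, hback]

end rot


section tail

variable {k t : ℕ}

/-- the polynomial majorant -/
noncomputable def GG (p : ℕ) (g : ℝ) (w : Fin k × NN t → ℝ) : ℝ :=
  (1 + g ^ p) ^ (2 ^ t) * ∏ c, (1 + g ^ p * (w c) ^ (2 * p))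

theorem prod_Xl (p : ℕ) (g : ℝ) (v : Fin k × NN t → ℝ) :
    ∏ c : Fin (k + 1) × NN t, (1 + g ^ p * (Xl v c) ^ (2 * p)) = GG p g v := by
  rw [Fintype.prod_prod_type, Fin.prod_univ_castSucc]
  have h1 : ∀ i : NN t, Xl v (Fin.last k, i) = 1 := by
    intro i; simp [Xl]
  have h2 : ∀ (a : Fin k) (i : NN t), Xl v (a.castSucc, i) = v (a, i) := by
    intro a i
    simp [Xl]
  simp only [h1, h2, one_pow, mul_one, Finset.prod_const, Finset.card_univ, Fintype.card_fun,
    Fintype.card_bool, Fintype.card_fin]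
  unfold GG
  rw [Fintype.prod_prod_type, mul_comm]

theorem prod_Yl (p : ℕ) (g : ℝ) (v : Fin k × NN t → ℝ) :
    ∏ c : Fin (k + 1) × NN t, (1 + g ^ p * (Yl v c) ^ (2 * p)) = GG p g (rot k t v) := by
  rw [Fintype.prod_prod_type, Fin.prod_univ_succ]
  have h1 : ∀ i : NN t, Yl v ((0 : Fin (k + 1)), i) = 1 := by
    intro i; simp [Yl]
  have h2 : ∀ (a : Fin k) (i : NN t), Yl v (a.succ, i) = rot k t v (a, i) := by
    intro a i
    simp [Yl, rot]
  simp only [h1, h2, one_pow, mul_one, Finset.prod_const, Finset.card_univ, Fintype.card_fun,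
    Fintype.card_bool, Fintype.card_fin]
  unfold GG
  rw [Fintype.prod_prod_type]

theorem le_one_add_pow (p : ℕ) (hp : 1 ≤ p) (a : ℝ) (ha : 0 ≤ a) : a ≤ 1 + a ^ p := by
  by_cases h : a ≤ 1
  · have := pow_nonneg ha p
    linarith
  · have h' : 1 ≤ a := by linarith
    have := le_self_pow₀ h' (by omega : p ≠ 0)
    linarith

theorem max_le_prod (p : ℕ) (hp : 1 ≤ p) (g X Y : ℝ) (hg : 0 ≤ g) :
    max 1 |g * X * Y| ≤ (1 + g ^ p * X ^ (2 * p)) * (1 + g ^ p * Y ^ (2 * p)) := by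
  set a := g * X ^ 2 with ha
  set b := g * Y ^ 2 with hb
  have ha0 : 0 ≤ a := by positivity
  have hb0 : 0 ≤ b := by positivity
  have h1 : g ^ p * X ^ (2 * p) = a ^ p := by rw [ha, mul_pow, ← pow_mul]
  have h2 : g ^ p * Y ^ (2 * p) = b ^ p := by rw [hb, mul_pow, ← pow_mul]
  rw [h1, h2]
  have hap := pow_nonneg ha0 p
  have hbp := pow_nonneg hb0 p
  apply max_le
  · nlinarith [mul_nonneg hap hbp]
  · have h3 : |g * X * Y| ≤ (a + b) / 2 := by
      rw [abs_le]
      constructor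
      · nlinarith [mul_nonneg hg (sq_nonneg (X + Y))]
      · nlinarith [mul_nonneg hg (sq_nonneg (X - Y))]
    have h4 := le_one_add_pow p hp a ha0
    have h5 := le_one_add_pow p hp b hb0
    nlinarith [mul_nonneg hap hbp]

theorem Rmax_le (p : ℕ) (hp : 1 ≤ p) (g : ℝ) (hg : 0 ≤ g) (v : Fin k × NN t → ℝ) :
    Rmax g v ≤ GG p g v * GG p g (rot k t v) := by
  rw [← prod_Xl, ← prod_Yl, ← Finset.prod_mul_distrib]
  unfold Rmax Zl
  exact Finset.prod_le_prod (fun c _ => le_trans zero_le_one (le_max_left _ _))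
    (fun c _ => max_le_prod p hp g _ _ hg)

theorem GG_nonneg (p : ℕ) (g : ℝ) (hg : 0 ≤ g) (w : Fin k × NN t → ℝ) : 0 ≤ GG p g w := by
  unfold GG
  refine mul_nonneg (by positivity) (Finset.prod_nonneg fun c _ => ?_)
  have : 0 ≤ (w c) ^ (2 * p) := by rw [pow_mul]; positivity
  positivity

theorem polyFn_GG (p : ℕ) (g : ℝ) : PolyFn (fun v : Fin k × NN t → ℝ => GG p g v) := by
  unfold GG
  refine (PolyFn.const _).mul (PolyFn.prod _ fun c _ => ?_)
  exact (PolyFn.const _).add ((PolyFn.const _).mul ((PolyFn.coord c).pow _))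

theorem polyFn_rot (c : Fin k × NN t) : PolyFn (fun v : Fin k × NN t → ℝ => rot k t v c) := by
  unfold rot
  exact PolyFn.sum _ fun j _ => (PolyFn.const _).mul (PolyFn.coord _)

theorem polyFn_GG_rot (p : ℕ) (g : ℝ) :
    PolyFn (fun v : Fin k × NN t → ℝ => GG p g (rot k t v)) := by
  unfold GG
  refine (PolyFn.const _).mul (PolyFn.prod _ fun c _ => ?_)
  exact (PolyFn.const _).add ((PolyFn.const _).mul ((polyFn_rot c).pow _))

theorem PolyFn.continuous' {κ : Type*} {F : (κ → ℝ) → ℝ} (hF : PolyFn F) : Continuous F := by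
  obtain ⟨P, hP⟩ := hF
  have : F = fun v => MvPolynomial.eval v P := funext hP
  rw [this]
  exact MvPolynomial.continuous_eval P

theorem measurable_rot : Measurable (rot k t) := by
  refine measurable_pi_lambda _ fun c => ?_
  exact (polyFn_rot c).continuous'.measurable

/-- invariance, for polynomial functions -/
theorem integral_rot {F : (Fin k × NN t → ℝ) → ℝ} (hF : Continuous F) :
    ∫ v, F (rot k t v) ∂(gaus (Fin k × NN t)) = ∫ v, F v ∂(gaus (Fin k × NN t)) := by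
  conv_rhs => rw [← map_rot k t]
  rw [integral_map measurable_rot.aemeasurable hF.aestronglyMeasurable]

/-- the constant of the one dimensional majorant -/
noncomputable def Kp (p : ℕ) : ℝ := ∫ u, (1 + u ^ (2 * p)) ^ 4 ∂(gaussianReal 0 1)

theorem integrable_Kp (p : ℕ) (c : ℝ) :
    Integrable (fun u : ℝ => (1 + c * u ^ (2 * p)) ^ 4) (gaussianReal 0 1) := by
  have : (fun u : ℝ => (1 + c * u ^ (2 * p)) ^ 4) = fun u => 1 * u ^ 0 + (4 * c) * u ^ (2 * p)
      + (6 * c ^ 2) * u ^ (2 * p * 2) + (4 * c ^ 3) * u ^ (2 * p * 3) + c ^ 4 * u ^ (2 * p * 4) := by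
    funext u
    rw [pow_mul u (2 * p) 2, pow_mul u (2 * p) 3, pow_mul u (2 * p) 4]
    ring
  rw [this]
  exact ((((integrable_pow_gauss 0).const_mul _).add ((integrable_pow_gauss _).const_mul _)).add
    ((integrable_pow_gauss _).const_mul _)).add ((integrable_pow_gauss _).const_mul _) |>.add
    ((integrable_pow_gauss _).const_mul _)

theorem Kp_nonneg (p : ℕ) : 0 ≤ Kp p := integral_nonneg fun u => by positivity

theorem one_dim (p : ℕ) (c : ℝ) (hc0 : 0 ≤ c) (hc1 : c ≤ 1) :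
    ∫ u, (1 + c * u ^ (2 * p)) ^ 4 ∂(gaussianReal 0 1) ≤ 1 + c * Kp p := by
  have h1 : 1 + c * Kp p = ∫ u, (1 + c * (1 + u ^ (2 * p)) ^ 4) ∂(gaussianReal 0 1) := by
    have hi := integrable_Kp p 1
    simp only [one_mul] at hi
    rw [integral_add (integrable_const _) (hi.const_mul c), integral_const_mul]
    simp [Kp]
  rw [h1]
  have hi := integrable_Kp p 1
  simp only [one_mul] at hi
  refine integral_mono (integrable_Kp p c) ((integrable_const _).add (hi.const_mul c)) ?_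
  intro u
  simp only
  have hy : 0 ≤ u ^ (2 * p) := by rw [pow_mul]; positivity
  set y := u ^ (2 * p)
  have hc2 : c ^ 2 ≤ c := by nlinarith
  have hc3 : c ^ 3 ≤ c := by nlinarith [mul_nonneg hc0 hc0]
  have hc4 : c ^ 4 ≤ c := by nlinarith [mul_nonneg hc0 hc0, mul_nonneg (mul_nonneg hc0 hc0) hc0]
  have e1 : (1 + c * y) ^ 4 = 1 + 4 * (c * y) + 6 * (c ^ 2 * y ^ 2) + 4 * (c ^ 3 * y ^ 3)
      + c ^ 4 * y ^ 4 := by ring
  have e2 : 1 + c * (1 + y) ^ 4 = 1 + c + 4 * (c * y) + 6 * (c * y ^ 2) + 4 * (c * y ^ 3)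
      + c * y ^ 4 := by ring
  rw [e1, e2]
  have f2 := mul_le_mul_of_nonneg_right hc2 (by positivity : 0 ≤ y ^ 2)
  have f3 := mul_le_mul_of_nonneg_right hc3 (by positivity : 0 ≤ y ^ 3)
  have f4 := mul_le_mul_of_nonneg_right hc4 (by positivity : 0 ≤ y ^ 4)
  linarith

theorem integral_GG4 (p : ℕ) (g : ℝ) (hg : 0 ≤ g) (hg1 : g ≤ 1) (hgp : g ^ p * 2 ^ t ≤ 1) :
    ∫ v : Fin k × NN t → ℝ, GG p g v ^ 4 ∂(gaus (Fin k × NN t)) ≤ Real.exp (4 + k * Kp p) := by
  have h1 : ∀ v : Fin k × NN t → ℝ, GG p g v ^ 4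
      = (1 + g ^ p) ^ (2 ^ t * 4) * ∏ c, (1 + g ^ p * (v c) ^ (2 * p)) ^ 4 := by
    intro v
    unfold GG
    rw [mul_pow, ← pow_mul, Finset.prod_pow]
  simp only [h1]
  rw [integral_const_mul]
  have h2 : ∫ v : Fin k × NN t → ℝ, ∏ c, (1 + g ^ p * (v c) ^ (2 * p)) ^ 4
        ∂(gaus (Fin k × NN t))
      = ∏ _c : Fin k × NN t, ∫ u, (1 + g ^ p * u ^ (2 * p)) ^ 4 ∂(gaussianReal 0 1) :=
    integral_fintype_prod_eq_prod (f := fun _ x => (1 + g ^ p * x ^ (2 * p)) ^ 4)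
  rw [h2, Finset.prod_const, Finset.card_univ, Fintype.card_prod, Fintype.card_fin,
    Fintype.card_fun, Fintype.card_bool, Fintype.card_fin]
  have hgp0 : 0 ≤ g ^ p := pow_nonneg hg p
  have hgp1 : g ^ p ≤ 1 := pow_le_one₀ hg hg1
  have hK := Kp_nonneg p
  have h3 : ∫ u, (1 + g ^ p * u ^ (2 * p)) ^ 4 ∂(gaussianReal 0 1) ≤ Real.exp (g ^ p * Kp p) :=
    (one_dim p _ hgp0 hgp1).trans (by have := Real.add_one_le_exp (g ^ p * Kp p); linarith)
  have h3' : 0 ≤ ∫ u, (1 + g ^ p * u ^ (2 * p)) ^ 4 ∂(gaussianReal 0 1) :=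
    integral_nonneg fun u => by positivity
  have h4 : (1 + g ^ p) ≤ Real.exp (g ^ p) := by
    have := Real.add_one_le_exp (g ^ p); linarith
  calc (1 + g ^ p) ^ (2 ^ t * 4) *
        (∫ u, (1 + g ^ p * u ^ (2 * p)) ^ 4 ∂(gaussianReal 0 1)) ^ (k * 2 ^ t)
      ≤ (Real.exp (g ^ p)) ^ (2 ^ t * 4) * (Real.exp (g ^ p * Kp p)) ^ (k * 2 ^ t) := by
        apply mul_le_mul
        · exact pow_le_pow_left₀ (by positivity) h4 _
        · exact pow_le_pow_left₀ h3' h3 _
        · positivity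
        · positivity
    _ = Real.exp (4 * (g ^ p * 2 ^ t) + k * Kp p * (g ^ p * 2 ^ t)) := by
        rw [← Real.exp_nat_mul, ← Real.exp_nat_mul, ← Real.exp_add]
        congr 1
        push_cast
        ring
    _ ≤ Real.exp (4 + k * Kp p) := by
        apply Real.exp_le_exp.2
        have : 0 ≤ (k : ℝ) * Kp p := by positivity
        nlinarith


/-! ### the moment bounds -/

/-- moments of the standard Gaussian -/
noncomputable def mom (r : ℕ) : ℝ := ∫ u, u ^ r ∂(gaussianReal 0 1)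

theorem mom_nonneg (r : ℕ) : 0 ≤ mom (8 * r) :=
  integral_nonneg fun u => by
    have : u ^ (8 * r) = (u ^ (4 * r)) ^ 2 := by rw [← pow_mul]; congr 1; ring
    simp only [this]
    positivity

theorem integral_coord_pow (d : Fin k × NN t) (r : ℕ) :
    ∫ v : Fin k × NN t → ℝ, v d ^ r ∂(gaus (Fin k × NN t)) = mom r := by
  have h := (measurePreserving_eval (fun _ : Fin k × NN t => gaussianReal 0 1) d).map_eq
  unfold mom gaus
  conv_rhs => rw [← h]
  rw [integral_map (measurable_pi_apply d).aemeasurable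
    (by fun_prop : Continuous fun u : ℝ => u ^ r).aestronglyMeasurable]

theorem integral_Xl_pow (c : Fin (k + 1) × NN t) (r : ℕ) :
    ∫ v : Fin k × NN t → ℝ, Xl v c ^ (8 * r) ∂(gaus (Fin k × NN t)) ≤ 1 + mom (8 * r) := by
  have h0 := mom_nonneg r
  unfold Xl
  by_cases h : c.1.val < k
  · simp only [h, dif_pos]
    rw [integral_coord_pow]
    linarith
  · simp only [h, dif_neg, not_false_eq_true]
    simp
    exact h0

theorem integral_Yl_pow (c : Fin (k + 1) × NN t) (r : ℕ) :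
    ∫ v : Fin k × NN t → ℝ, Yl v c ^ (8 * r) ∂(gaus (Fin k × NN t)) ≤ 1 + mom (8 * r) := by
  have h0 := mom_nonneg r
  by_cases h : c.1.val = 0
  · have : ∀ v : Fin k × NN t → ℝ, Yl v c = 1 := fun v => by unfold Yl; simp [h]
    simp only [this]
    simp
    exact h0
  · have hlt : c.1.val - 1 < k := by have := c.1.isLt; omega
    have : ∀ v : Fin k × NN t → ℝ, Yl v c = rot k t v (⟨c.1.val - 1, hlt⟩, c.2) := fun v => by
      unfold Yl rot; simp [h]
    simp only [this]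
    have h2 := integral_rot (k := k) (t := t)
      (F := fun w => w (⟨c.1.val - 1, hlt⟩, c.2) ^ (8 * r)) (by fun_prop)
    rw [h2, integral_coord_pow]
    linarith

/-- the polynomial detecting badness -/
noncomputable def BB (m : ℕ) (g : ℝ) (v : Fin k × NN t → ℝ) : ℝ :=
  ∑ c : Fin (k + 1) × NN t, (2 * Zl g v c) ^ (2 * m)

theorem polyFn_BB (m : ℕ) (g : ℝ) : PolyFn (fun v : Fin k × NN t → ℝ => BB m g v) := by
  unfold BB
  exact PolyFn.sum _ fun c _ => ((PolyFn.const _).mul (polyFn_Zl g c)).pow _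

theorem BB_nonneg (m : ℕ) (g : ℝ) (v : Fin k × NN t → ℝ) : 0 ≤ BB m g v := by
  unfold BB
  refine Finset.sum_nonneg fun c _ => ?_
  rw [pow_mul]; positivity

theorem one_le_BB (m : ℕ) (g : ℝ) (v : Fin k × NN t → ℝ) (hv : v ∈ badSet k t g) :
    1 ≤ BB m g v := by
  obtain ⟨c, hc⟩ := hv
  have h1 : 1 ≤ (2 * Zl g v c) ^ (2 * m) := by
    rw [pow_mul]
    apply one_le_pow₀
    rw [← sq_abs, abs_mul]
    have : |(2 : ℝ)| = 2 := abs_of_pos (by norm_num)
    rw [this]
    nlinarith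
  refine h1.trans ?_
  unfold BB
  refine Finset.single_le_sum (f := fun c => (2 * Zl g v c) ^ (2 * m)) (fun c _ => ?_)
    (Finset.mem_univ c)
  rw [pow_mul]; positivity

theorem BB_sq_le (m : ℕ) (g : ℝ) (hg : 0 ≤ g) (v : Fin k × NN t → ℝ) :
    BB m g v ^ 2 ≤ ((k + 1 : ℕ) * 2 ^ t : ℝ) *
      ∑ c : Fin (k + 1) × NN t, (2 * g) ^ (4 * m) * ((Xl v c ^ (8 * m) + Yl v c ^ (8 * m)) / 2) := by
  unfold BB
  have h1 := sq_sum_le_card_mul_sum_sq (s := (Finset.univ : Finset (Fin (k + 1) × NN t)))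
    (f := fun c => (2 * Zl g v c) ^ (2 * m))
  rw [Finset.card_univ, Fintype.card_prod, Fintype.card_fin, Fintype.card_fun, Fintype.card_bool,
    Fintype.card_fin] at h1
  refine h1.trans ?_
  push_cast
  refine mul_le_mul_of_nonneg_left ?_ (by positivity)
  refine Finset.sum_le_sum fun c _ => ?_
  unfold Zl
  have e1 : ((2 * (g * Xl v c * Yl v c)) ^ (2 * m)) ^ 2
      = (2 * g) ^ (4 * m) * (Xl v c ^ (4 * m) * Yl v c ^ (4 * m)) := by
    rw [← pow_mul, show 2 * m * 2 = 4 * m by ring]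
    rw [show 2 * (g * Xl v c * Yl v c) = (2 * g) * (Xl v c * Yl v c) by ring, mul_pow (2 * g),
      mul_pow (Xl v c)]
  rw [e1]
  refine mul_le_mul_of_nonneg_left ?_ (by positivity)
  have e2 : Xl v c ^ (8 * m) = (Xl v c ^ (4 * m)) ^ 2 := by rw [← pow_mul]; congr 1; ring
  have e3 : Yl v c ^ (8 * m) = (Yl v c ^ (4 * m)) ^ 2 := by rw [← pow_mul]; congr 1; ring
  rw [e2, e3]
  nlinarith [sq_nonneg (Xl v c ^ (4 * m) - Yl v c ^ (4 * m))]

theorem integral_BB_sq (m : ℕ) (g : ℝ) (hg : 0 ≤ g) :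
    ∫ v : Fin k × NN t → ℝ, BB m g v ^ 2 ∂(gaus (Fin k × NN t)) ≤
      ((k + 1 : ℕ) * 2 ^ t : ℝ) ^ 2 * ((2 * g) ^ (4 * m) * (1 + mom (8 * m))) := by
  have hX : ∀ c : Fin (k + 1) × NN t,
      PolyFn (fun v : Fin k × NN t → ℝ => Xl v c ^ (8 * m)) := fun c => (polyFn_Xl c).pow _
  have hY : ∀ c : Fin (k + 1) × NN t,
      PolyFn (fun v : Fin k × NN t → ℝ => Yl v c ^ (8 * m)) := fun c => (polyFn_Yl c).pow _
  have h1 : ∫ v : Fin k × NN t → ℝ, BB m g v ^ 2 ∂(gaus (Fin k × NN t)) ≤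
      ∫ v : Fin k × NN t → ℝ, ((k + 1 : ℕ) * 2 ^ t : ℝ) *
      ∑ c : Fin (k + 1) × NN t, (2 * g) ^ (4 * m) * ((Xl v c ^ (8 * m) + Yl v c ^ (8 * m)) / 2)
        ∂(gaus (Fin k × NN t)) := by
    refine integral_mono ((polyFn_BB m g).pow 2).integrable ?_ (fun v => BB_sq_le m g hg v)
    refine Integrable.const_mul (integrable_finsetSum _ fun c _ => ?_) _
    exact (((hX c).integrable.add (hY c).integrable).div_const 2).const_mul _
  refine h1.trans ?_
  rw [integral_const_mul, integral_finsetSum]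
  · have h2 : ∀ c ∈ (Finset.univ : Finset (Fin (k + 1) × NN t)),
        ∫ v : Fin k × NN t → ℝ, (2 * g) ^ (4 * m) * ((Xl v c ^ (8 * m) + Yl v c ^ (8 * m)) / 2)
          ∂(gaus (Fin k × NN t)) ≤ (2 * g) ^ (4 * m) * (1 + mom (8 * m)) := by
      intro c _
      rw [integral_const_mul, integral_div, integral_add (hX c).integrable (hY c).integrable]
      refine mul_le_mul_of_nonneg_left ?_ (by positivity)
      have := integral_Xl_pow (k := k) (t := t) c m
      have := integral_Yl_pow (k := k) (t := t) c m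
      linarith
    have h3 := Finset.sum_le_sum h2
    rw [Finset.sum_const, Finset.card_univ, Fintype.card_prod, Fintype.card_fin, Fintype.card_fun,
      Fintype.card_bool, Fintype.card_fin, nsmul_eq_mul] at h3
    have h4 := mul_le_mul_of_nonneg_left h3 (by positivity : (0 : ℝ) ≤ ((k + 1 : ℕ) * 2 ^ t : ℝ))
    refine h4.trans (le_of_eq ?_)
    push_cast
    ring
  · intro c _
    exact (((hX c).integrable.add (hY c).integrable).div_const 2).const_mul _

theorem continuous_Rmax (g : ℝ) : Continuous (fun v : Fin k × NN t → ℝ => Rmax g v) := by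
  unfold Rmax
  refine continuous_finsetProd _ fun c _ => ?_
  exact continuous_const.max (polyFn_Zl g c).continuous'.abs

theorem integrable_Rmax (g : ℝ) (hg : 0 ≤ g) :
    Integrable (fun v : Fin k × NN t → ℝ => Rmax g v) (gaus (Fin k × NN t)) := by
  have h1 : Integrable (fun v : Fin k × NN t → ℝ => GG 1 g v * GG 1 g (rot k t v))
      (gaus (Fin k × NN t)) := ((polyFn_GG 1 g).mul (polyFn_GG_rot 1 g)).integrable
  refine h1.mono' (continuous_Rmax g).aestronglyMeasurable (ae_of_all _ fun v => ?_)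
  rw [Real.norm_eq_abs, abs_of_nonneg]
  · exact Rmax_le 1 le_rfl g hg v
  · unfold Rmax
    exact Finset.prod_nonneg fun c _ => le_trans zero_le_one (le_max_left _ _)

theorem measurableSet_bad (g : ℝ) : MeasurableSet (badSet k t g) := by
  have : badSet k t g = ⋃ c : Fin (k + 1) × NN t, {v | 1 / 2 < |Zl g v c|} := by
    ext v; simp [badSet]
  rw [this]
  refine MeasurableSet.iUnion fun c => ?_
  exact (isOpen_lt continuous_const (polyFn_Zl g c).continuous'.abs).measurableSet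

/-- the quantitative bound -/
theorem bad_integral_le (p m : ℕ) (hp : 1 ≤ p) (g l : ℝ) (hg : 0 ≤ g) (hg1 : g ≤ 1)
    (hgp : g ^ p * 2 ^ t ≤ 1) (hl : 0 < l) :
    ∫ v in badSet k t g, Rmax g v ∂(gaus (Fin k × NN t)) ≤
      (l * (((k + 1 : ℕ) * 2 ^ t : ℝ) ^ 2 * ((2 * g) ^ (4 * m) * (1 + mom (8 * m))))
        + l⁻¹ * Real.exp (4 + k * Kp p)) / 2 := by
  set μ := gaus (Fin k × NN t) with hμ
  set H : (Fin k × NN t → ℝ) → ℝ := fun v =>
    (l * BB m g v ^ 2 + l⁻¹ * ((GG p g v ^ 4 + GG p g (rot k t v) ^ 4) / 2)) / 2 with hH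
  have iB : Integrable (fun v : Fin k × NN t → ℝ => BB m g v ^ 2) μ :=
    ((polyFn_BB m g).pow 2).integrable
  have iU : Integrable (fun v : Fin k × NN t → ℝ => GG p g v ^ 4) μ :=
    ((polyFn_GG p g).pow 4).integrable
  have iV : Integrable (fun v : Fin k × NN t → ℝ => GG p g (rot k t v) ^ 4) μ :=
    ((polyFn_GG_rot p g).pow 4).integrable
  have iH : Integrable H μ :=
    ((iB.const_mul l).add (((iU.add iV).div_const 2).const_mul l⁻¹)).div_const 2
  have hH0 : ∀ v, 0 ≤ H v := fun v => by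
    simp only [hH]
    have := inv_pos.2 hl
    positivity
  have hle : ∀ v ∈ badSet k t g, Rmax g v ≤ H v := by
    intro v hv
    have h1 := Rmax_le p hp g hg v
    have hU := GG_nonneg p g hg v
    have hV := GG_nonneg p g hg (rot k t v)
    have hB := one_le_BB m g v hv
    set U := GG p g v
    set V := GG p g (rot k t v)
    set B := BB m g v
    have h2 : U * V ≤ B * (U * V) := le_mul_of_one_le_left (mul_nonneg hU hV) hB
    have h3 : B * (U * V) ≤ (l * B ^ 2 + l⁻¹ * (U * V) ^ 2) / 2 := by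
      have h4 : 0 ≤ l⁻¹ * (l * B - U * V) ^ 2 := by
        have := inv_pos.2 hl
        positivity
      have h5 : l⁻¹ * (l * B - U * V) ^ 2 = l * B ^ 2 - 2 * (B * (U * V)) + l⁻¹ * (U * V) ^ 2 := by
        field_simp
        ring
      linarith
    have h6 : (U * V) ^ 2 ≤ (U ^ 4 + V ^ 4) / 2 := by nlinarith [sq_nonneg (U ^ 2 - V ^ 2)]
    have h7 : l⁻¹ * (U * V) ^ 2 ≤ l⁻¹ * ((U ^ 4 + V ^ 4) / 2) :=
      mul_le_mul_of_nonneg_left h6 (inv_pos.2 hl).le
    simp only [hH]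
    linarith
  have h1 : ∫ v in badSet k t g, Rmax g v ∂μ ≤ ∫ v in badSet k t g, H v ∂μ :=
    setIntegral_mono_on (integrable_Rmax g hg).integrableOn iH.integrableOn
      (measurableSet_bad g) hle
  have h2 : ∫ v in badSet k t g, H v ∂μ ≤ ∫ v, H v ∂μ :=
    setIntegral_le_integral iH (ae_of_all _ hH0)
  have h3 : ∫ v, H v ∂μ = (l * ∫ v, BB m g v ^ 2 ∂μ + l⁻¹ * ((∫ v, GG p g v ^ 4 ∂μ
      + ∫ v, GG p g (rot k t v) ^ 4 ∂μ) / 2)) / 2 := by
    have iUV : Integrable (fun v : Fin k × NN t → ℝ =>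
        l⁻¹ * ((GG p g v ^ 4 + GG p g (rot k t v) ^ 4) / 2)) μ :=
      ((iU.add iV).div_const 2).const_mul l⁻¹
    simp only [hH]
    rw [integral_div, integral_add (iB.const_mul l) iUV,
      integral_const_mul, integral_const_mul, integral_div, integral_add iU iV]
  have h4 : ∫ v, GG p g (rot k t v) ^ 4 ∂μ = ∫ v, GG p g v ^ 4 ∂μ :=
    integral_rot (F := fun w => GG p g w ^ 4) ((polyFn_GG p g).pow 4).continuous'
  have h5 := integral_GG4 (k := k) (t := t) p g hg hg1 hgp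
  have h6 := integral_BB_sq (k := k) (t := t) m g hg
  rw [h4] at h3
  rw [← hμ] at h5 h6
  refine (h1.trans h2).trans ?_
  rw [h3]
  have h7 := mul_le_mul_of_nonneg_left h6 hl.le
  have h8 := mul_le_mul_of_nonneg_left h5 (inv_pos.2 hl).le
  linarith

/-- T5b: off-cube contribution is smaller than any power of `n = 2^t`. -/
theorem tail_bound (k : ℕ) (δ C : ℝ) (hδ : 0 < δ) :
    ∃ t₀ : ℕ, ∀ t : ℕ, t₀ ≤ t → ∀ g : ℝ, 0 ≤ g → g ≤ ((2 : ℝ) ^ t) ^ (-δ) →
      Integrable (Rmax (k := k) (t := t) g) (gam k t) ∧ MeasurableSet (badSet k t g) ∧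
      ∫ v in badSet k t g, Rmax g v ∂(gam k t) ≤ ((2 : ℝ) ^ t) ^ (-C) := by
  obtain ⟨p0, hp0⟩ := exists_nat_ge (1 / δ)
  obtain ⟨m, hm⟩ := exists_nat_ge ((2 * C + 4) / (4 * δ))
  set p := max p0 1 with hpdef
  have hp1 : 1 ≤ p := le_max_right _ _
  have hpδ : 1 ≤ p * δ := by
    have h1 : (p0 : ℝ) ≤ p := by exact_mod_cast le_max_left _ _
    have h2 : 1 / δ ≤ p := hp0.trans h1
    rw [div_le_iff₀ hδ] at h2
    exact h2
  have hmδ : 2 * C + 4 ≤ 4 * m * δ := by
    rw [div_le_iff₀ (by positivity)] at hm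
    linarith
  set K1 : ℝ := ((k + 1 : ℕ) : ℝ) ^ 2 * (2 ^ (4 * m) * (1 + mom (8 * m))) with hK1
  set D : ℝ := Real.exp (4 + k * Kp p) with hD
  obtain ⟨t0, ht0⟩ := pow_unbounded_of_one_lt ((K1 + D) / 2) (one_lt_two : (1 : ℝ) < 2)
  refine ⟨t0, fun t ht g hg hgle => ⟨integrable_Rmax g hg, measurableSet_bad g, ?_⟩⟩
  set n : ℝ := (2 : ℝ) ^ t with hn
  have hn1 : 1 ≤ n := one_le_pow₀ (by norm_num)
  have hn0 : 0 < n := by linarith
  have hnt : (K1 + D) / 2 ≤ n := ht0.le.trans (pow_le_pow_right₀ (by norm_num) ht)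
  have hg1 : g ≤ 1 := hgle.trans (Real.rpow_le_one_of_one_le_of_nonpos hn1 (by linarith))
  have hgp : g ^ p * 2 ^ t ≤ 1 := by
    have h1 : g ^ p ≤ (n ^ (-δ)) ^ p := pow_le_pow_left₀ hg hgle p
    have h2 : (n ^ (-δ)) ^ p = n ^ (-δ * p) := by
      rw [← Real.rpow_natCast, ← Real.rpow_mul hn0.le]
    have h3 : n ^ (-δ * p) ≤ n ^ (-1 : ℝ) :=
      Real.rpow_le_rpow_of_exponent_le hn1 (by linarith)
    have h4 : g ^ p ≤ n⁻¹ := by
      rw [h2] at h1
      rw [Real.rpow_neg_one] at h3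
      exact h1.trans h3
    calc g ^ p * 2 ^ t ≤ n⁻¹ * n := mul_le_mul_of_nonneg_right h4 hn0.le
      _ = 1 := inv_mul_cancel₀ hn0.ne'
  have hl : 0 < n ^ (C + 1) := Real.rpow_pos_of_pos hn0 _
  have hmain := bad_integral_le (k := k) (t := t) p m hp1 g (n ^ (C + 1)) hg hg1 hgp hl
  change ∫ v in badSet k t g, Rmax g v ∂(gaus (Fin k × NN t)) ≤ n ^ (-C)
  refine hmain.trans ?_
  have hg4 : g ^ (4 * m) ≤ n ^ (-(2 * C + 4)) := by
    have h1 : g ^ (4 * m) ≤ (n ^ (-δ)) ^ (4 * m) := pow_le_pow_left₀ hg hgle _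
    have h2 : (n ^ (-δ)) ^ (4 * m) = n ^ (-δ * ((4 * m : ℕ) : ℝ)) := by
      rw [← Real.rpow_natCast, ← Real.rpow_mul hn0.le]
    have h3 : n ^ (-δ * ((4 * m : ℕ) : ℝ)) ≤ n ^ (-(2 * C + 4)) := by
      apply Real.rpow_le_rpow_of_exponent_le hn1
      push_cast
      linarith
    rw [h2] at h1
    exact h1.trans h3
  have hμ0 := mom_nonneg m
  have h1 : n ^ (C + 1) * (((k + 1 : ℕ) * 2 ^ t : ℝ) ^ 2 * ((2 * g) ^ (4 * m) * (1 + mom (8 * m))))
      ≤ K1 * n ^ (-C - 1) := by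
    have e1 : n ^ (C + 1) * (((k + 1 : ℕ) * 2 ^ t : ℝ) ^ 2 *
        ((2 * g) ^ (4 * m) * (1 + mom (8 * m)))) = K1 * (n ^ (C + 1) * n ^ 2 * g ^ (4 * m)) := by
      rw [hK1, mul_pow 2 g, ← hn]
      push_cast
      ring
    rw [e1]
    refine mul_le_mul_of_nonneg_left ?_ (by positivity)
    calc n ^ (C + 1) * n ^ 2 * g ^ (4 * m) ≤ n ^ (C + 1) * n ^ 2 * n ^ (-(2 * C + 4)) :=
          mul_le_mul_of_nonneg_left hg4 (by positivity)
      _ = n ^ (-C - 1) := by
          rw [← Real.rpow_natCast n 2, ← Real.rpow_add hn0, ← Real.rpow_add hn0]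
          congr 1
          push_cast
          ring
  have h2 : (n ^ (C + 1))⁻¹ = n ^ (-C - 1) := by
    rw [← Real.rpow_neg hn0.le]
    congr 1
    ring
  rw [h2]
  have h3 : n ^ (-C) = n * n ^ (-C - 1) := by
    conv_rhs => rw [← Real.rpow_one n]
    rw [Real.rpow_one, Real.rpow_sub_one hn0.ne']
    field_simp
  rw [h3]
  have h4 : (K1 + D) / 2 * n ^ (-C - 1) ≤ n * n ^ (-C - 1) :=
    mul_le_mul_of_nonneg_right hnt (Real.rpow_pos_of_pos hn0 _).le
  linarith

end tail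

end Crest.Agent.R350
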