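import Crest.Agent.R350.Interp2
import Crest.Agent.R350.Level
import Crest.Agent.R350.PhiDeriv
import Crest.Agent.R350.HTestPath
import Crest.Agent.R350.GoodProb
import Crest.Agent.R350.TailB

/-!
Row 350, part T5: the Forrelation lower bound (assembly).
-/

set_option autoImplicit false

namespace Crest.Agent.R350

open Finset MeasureTheory ProbabilityTheory


section general

variable {κ : Type*} [Fintype κ]

omit [Fintype κ] in
lemma PolyFn.continuous {F : (κ → ℝ) → ℝ} (hF : PolyFn F) : Continuous F := by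
  obtain ⟨P, hP⟩ := hF
  have : F = fun v => MvPolynomial.eval v P := funext hP
  rw [this]
  exact MvPolynomial.continuous_eval P

end general

variable {k t : ℕ}

/-- clamp to `[-1,1]` -/
noncomputable def clampz {ι : Type*} (z : ι → ℝ) (c : ι) : ℝ := max (-1) (min 1 (z c))

lemma abs_clampz_le {ι : Type*} (z : ι → ℝ) (c : ι) : |clampz z c| ≤ 1 := by
  unfold clampz
  rw [abs_le]
  constructor
  · exact le_max_left _ _
  · exact max_le (by norm_num) (min_le_left _ _)

lemma clampz_eq {ι : Type*} (z : ι → ℝ) (h : ∀ c, |z c| ≤ 1 / 2) : clampz z = z := by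
  funext c
  have := abs_le.1 (h c)
  unfold clampz
  rw [min_eq_right (by linarith), max_eq_right (by linarith)]

lemma qw_nonneg (u : ℝ) (hu : |u| ≤ 1) (b : Bool) : 0 ≤ qw u b := by
  have := abs_le.1 hu
  unfold qw
  cases b <;> simp <;> linarith

lemma qw_le_one (u : ℝ) (hu : |u| ≤ 1) (b : Bool) : qw u b ≤ 1 := by
  have := abs_le.1 hu
  unfold qw
  cases b <;> simp <;> linarith

lemma qw_half (b : Bool) : qw 0 b = 1 / 2 := by unfold qw; simp

/-- the planted distribution -/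
noncomputable def muF (g : ℝ) (x : Fin (k + 1) × NN t → Bool) : ℝ :=
  ∫ v, ∏ c, qw (clampz (Zl g v) c) (x c) ∂(gaus (Fin k × NN t))

lemma integrable_prod_qw (g : ℝ) (x : Fin (k + 1) × NN t → Bool) :
    Integrable (fun v : Fin k × NN t → ℝ => ∏ c, qw (clampz (Zl g v) c) (x c))
      (gaus (Fin k × NN t)) := by
  refine Integrable.of_bound (C := 1) ?_ ?_
  · apply Continuous.aestronglyMeasurable
    apply continuous_finsetProd
    intro c _
    unfold qw clampz
    have := (polyFn_Zl (k := k) (t := t) g c).continuous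
    fun_prop
  · filter_upwards with v
    rw [Real.norm_eq_abs, Finset.abs_prod]
    apply Finset.prod_le_one
    · intro c _; exact abs_nonneg _
    · intro c _
      rw [abs_of_nonneg (qw_nonneg _ (abs_clampz_le _ _) _)]
      exact qw_le_one _ (abs_clampz_le _ _) _

lemma muF_nonneg (g : ℝ) (x : Fin (k + 1) × NN t → Bool) : 0 ≤ muF g x := by
  unfold muF
  apply integral_nonneg
  intro v
  exact Finset.prod_nonneg fun c _ => qw_nonneg _ (abs_clampz_le _ _) _

lemma sum_muF_mul (g : ℝ) (F : (Fin (k + 1) × NN t → Bool) → ℝ) :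
    ∑ x, muF g x * F x = ∫ v, dmext ∅ F (clampz (Zl g v)) ∂(gaus (Fin k × NN t)) := by
  unfold muF dmext
  rw [integral_finsetSum]
  · apply Finset.sum_congr rfl
    intro x _
    simp only [Finset.notMem_empty, if_false]
    rw [integral_const_mul, mul_comm]
  · intro x _
    simp only [Finset.notMem_empty, if_false]
    exact (integrable_prod_qw g x).const_mul _

lemma sum_muF (g : ℝ) : ∑ x : Fin (k + 1) × NN t → Bool, muF g x = 1 := by
  have h := sum_muF_mul (k := k) (t := t) g (fun _ => 1)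
  simp only [mul_one] at h
  rw [h]
  simp only [dmext_const, if_true]
  simp

lemma dmext_zero_eq (F : (Fin (k + 1) × NN t → Bool) → ℝ) :
    dmext ∅ F (fun _ => 0) = (∑ x, F x) / Fintype.card (Fin (k + 1) × NN t → Bool) := by
  unfold dmext
  simp only [Finset.notMem_empty, if_false, qw_half]
  rw [← Finset.sum_mul]
  rw [Finset.prod_const, Fintype.card_fun, Fintype.card_bool, Finset.card_univ]
  push_cast
  rw [one_div, inv_pow]
  rfl

lemma Zs_zero_one (g : ℝ) (v : Fin k × NN t → ℝ) : Zs g 0 1 v = Zl g v := by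
  funext c
  unfold Zs scl
  by_cases h : c.1.val = 0 <;> simp

lemma abs_scl_le (b : ℕ) (s : ℝ) (hs : |s| ≤ 1) (a : Fin (k + 1)) : |scl b s a| ≤ 1 := by
  unfold scl
  split_ifs <;> simp [hs]

lemma abs_Zs_le (g : ℝ) (b : ℕ) (s : ℝ) (hs : |s| ≤ 1) (v : Fin k × NN t → ℝ)
    (c : Fin (k + 1) × NN t) : |Zs g b s v c| ≤ |Zl g v c| := by
  unfold Zs
  rw [abs_mul]
  have := abs_scl_le b s hs c.1
  have h2 := abs_nonneg (Zl g v c)
  nlinarith

lemma prod_max_Zs_le (g : ℝ) (b : ℕ) (s : ℝ) (hs : |s| ≤ 1) (v : Fin k × NN t → ℝ) :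
    ∏ c : Fin (k + 1) × NN t, max 1 |Zs g b s v c| ≤ Rmax g v := by
  unfold Rmax
  apply Finset.prod_le_prod
  · intro c _; positivity
  · intro c _
    exact max_le_max le_rfl (abs_Zs_le g b s hs v c)

lemma one_le_Rmax (g : ℝ) (v : Fin k × NN t → ℝ) : 1 ≤ Rmax g v := by
  unfold Rmax
  have : ∏ c : Fin (k + 1) × NN t, (1:ℝ) ≤ ∏ c : Fin (k + 1) × NN t, max 1 |Zl g v c| := by
    apply Finset.prod_le_prod
    · intro c _; norm_num
    · intro c _; exact le_max_left _ _
  simpa using this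

lemma notBad_iff (g : ℝ) (v : Fin k × NN t → ℝ) :
    v ∉ badSet k t g ↔ ∀ c, |Zl g v c| ≤ 1 / 2 := by
  unfold badSet
  simp

/-- rounding error -/
lemma rounding_error (g ε : ℝ) (F : (Fin (k + 1) × NN t → Bool) → ℝ) (hF : ∀ x, |F x| ≤ 1)
    (hint : Integrable (Rmax (k := k) (t := t) g) (gaus (Fin k × NN t)))
    (hmeas : MeasurableSet (badSet k t g))
    (htail : ∫ v in badSet k t g, Rmax g v ∂(gaus (Fin k × NN t)) ≤ ε) :
    |∑ x, muF g x * F x - Fb g 0 1 F| ≤ 2 * ε := by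
  rw [sum_muF_mul]
  unfold Fb
  have hi1 : Integrable (fun v : Fin k × NN t → ℝ => dmext ∅ F (clampz (Zl g v)))
      (gaus (Fin k × NN t)) := by
    unfold dmext
    apply integrable_finsetSum
    intro x _
    simp only [Finset.notMem_empty, if_false]
    exact (integrable_prod_qw g x).const_mul _
  have hi2 : Integrable (fun v : Fin k × NN t → ℝ => dmext ∅ F (Zs g 0 1 v))
      (gaus (Fin k × NN t)) := (polyFn_dmext ∅ F _ (polyFn_Zs g 0 1)).integrable
  rw [← integral_sub hi1 hi2]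
  calc |∫ v, (dmext ∅ F (clampz (Zl g v)) - dmext ∅ F (Zs g 0 1 v)) ∂(gaus (Fin k × NN t))|
      ≤ ∫ v, |dmext ∅ F (clampz (Zl g v)) - dmext ∅ F (Zs g 0 1 v)| ∂(gaus (Fin k × NN t)) :=
        abs_integral_le_integral_abs
    _ ≤ ∫ v, (badSet k t g).indicator (fun v => 2 * Rmax g v) v ∂(gaus (Fin k × NN t)) := by
        apply integral_mono (hi1.sub hi2).abs ((hint.const_mul 2).indicator hmeas)
        intro v
        by_cases hv : v ∈ badSet k t g
        · simp only [Set.indicator_of_mem hv]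
          have h1 : |dmext ∅ F (clampz (Zl g v))| ≤ Rmax g v := by
            refine (abs_dmext_le ∅ F hF _).trans ?_
            have : ∏ i, max 1 |clampz (Zl g v) i| = 1 := by
              apply Finset.prod_eq_one
              intro c _
              exact max_eq_left (abs_clampz_le _ _)
            rw [this]
            exact one_le_Rmax g v
          have h2 : |dmext ∅ F (Zs g 0 1 v)| ≤ Rmax g v :=
            (abs_dmext_le ∅ F hF _).trans (prod_max_Zs_le g 0 1 (by simp) v)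
          calc |dmext ∅ F (clampz (Zl g v)) - dmext ∅ F (Zs g 0 1 v)|
              ≤ |dmext ∅ F (clampz (Zl g v))| + |dmext ∅ F (Zs g 0 1 v)| := abs_sub _ _
            _ ≤ 2 * Rmax g v := by linarith
        · simp only [Set.indicator_of_notMem hv, Pi.sub_apply]
          rw [notBad_iff] at hv
          rw [clampz_eq _ hv, Zs_zero_one, sub_self, abs_zero]
    _ = ∫ v in badSet k t g, 2 * Rmax g v ∂(gaus (Fin k × NN t)) := integral_indicator hmeas
    _ = 2 * ∫ v in badSet k t g, Rmax g v ∂(gaus (Fin k × NN t)) := integral_const_mul _ _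
    _ ≤ 2 * ε := by linarith

lemma abs_wpath_le {a : ℕ} (p : Fin (a + 1) → NN t) : |wpath p| ≤ 1 := by
  unfold wpath
  rw [Finset.abs_prod]
  apply Finset.prod_le_one
  · intro b _; exact abs_nonneg _
  · intro b _
    rw [abs_Wm]
    rw [div_le_one (Real.sqrt_pos.2 (by positivity))]
    rw [Real.one_le_sqrt]
    exact one_le_pow₀ (by norm_num)

/-- derivative bound -/
lemma deriv_bound (g s ε B : ℝ) (hg0 : 0 ≤ g) (hg1 : g ≤ 1) (hs : |s| ≤ 1) (hB : 0 ≤ B)
    (F : (Fin (k + 1) × NN t → Bool) → ℝ) (hF : ∀ x, |F x| ≤ 1)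
    (hint : Integrable (Rmax (k := k) (t := t) g) (gaus (Fin k × NN t)))
    (hmeas : MeasurableSet (badSet k t g))
    (htail : ∫ v in badSet k t g, Rmax g v ∂(gaus (Fin k × NN t)) ≤ ε)
    (hlev : ∀ z : Fin (k + 1) × NN t → ℝ, (∀ c, |z c| ≤ 1 / 2) →
      |∑ p : Fin (k + 1) → NN t, (g ^ (k + 1) * wpath p) * dmext (spath le_rfl p) F z| ≤ B) :
    |∑ p : Fin (k + 1) → NN t, (g ^ (k + 1) * wpath p) *
        ∫ v, dmext (spath le_rfl p) F (Zs g 0 s v) ∂(gaus (Fin k × NN t))| ≤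
      B + ((2:ℝ) ^ t) ^ (k + 1) * ε := by
  have hi : ∀ p : Fin (k + 1) → NN t, Integrable (fun v : Fin k × NN t → ℝ =>
      (g ^ (k + 1) * wpath p) * dmext (spath le_rfl p) F (Zs g 0 s v)) (gaus (Fin k × NN t)) :=
    fun p => ((polyFn_dmext (spath le_rfl p) F _ (polyFn_Zs g 0 s)).integrable).const_mul _
  have h1 : ∑ p : Fin (k + 1) → NN t, (g ^ (k + 1) * wpath p) *
        ∫ v, dmext (spath le_rfl p) F (Zs g 0 s v) ∂(gaus (Fin k × NN t)) =
      ∫ v, ∑ p : Fin (k + 1) → NN t, (g ^ (k + 1) * wpath p) *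
        dmext (spath le_rfl p) F (Zs g 0 s v) ∂(gaus (Fin k × NN t)) := by
    rw [integral_finsetSum _ (fun p _ => hi p)]
    apply Finset.sum_congr rfl
    intro p _
    rw [integral_const_mul]
  rw [h1]
  have hisum : Integrable (fun v : Fin k × NN t → ℝ => ∑ p : Fin (k + 1) → NN t,
      (g ^ (k + 1) * wpath p) * dmext (spath le_rfl p) F (Zs g 0 s v)) (gaus (Fin k × NN t)) :=
    integrable_finsetSum _ (fun p _ => hi p)
  have hpow : 0 ≤ ((2:ℝ) ^ t) ^ (k + 1) := by positivity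
  calc |∫ v, ∑ p : Fin (k + 1) → NN t, (g ^ (k + 1) * wpath p) *
        dmext (spath le_rfl p) F (Zs g 0 s v) ∂(gaus (Fin k × NN t))|
      ≤ ∫ v, |∑ p : Fin (k + 1) → NN t, (g ^ (k + 1) * wpath p) *
        dmext (spath le_rfl p) F (Zs g 0 s v)| ∂(gaus (Fin k × NN t)) := abs_integral_le_integral_abs
    _ ≤ ∫ v, (B + (badSet k t g).indicator (fun v => ((2:ℝ) ^ t) ^ (k + 1) * Rmax g v) v)
          ∂(gaus (Fin k × NN t)) := by
        apply integral_mono hisum.abs
          ((integrable_const B).add ((hint.const_mul _).indicator hmeas))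
        intro v
        simp only [Pi.add_apply]
        by_cases hv : v ∈ badSet k t g
        · simp only [Set.indicator_of_mem hv]
          have h2 : |∑ p : Fin (k + 1) → NN t, (g ^ (k + 1) * wpath p) *
              dmext (spath le_rfl p) F (Zs g 0 s v)| ≤ ((2:ℝ) ^ t) ^ (k + 1) * Rmax g v := by
            calc |∑ p : Fin (k + 1) → NN t, (g ^ (k + 1) * wpath p) *
                  dmext (spath le_rfl p) F (Zs g 0 s v)|
                ≤ ∑ p : Fin (k + 1) → NN t, |(g ^ (k + 1) * wpath p) *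
                  dmext (spath le_rfl p) F (Zs g 0 s v)| := Finset.abs_sum_le_sum_abs _ _
              _ ≤ ∑ p : Fin (k + 1) → NN t, Rmax g v := by
                  apply Finset.sum_le_sum
                  intro p _
                  rw [abs_mul, abs_mul]
                  have e1 : |g ^ (k + 1)| ≤ 1 := by
                    rw [abs_of_nonneg (by positivity)]
                    exact pow_le_one₀ hg0 hg1
                  have e2 := abs_wpath_le p
                  have e3 : |dmext (spath le_rfl p) F (Zs g 0 s v)| ≤ Rmax g v :=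
                    (abs_dmext_le _ F hF _).trans (prod_max_Zs_le g 0 s hs v)
                  have e4 : |g ^ (k + 1)| * |wpath p| ≤ 1 := by
                    have := abs_nonneg (g ^ (k + 1)); have := abs_nonneg (wpath p); nlinarith
                  have e5 := abs_nonneg (dmext (spath le_rfl p) F (Zs g 0 s v))
                  calc |g ^ (k + 1)| * |wpath p| * |dmext (spath le_rfl p) F (Zs g 0 s v)|
                      ≤ 1 * |dmext (spath le_rfl p) F (Zs g 0 s v)| :=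
                        mul_le_mul_of_nonneg_right e4 e5
                    _ ≤ Rmax g v := by rw [one_mul]; exact e3
              _ = ((2:ℝ) ^ t) ^ (k + 1) * Rmax g v := by
                  rw [Finset.sum_const, nsmul_eq_mul, Finset.card_univ]
                  congr 1
                  simp [Fintype.card_pi]
          linarith
        · simp only [Set.indicator_of_notMem hv, add_zero]
          rw [notBad_iff] at hv
          exact hlev _ (fun c => (abs_Zs_le g 0 s hs v c).trans (hv c))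
    _ = B + ∫ v in badSet k t g, ((2:ℝ) ^ t) ^ (k + 1) * Rmax g v ∂(gaus (Fin k × NN t)) := by
        rw [integral_add (integrable_const B) ((hint.const_mul _).indicator hmeas),
          integral_indicator hmeas]
        simp
    _ = B + ((2:ℝ) ^ t) ^ (k + 1) * ∫ v in badSet k t g, Rmax g v ∂(gaus (Fin k × NN t)) := by
        rw [integral_const_mul]
    _ ≤ _ := by
        have := mul_le_mul_of_nonneg_left htail hpow
        linarith

/-- advantage of a test function -/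
lemma advantage (hk : 1 ≤ k) (g ε B : ℝ) (hg0 : 0 ≤ g) (hg1 : g ≤ 1) (hB : 0 ≤ B)
    (F : (Fin (k + 1) × NN t → Bool) → ℝ) (hF : ∀ x, |F x| ≤ 1)
    (hint : Integrable (Rmax (k := k) (t := t) g) (gaus (Fin k × NN t)))
    (hmeas : MeasurableSet (badSet k t g))
    (htail : ∫ v in badSet k t g, Rmax g v ∂(gaus (Fin k × NN t)) ≤ ε)
    (hlev : ∀ z : Fin (k + 1) × NN t → ℝ, (∀ c, |z c| ≤ 1 / 2) →
      |∑ p : Fin (k + 1) → NN t, (g ^ (k + 1) * wpath p) * dmext (spath le_rfl p) F z| ≤ B) :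
    |∑ x, muF g x * F x - (∑ x, F x) / Fintype.card (Fin (k + 1) × NN t → Bool)| ≤
      B + (((2:ℝ) ^ t) ^ (k + 1) + 2) * ε := by
  have h1 := rounding_error g ε F hF hint hmeas htail
  have h2 : |Fb g 0 1 F - Fb g 0 0 F| ≤ B + ((2:ℝ) ^ t) ^ (k + 1) * ε := by
    obtain ⟨s, hs, hs'⟩ := exists_hasDerivAt_eq_slope (fun s => Fb g 0 s F) _
      (by norm_num : (0:ℝ) < 1)
      (fun s _ => (interp_deriv hk g s F).continuousAt.continuousWithinAt)
      (fun s _ => interp_deriv hk g s F)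
    have h3 : Fb g 0 1 F - Fb g 0 0 F = ∑ p : Fin (k + 1) → NN t, (g ^ (k + 1) * wpath p) *
        ∫ v, dmext (spath le_rfl p) F (Zs g 0 s v) ∂(gaus (Fin k × NN t)) := by
      rw [hs']; simp
    rw [h3]
    exact deriv_bound g s ε B hg0 hg1 (by rw [abs_of_pos hs.1]; exact hs.2.le) hB F hF hint hmeas htail hlev
  rw [Fb_zero_zero, dmext_zero_eq] at h2
  have h4 := abs_add_le (∑ x, muF g x * F x - Fb g 0 1 F)
    (Fb g 0 1 F - (∑ x, F x) / Fintype.card (Fin (k + 1) × NN t → Bool))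
  rw [sub_add_sub_cancel] at h4
  calc _ ≤ _ := h4
    _ ≤ 2 * ε + (B + ((2:ℝ) ^ t) ^ (k + 1) * ε) := add_le_add h1 h2
    _ = _ := by ring

/-- mean of `phi` -/
lemma mean_phi (hk : 1 ≤ k) (g ε : ℝ)
    (hint : Integrable (Rmax (k := k) (t := t) g) (gaus (Fin k × NN t)))
    (hmeas : MeasurableSet (badSet k t g))
    (htail : ∫ v in badSet k t g, Rmax g v ∂(gaus (Fin k × NN t)) ≤ ε) :
    g ^ (k + 1) - 2 * ε ≤ ∑ x : Fin (k + 1) × NN t → Bool, muF g x * phi k t (fun a i => x (a, i)) := by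
  set F : (Fin (k + 1) × NN t → Bool) → ℝ := fun x => phi k t (fun a i => x (a, i)) with hFdef
  have hF : ∀ x, |F x| ≤ 1 := fun x => phi_abs_le k t _
  have h1 := rounding_error g ε F hF hint hmeas htail
  have h2 : Fb g 0 1 F - Fb g 0 0 F = g ^ (k + 1) := by
    obtain ⟨s, hs, hs'⟩ := exists_hasDerivAt_eq_slope (fun s => Fb g 0 s F) _
      (by norm_num : (0:ℝ) < 1)
      (fun s _ => (interp_deriv hk g s F).continuousAt.continuousWithinAt)
      (fun s _ => interp_deriv hk g s F)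
    have h3 : Fb g 0 1 F - Fb g 0 0 F = ∑ p : Fin (k + 1) → NN t, (g ^ (k + 1) * wpath p) *
        ∫ v, dmext (spath le_rfl p) F (Zs g 0 s v) ∂(gaus (Fin k × NN t)) := by
      rw [hs']; simp
    rw [h3]
    have h4 : ∑ p : Fin (k + 1) → NN t, (g ^ (k + 1) * wpath p) *
        ∫ v, dmext (spath le_rfl p) F (Zs g 0 s v) ∂(gaus (Fin k × NN t)) =
      ∫ v, ∑ p : Fin (k + 1) → NN t, (g ^ (k + 1) * wpath p) *
        dmext (spath le_rfl p) F (Zs g 0 s v) ∂(gaus (Fin k × NN t)) := by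
      rw [integral_finsetSum _ (fun p _ =>
        ((polyFn_dmext (spath le_rfl p) F _ (polyFn_Zs g 0 s)).integrable).const_mul _)]
      apply Finset.sum_congr rfl
      intro p _
      rw [integral_const_mul]
    rw [h4]
    have h5 : ∀ v : Fin k × NN t → ℝ, ∑ p : Fin (k + 1) → NN t, (g ^ (k + 1) * wpath p) *
        dmext (spath le_rfl p) F (Zs g 0 s v) = g ^ (k + 1) := fun v => phi_deriv k t g _
    simp only [h5]
    simp
  have h6 : Fb g 0 0 F = 0 := by
    rw [Fb_zero_zero, dmext_zero_eq]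
    have := phi_avg k t
    rw [hFdef, this, zero_div]
  rw [h6, sub_zero] at h2
  rw [h2] at h1
  have := (abs_le.1 h1).1
  linarith


lemma tendsto_two_pow_rpow_neg (a : ℝ) (ha : 0 < a) :
    Filter.Tendsto (fun t : ℕ => ((2:ℝ) ^ t) ^ (-a)) Filter.atTop (nhds 0) :=
  (tendsto_rpow_neg_atTop ha).comp (tendsto_pow_atTop_atTop_of_one_lt one_lt_two)

lemma DTC_abs_le {ι : Type} {d : ℕ} {f : (ι → Bool) → ℝ} (hf : DTC d f) (x : ι → Bool) :
    |f x| ≤ 1 := by
  induction hf with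
  | const d c h0 h1 => rw [abs_of_nonneg h0]; exact h1
  | ask d i f g _ _ ihf ihg =>
    by_cases h : x i = true
    · simpa [h] using ihg
    · simpa [h] using ihf

/-- T5 -/
theorem forr_hard (k : ℕ) (hk : 1 ≤ k) (δ : ℝ) (hδ : 0 < δ) (hδ1 : δ ≤ 1 / 100) :
    ∃ t₀ : ℕ, ∀ t : ℕ, t₀ ≤ t → ∃ μ : (Fin (k + 1) × NN t → Bool) → ℝ,
      (∀ x, 0 ≤ μ x) ∧ ∑ x, μ x = 1 ∧
      ((2 : ℝ) ^ t) ^ (-δ) ≤ ∑ x, μ x * phi k t (fun a i => x (a, i)) ∧
      ∀ d : ℕ, (d : ℝ) ≤ ((2 : ℝ) ^ t) ^ (1 - 1 / ((k : ℝ) + 1) - 8 * δ) →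
        ∀ f : (Fin (k + 1) × NN t → Bool) → ℝ, DTC d f →
          |∑ x, μ x * f x - (∑ x, f x) / Fintype.card (Fin (k + 1) × NN t → Bool)|
            ≤ ((2 : ℝ) ^ t) ^ (-(4 * δ)) := by
  have hk1 : (0:ℝ) < (k:ℝ) + 1 := by positivity
  set δ' : ℝ := δ / (2 * ((k:ℝ) + 1)) with hδ'
  have hδ'0 : 0 < δ' := by positivity
  obtain ⟨t₁, ht₁⟩ := tail_bound k δ' ((k:ℝ) + 5) hδ'0
  set q : ℕ := ⌈1 / δ⌉₊ with hq
  have hq1 : 1 / δ ≤ (q:ℝ) := Nat.le_ceil _
  have hq0 : 1 ≤ q := by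
    have h1 : (0:ℝ) < 1 / δ := by positivity
    have h2 : (0:ℝ) < q := lt_of_lt_of_le h1 hq1
    exact_mod_cast h2
  set K : ℝ := (4 * 9 ^ q) ^ (k + 1) with hK
  have hK0 : 0 ≤ K := by positivity
  have e1 : ∀ᶠ t : ℕ in Filter.atTop, Real.sqrt K * ((2:ℝ) ^ t) ^ (-(7 / 2 * δ)) ≤ 1 / 2 := by
    have h := (tendsto_two_pow_rpow_neg (7 / 2 * δ) (by positivity)).const_mul (Real.sqrt K)
    rw [mul_zero] at h
    exact h.eventually (eventually_le_nhds (by norm_num))
  have e2 : ∀ᶠ t : ℕ in Filter.atTop, 3 * ((2:ℝ) ^ t) ^ (-(4 - 4 * δ)) ≤ 1 / 2 := by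
    have h := (tendsto_two_pow_rpow_neg (4 - 4 * δ) (by linarith)).const_mul 3
    rw [mul_zero] at h
    exact h.eventually (eventually_le_nhds (by norm_num))
  have e3 : ∀ᶠ t : ℕ in Filter.atTop, ((2:ℝ) ^ t) ^ (-(δ / 2)) ≤ 1 / 2 :=
    (tendsto_two_pow_rpow_neg (δ / 2) (by positivity)).eventually (eventually_le_nhds (by norm_num))
  have e4 : ∀ᶠ t : ℕ in Filter.atTop, 2 * ((2:ℝ) ^ t) ^ (-((k:ℝ) + 5 - δ / 2)) ≤ 1 / 2 := by
    have h := (tendsto_two_pow_rpow_neg ((k:ℝ) + 5 - δ / 2) (by linarith)).const_mul 2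
    rw [mul_zero] at h
    exact h.eventually (eventually_le_nhds (by norm_num))
  obtain ⟨t₀, ht₀⟩ := Filter.eventually_atTop.1 ((e1.and e2).and (e3.and e4))
  refine ⟨max t₀ t₁, fun t ht => ?_⟩
  obtain ⟨⟨c1, c2⟩, c3, c4⟩ := ht₀ t (le_trans (le_max_left _ _) ht)
  set n : ℝ := (2:ℝ) ^ t with hn
  have hn0 : 0 < n := by positivity
  have hn1 : 1 ≤ n := one_le_pow₀ (by norm_num)
  set g : ℝ := n ^ (-δ') with hg
  have hg0 : 0 < g := Real.rpow_pos_of_pos hn0 _
  have hg1 : g ≤ 1 := Real.rpow_le_one_of_one_le_of_nonpos hn1 (by linarith)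
  have hgk : g ^ (k + 1) = n ^ (-(δ / 2)) := by
    rw [hg, ← Real.rpow_natCast, ← Real.rpow_mul hn0.le]
    congr 1
    rw [hδ']; push_cast; field_simp
  obtain ⟨hint, hmeas, htail⟩ := ht₁ t (le_trans (le_max_right _ _) ht) g hg0.le le_rfl
  refine ⟨muF g, muF_nonneg g, sum_muF g, ?_, ?_⟩
  · have h1 := mean_phi hk g _ hint hmeas htail
    refine le_trans ?_ h1
    rw [hgk]
    have h2 : n ^ (-δ) = n ^ (-(δ / 2)) * n ^ (-(δ / 2)) := by
      rw [← Real.rpow_add hn0]; congr 1; ring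
    have h3 : 2 * n ^ (-((k:ℝ) + 5)) = n ^ (-(δ / 2)) * (2 * n ^ (-((k:ℝ) + 5 - δ / 2))) := by
      rw [mul_left_comm, ← Real.rpow_add hn0]; congr 2; ring
    have h4 : 0 ≤ n ^ (-(δ / 2)) := Real.rpow_nonneg hn0.le _
    rw [h2, h3]
    nlinarith [mul_le_mul_of_nonneg_left c3 h4, mul_le_mul_of_nonneg_left c4 h4]
  · intro d hd f hf
    have hlev : ∀ z : Fin (k + 1) × NN t → ℝ, (∀ c, |z c| ≤ 1 / 2) →
        |∑ p : Fin (k + 1) → NN t, (g ^ (k + 1) * wpath p) * dmext (spath le_rfl p) f z| ≤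
          Real.sqrt K * n ^ (-(15 / 2 * δ)) := by
      intro z hz
      have h1 := level_bound k t d q hq0 g hg0.le f hf z hz
      rw [← hn] at h1
      apply abs_le_of_sq_le_sq _ (by positivity)
      refine h1.trans ?_
      have hd' : (d:ℝ) ^ (k + 1) ≤ n ^ ((k:ℝ) - 8 * δ * ((k:ℝ) + 1)) := by
        calc (d:ℝ) ^ (k + 1) ≤ (n ^ (1 - 1 / ((k : ℝ) + 1) - 8 * δ)) ^ (k + 1) :=
              pow_le_pow_left₀ (by positivity) hd _
          _ = n ^ ((k:ℝ) - 8 * δ * ((k:ℝ) + 1)) := by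
              rw [← Real.rpow_natCast, ← Real.rpow_mul hn0.le]
              congr 1
              push_cast; field_simp; ring
      have hg2 : (g ^ (k + 1)) ^ 2 = n ^ (-δ) := by
        rw [hgk, ← Real.rpow_natCast, ← Real.rpow_mul hn0.le]
        congr 1
        push_cast; ring
      have hq2 : n ^ (((k:ℝ) + 1) / q) ≤ n ^ (((k:ℝ) + 1) * δ) := by
        apply Real.rpow_le_rpow_of_exponent_le hn1
        have hqpos : (0:ℝ) < q := by exact_mod_cast hq0
        rw [div_le_iff₀ hqpos]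
        have : 1 ≤ δ * q := by
          rw [div_le_iff₀ hδ] at hq1; linarith
        nlinarith
      calc ((d:ℝ) * (4 * 9 ^ q)) ^ (k + 1) * (g ^ (k + 1)) ^ 2 * n ^ (-(k:ℝ)) *
            n ^ (((k:ℝ) + 1) / q)
          = ((4 * 9 ^ q) ^ (k + 1) * (g ^ (k + 1)) ^ 2 * n ^ (-(k:ℝ))) * ((d:ℝ) ^ (k + 1) *
            n ^ (((k:ℝ) + 1) / q)) := by rw [mul_pow]; ring
        _ ≤ ((4 * 9 ^ q) ^ (k + 1) * (g ^ (k + 1)) ^ 2 * n ^ (-(k:ℝ))) *
            (n ^ ((k:ℝ) - 8 * δ * ((k:ℝ) + 1)) * n ^ (((k:ℝ) + 1) * δ)) := by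
            apply mul_le_mul_of_nonneg_left _ (by positivity)
            exact mul_le_mul hd' hq2 (by positivity) (by positivity)
        _ = K * n ^ (-δ + -(k:ℝ) + ((k:ℝ) - 8 * δ * ((k:ℝ) + 1)) + ((k:ℝ) + 1) * δ) := by
            rw [hg2, Real.rpow_add hn0, Real.rpow_add hn0, Real.rpow_add hn0, hK]; ring
        _ ≤ K * n ^ (-(15 * δ)) := by
            apply mul_le_mul_of_nonneg_left _ hK0
            apply Real.rpow_le_rpow_of_exponent_le hn1
            have hk' : (1:ℝ) ≤ k := by exact_mod_cast hk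
            nlinarith
        _ = (Real.sqrt K * n ^ (-(15 / 2 * δ))) ^ 2 := by
            rw [mul_pow, Real.sq_sqrt hK0, ← Real.rpow_natCast, ← Real.rpow_mul hn0.le]
            congr 2
            push_cast; ring
    have h2 := advantage hk g _ _ hg0.le hg1 (by positivity : 0 ≤ Real.sqrt K * n ^ (-(15 / 2 * δ)))
      f (DTC_abs_le hf) hint hmeas htail hlev
    refine h2.trans ?_
    rw [← hn]
    have h3 : (n ^ (k + 1) + 2) * n ^ (-((k:ℝ) + 5)) ≤ 3 * n ^ (-(4:ℝ)) := by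
      have h4 : n ^ (k + 1) * n ^ (-((k:ℝ) + 5)) = n ^ (-(4:ℝ)) := by
        rw [← Real.rpow_natCast, ← Real.rpow_add hn0]; congr 1; push_cast; ring
      have h5 : n ^ (-((k:ℝ) + 5)) ≤ n ^ (-(4:ℝ)) := by
        apply Real.rpow_le_rpow_of_exponent_le hn1
        have : (0:ℝ) ≤ k := by positivity
        linarith
      rw [add_mul, h4]; linarith
    have h6 : Real.sqrt K * n ^ (-(15 / 2 * δ)) =
        n ^ (-(4 * δ)) * (Real.sqrt K * n ^ (-(7 / 2 * δ))) := by
      rw [mul_left_comm, ← Real.rpow_add hn0]; congr 2; ring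
    have h7 : 3 * n ^ (-(4:ℝ)) = n ^ (-(4 * δ)) * (3 * n ^ (-(4 - 4 * δ))) := by
      rw [mul_left_comm, ← Real.rpow_add hn0]; congr 2; ring
    have h8 : 0 ≤ n ^ (-(4 * δ)) := Real.rpow_nonneg hn0.le _
    calc Real.sqrt K * n ^ (-(15 / 2 * δ)) + (n ^ (k + 1) + 2) * n ^ (-((k:ℝ) + 5))
        ≤ n ^ (-(4 * δ)) * (Real.sqrt K * n ^ (-(7 / 2 * δ))) +
            n ^ (-(4 * δ)) * (3 * n ^ (-(4 - 4 * δ))) := by rw [← h6, ← h7]; linarith
      _ ≤ n ^ (-(4 * δ)) * (1 / 2) + n ^ (-(4 * δ)) * (1 / 2) :=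
          add_le_add (mul_le_mul_of_nonneg_left c1 h8) (mul_le_mul_of_nonneg_left c2 h8)
      _ = n ^ (-(4 * δ)) := by ring

end Crest.Agent.R350
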