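import Crest.Agent.R350.Defs2

/-! Row 350, T6: abstract randomized lower bound, hybrid argument, conversion of randomized
algorithms. -/

set_option autoImplicit false

namespace Crest.Agent.R350

open Finset Crest.MathPhysics.Query

/-! ### basic facts on `DTC` -/

section basic

variable {ι : Type}

theorem DTC.lwMono {d d' : ℕ} {f : (ι → Bool) → ℝ} (h : DTC d f) (hd : d ≤ d') : DTC d' f := by
  induction h generalizing d' with
  | const d c h0 h1 => exact DTC.const d' c h0 h1
  | ask d i f g hf hg ihf ihg =>
    obtain ⟨e, rfl⟩ : ∃ e, d' = e + 1 := ⟨d' - 1, by omega⟩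
    exact DTC.ask e i f g (ihf (by omega)) (ihg (by omega))

theorem DTC.lwNonneg {d : ℕ} {f : (ι → Bool) → ℝ} (h : DTC d f) (x : ι → Bool) : 0 ≤ f x := by
  induction h with
  | const d c h0 h1 => exact h0
  | ask d i f g hf hg ihf ihg =>
    by_cases hx : x i <;> simp [hx, ihf, ihg]

theorem DTC.lwLeOne {d : ℕ} {f : (ι → Bool) → ℝ} (h : DTC d f) (x : ι → Bool) : f x ≤ 1 := by
  induction h with
  | const d c h0 h1 => exact h1
  | ask d i f g hf hg ihf ihg =>
    by_cases hx : x i <;> simp [hx, ihf, ihg]

/-- substitution: every coordinate of the big input is a constant or a coordinate of the small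
input. -/
theorem DTC.lwSubst {ζ : Type} {d : ℕ} {f : (ι → Bool) → ℝ} (h : DTC d f)
    (base : (ζ → Bool) → ι → Bool)
    (hb : ∀ i, (∃ w, ∀ z, base z i = z w) ∨ (∃ v, ∀ z, base z i = v)) :
    DTC d (fun z => f (base z)) := by
  induction h with
  | const d c h0 h1 => exact DTC.const d c h0 h1
  | ask d i f g hf hg ihf ihg =>
    rcases hb i with ⟨w, hw⟩ | ⟨v, hv⟩
    · have := DTC.ask d w _ _ ihf ihg
      simpa [hw] using this
    · cases v
      · have := ihf.lwMono (Nat.le_succ d)
        simpa [hv] using this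
      · have := ihg.lwMono (Nat.le_succ d)
        simpa [hv] using this

/-- if every coordinate is perturbed by at most one `ρ`, a depth `d` tree notices at most `d` of
the perturbations. -/
theorem DTC.sum_pert {P : Type} [Fintype P] [DecidableEq P] {d : ℕ} {f : (ι → Bool) → ℝ}
    (h : DTC d f) (x : ι → Bool) (y : P → ι → Bool)
    (hy : ∀ i, ∃ o : Option P, ∀ ρ, o ≠ some ρ → y ρ i = x i) :
    ∑ ρ, |f (y ρ) - f x| ≤ d := by
  induction h with
  | const d c h0 h1 => simp
  | ask d i f g hf hg ihf ihg =>
    obtain ⟨o, ho⟩ := hy i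
    -- the branch followed by `x`
    have key : ∀ (F : (ι → Bool) → ℝ), DTC d F → ∑ ρ, |F (y ρ) - F x| ≤ d →
        (∀ ρ, y ρ i = x i → (if y ρ i then g (y ρ) else f (y ρ)) = F (y ρ)) →
        ((if x i then g x else f x) = F x) →
        ∑ ρ, |(if y ρ i then g (y ρ) else f (y ρ)) - (if x i then g x else f x)| ≤
          ((d + 1 : ℕ) : ℝ) := by
      intro F hF hs h1 h2
      rw [h2]
      have hle : ∀ ρ, |(if y ρ i then g (y ρ) else f (y ρ)) - F x| ≤
          |F (y ρ) - F x| + (if o = some ρ then 1 else 0) := by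
        intro ρ
        by_cases hρ : o = some ρ
        · have a1 : 0 ≤ (if y ρ i then g (y ρ) else f (y ρ)) ∧
              (if y ρ i then g (y ρ) else f (y ρ)) ≤ 1 := by
            split_ifs
            · exact ⟨hg.lwNonneg _, hg.lwLeOne _⟩
            · exact ⟨hf.lwNonneg _, hf.lwLeOne _⟩
          have a2 := hF.lwNonneg x
          have a3 := hF.lwLeOne x
          have a4 := abs_nonneg (F (y ρ) - F x)
          rw [if_pos hρ, abs_le]
          constructor <;> linarith [a1.1, a1.2]
        · rw [h1 ρ (ho ρ hρ), if_neg hρ, add_zero]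
      calc ∑ ρ, |(if y ρ i then g (y ρ) else f (y ρ)) - F x|
          ≤ ∑ ρ, (|F (y ρ) - F x| + (if o = some ρ then (1 : ℝ) else 0)) :=
            Finset.sum_le_sum fun ρ _ => hle ρ
        _ = ∑ ρ, |F (y ρ) - F x| + ∑ ρ, (if o = some ρ then (1 : ℝ) else 0) :=
            Finset.sum_add_distrib
        _ ≤ (d : ℝ) + 1 := by
            refine add_le_add hs ?_
            cases o with
            | none => simp
            | some ρ₀ => simp
        _ = ((d + 1 : ℕ) : ℝ) := by push_cast; ring
    by_cases hx : x i
    · exact key g hg ihg (fun ρ hρ => by rw [hρ, if_pos hx]) (by rw [if_pos hx])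
    · exact key f hf ihf (fun ρ hρ => by rw [hρ, if_neg hx]) (by rw [if_neg hx])

/-- detection functions: the base input depends on `z` (each coordinate is constant or a
coordinate of `z`); perturbation `κ` changes only coordinates owned by `κ`, all of them constant.
The probability of noticing perturbation `κ` is dominated by a depth-`d` function `hκ` of `z`, with
`∑_κ hκ ≤ d`. -/
theorem DTC.detect {ζ P : Type} [Fintype P] [DecidableEq P] {d : ℕ} {f : (ι → Bool) → ℝ}
    (h : DTC d f) (base : (ζ → Bool) → ι → Bool) (own : ι → Option P)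
    (hb : ∀ i, (∃ w, own i = none ∧ ∀ z, base z i = z w) ∨ (∃ v, ∀ z, base z i = v)) :
    ∃ H : P → (ζ → Bool) → ℝ, (∀ κ, DTC d (H κ)) ∧ (∀ z, ∑ κ, H κ z ≤ d) ∧
      ∀ κ z (y : ι → Bool), (∀ i, own i ≠ some κ → y i = base z i) →
        f y ≤ f (base z) + H κ z := by
  induction h with
  | const d c h0 h1 =>
    refine ⟨fun _ _ => 0, fun κ => DTC.const d 0 le_rfl zero_le_one, fun z => by simp, ?_⟩
    intro κ z y hy
    simp
  | ask d i f g hf hg ihf ihg =>
    obtain ⟨Hf, f1, f2, f3⟩ := ihf
    obtain ⟨Hg, g1, g2, g3⟩ := ihg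
    rcases hb i with ⟨w, how, hw⟩ | ⟨v, hv⟩
    · refine ⟨fun κ z => if z w then Hg κ z else Hf κ z, fun κ => DTC.ask d w _ _ (f1 κ) (g1 κ),
        ?_, ?_⟩
      · intro z
        by_cases hz : z w
        · simp only [hz, if_true]
          have := g2 z
          push_cast
          linarith
        · simp only [hz, Bool.false_eq_true, if_false]
          have := f2 z
          push_cast
          linarith
      · intro κ z y hy
        have hyi : y i = z w := by
          rw [hy i (by rw [how]; simp), hw]
        have hbi : base z i = z w := hw z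
        beta_reduce
        rw [hyi, hbi]
        by_cases hz : z w
        · simp only [hz, if_true]
          exact g3 κ z y hy
        · simp only [hz, Bool.false_eq_true, if_false]
          exact f3 κ z y hy
    · -- generic branch
      have key : ∀ (F : (ι → Bool) → ℝ) (HF : P → (ζ → Bool) → ℝ), DTC d F →
          (∀ κ, DTC d (HF κ)) → (∀ z, ∑ κ, HF κ z ≤ d) →
          (∀ κ z (y : ι → Bool), (∀ i, own i ≠ some κ → y i = base z i) →
            F y ≤ F (base z) + HF κ z) →
          (∀ y : ι → Bool, y i = v → (if y i then g y else f y) = F y) →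
          ∃ H : P → (ζ → Bool) → ℝ, (∀ κ, DTC (d + 1) (H κ)) ∧
            (∀ z, ∑ κ, H κ z ≤ ((d + 1 : ℕ) : ℝ)) ∧
            ∀ κ z (y : ι → Bool), (∀ i, own i ≠ some κ → y i = base z i) →
              (if y i then g y else f y) ≤
                (if (base z) i then g (base z) else f (base z)) + H κ z := by
        intro F HF hF F1 F2 F3 hbr
        refine ⟨fun κ z => if own i = some κ then 1 else HF κ z, ?_, ?_, ?_⟩
        · intro κ
          by_cases hκ : own i = some κ
          · simp only [hκ, if_true]
            exact DTC.const _ 1 zero_le_one le_rfl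
          · simp only [hκ, if_false]
            exact (F1 κ).lwMono (Nat.le_succ d)
        · intro z
          have hle : ∀ κ, (if own i = some κ then (1 : ℝ) else HF κ z) ≤
              HF κ z + (if own i = some κ then 1 else 0) := by
            intro κ
            have := (F1 κ).lwNonneg z
            split_ifs <;> linarith
          calc ∑ κ, (if own i = some κ then (1 : ℝ) else HF κ z)
              ≤ ∑ κ, (HF κ z + (if own i = some κ then (1 : ℝ) else 0)) :=
                Finset.sum_le_sum fun κ _ => hle κ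
            _ = ∑ κ, HF κ z + ∑ κ, (if own i = some κ then (1 : ℝ) else 0) :=
                Finset.sum_add_distrib
            _ ≤ (d : ℝ) + 1 := by
                refine add_le_add (F2 z) ?_
                cases own i with
                | none => simp
                | some ρ₀ => simp
            _ = ((d + 1 : ℕ) : ℝ) := by push_cast; ring
        · intro κ z y hy
          rw [hbr (base z) (hv z)]
          beta_reduce
          by_cases hκ : own i = some κ
          · rw [if_pos hκ]
            have a1 : (if y i then g y else f y) ≤ 1 := by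
              split_ifs
              · exact hg.lwLeOne _
              · exact hf.lwLeOne _
            linarith [hF.lwNonneg (base z)]
          · rw [if_neg hκ, hbr y (by rw [hy i hκ, hv z])]
            exact F3 κ z y hy
      cases v
      · exact key f Hf hf f1 f2 f3 (fun y hy => by simp [hy])
      · exact key g Hg hg g1 g2 g3 (fun y hy => by simp [hy])

/-- truncation after `d` queries to an lwArea. -/
theorem DTC.trunc {N : Type} [Fintype N] [DecidableEq N] (ar : ι → N) {r : ℕ}
    {f : (ι → Bool) → ℝ} (h : DTC r f) :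
    ∃ cnt : N → (ι → Bool) → ℕ, (∀ x, ∑ b, cnt b x ≤ r) ∧
      ∀ (b : N) (d : ℕ) (y : ι → Bool), ∃ g : (ι → Bool) → ℝ, DTC d g ∧
        ∀ x, (∀ i, ar i ≠ b → x i = y i) →
          f x ≤ g x ∧ g x ≤ f x + (if d < cnt b x then 1 else 0) := by
  induction h with
  | const r c h0 h1 =>
    refine ⟨fun _ _ => 0, fun x => by simp, fun b d y => ⟨fun _ => c, DTC.const d c h0 h1, ?_⟩⟩
    intro x hx
    simp
  | ask r i f g hf hg ihf ihg =>
    obtain ⟨cf, f1, f2⟩ := ihf
    obtain ⟨cg, g1, g2⟩ := ihg
    refine ⟨fun b x => (if ar i = b then 1 else 0) + (if x i then cg b x else cf b x), ?_, ?_⟩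
    · intro x
      rw [Finset.sum_add_distrib, Finset.sum_ite_eq, if_pos (Finset.mem_univ _)]
      by_cases hx : x i
      · simp only [hx, if_true]
        have := g1 x
        omega
      · simp only [hx]
        have := f1 x
        simp only [Bool.false_eq_true, if_false]
        omega
    · intro b d y
      by_cases hb : ar i = b
      · cases d with
        | zero =>
          refine ⟨fun _ => 1, DTC.const 0 1 zero_le_one le_rfl, ?_⟩
          intro x hx
          have a1 : 0 ≤ (if x i then g x else f x) ∧ (if x i then g x else f x) ≤ 1 := by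
            split_ifs
            · exact ⟨hg.lwNonneg _, hg.lwLeOne _⟩
            · exact ⟨hf.lwNonneg _, hf.lwLeOne _⟩
          refine ⟨a1.2, ?_⟩
          rw [if_pos (by beta_reduce; rw [if_pos hb]; omega)]
          linarith [a1.1]
        | succ d =>
          obtain ⟨gf, f3, f4⟩ := f2 b d y
          obtain ⟨gg, g3, g4⟩ := g2 b d y
          refine ⟨fun x => if x i then gg x else gf x, DTC.ask d i _ _ f3 g3, ?_⟩
          intro x hx
          by_cases hxi : x i
          · simp only [hxi, if_true, hb]
            have := g4 x hx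
            refine ⟨this.1, this.2.trans ?_⟩
            have e : (d < cg b x) ↔ (d + 1 < 1 + cg b x) := by omega
            simp only [e]
            exact le_rfl
          · simp only [hxi, hb, if_true, Bool.false_eq_true, if_false]
            have := f4 x hx
            refine ⟨this.1, this.2.trans ?_⟩
            have e : (d < cf b x) ↔ (d + 1 < 1 + cf b x) := by omega
            simp only [e]
            exact le_rfl
      · obtain ⟨gf, f3, f4⟩ := f2 b d y
        obtain ⟨gg, g3, g4⟩ := g2 b d y
        by_cases hyi : y i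
        · refine ⟨gg, g3, ?_⟩
          intro x hx
          have hxi : x i = true := by rw [hx i hb, hyi]
          simp only [hxi, if_true, hb, if_false, zero_add]
          exact g4 x hx
        · refine ⟨gf, f3, ?_⟩
          intro x hx
          have hxi : x i = false := by
            rw [hx i hb]
            simpa using hyi
          simp only [hxi, hb, if_false, zero_add, Bool.false_eq_true]
          exact f4 x hx

end basic

/-! ### resampling one coordinate -/

/-- `∑_Z ∑_y H (update Z a y) = |β| ∑_Z H Z`. -/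
theorem lwSumUpdate {L β : Type} [Fintype L] [DecidableEq L] [Fintype β] [DecidableEq β] (a : L)
    (H : (L → β) → ℝ) :
    ∑ Z : L → β, ∑ y : β, H (Function.update Z a y) = Fintype.card β * ∑ Z, H Z := by
  classical
  have e1 : ∑ Z : L → β, ∑ y : β, H (Function.update Z a y)
      = ∑ q : (L → β) × β, H (Function.update q.1 a q.2) := by
    rw [Fintype.sum_prod_type]
  have e2 : ∑ q : (L → β) × β, H (Function.update q.1 a q.2) = ∑ q : (L → β) × β, H q.1 := by
    refine Fintype.sum_equiv
      (⟨fun q => (Function.update q.1 a q.2, q.1 a), fun q => (Function.update q.1 a q.2, q.1 a),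
        ?_, ?_⟩ : (L → β) × β ≃ (L → β) × β) _ _ ?_
    · intro q
      simp
    · intro q
      simp
    · intro q
      rfl
  rw [e1, e2, Fintype.sum_prod_type]
  simp only [Finset.sum_const, Finset.card_univ, nsmul_eq_mul]
  rw [Finset.mul_sum]

/-- resampling coordinate `a` under a product weight. -/
theorem lwSumProdResample {L β : Type} [Fintype L] [DecidableEq L] [Fintype β] [DecidableEq β]
    [Nonempty β] (a : L) (p p' : L → β → ℝ) (hp : ∀ l, l ≠ a → p l = p' l)
    (hp' : ∑ y, p' a y = 1) (G : (L → β) → ℝ) :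
    ∑ Z : L → β, (∏ l, p l (Z l)) * G Z =
      ∑ Z : L → β, (∏ l, p' l (Z l)) * ∑ y, p a y * G (Function.update Z a y) := by
  classical
  have hcard : (Fintype.card β : ℝ) ≠ 0 := by
    exact_mod_cast Fintype.card_ne_zero
  apply mul_left_cancel₀ hcard
  rw [← lwSumUpdate a (fun Z => (∏ l, p l (Z l)) * G Z),
    ← lwSumUpdate a (fun Z => (∏ l, p' l (Z l)) * ∑ y, p a y * G (Function.update Z a y))]
  refine Finset.sum_congr rfl fun Z _ => ?_
  have hprod : ∀ (q : L → β → ℝ) (y : β), (∏ l, q l (Function.update Z a y l)) =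
      q a y * ∏ l ∈ Finset.univ.erase a, q l (Z l) := by
    intro q y
    rw [← Finset.mul_prod_erase Finset.univ _ (Finset.mem_univ a)]
    rw [Function.update_self]
    congr 1
    refine Finset.prod_congr rfl fun l hl => ?_
    rw [Function.update_of_ne (Finset.ne_of_mem_erase hl)]
  have hpp : ∏ l ∈ Finset.univ.erase a, p l (Z l) = ∏ l ∈ Finset.univ.erase a, p' l (Z l) := by
    refine Finset.prod_congr rfl fun l hl => ?_
    rw [hp l (Finset.ne_of_mem_erase hl)]
  simp only [hprod, Function.update_idem]
  rw [hpp]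
  have : ∀ y, p' a y * (∏ l ∈ Finset.univ.erase a, p' l (Z l)) *
      ∑ y', p a y' * G (Function.update Z a y') =
      p' a y * ((∏ l ∈ Finset.univ.erase a, p' l (Z l)) *
        ∑ y', p a y' * G (Function.update Z a y')) := by
    intro y; ring
  simp only [this]
  rw [← Finset.sum_mul, hp', one_mul, Finset.mul_sum]
  refine Finset.sum_congr rfl fun y _ => ?_
  ring

/-! ### conversion of randomized algorithms -/

theorem dtc_of_tree {n : ℕ} {ι : Type} (e : ι ≃ Fin n) (T : DTree n) :
    DTC T.depth (fun x : ι → Bool => if T.eval (fun k => x (e.symm k)) then (1 : ℝ) else 0) := by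
  induction T with
  | answer b =>
    cases b
    · have := DTC.const (ι := ι) 0 0 le_rfl zero_le_one
      simpa [DTree.eval, DTree.depth] using this
    · have := DTC.const (ι := ι) 0 1 zero_le_one le_rfl
      simpa [DTree.eval, DTree.depth] using this
  | read i t₀ t₁ ih0 ih1 =>
    have := DTC.ask (max t₀.depth t₁.depth) (e.symm i) _ _ (ih0.lwMono (le_max_left _ _))
      (ih1.lwMono (le_max_right _ _))
    refine (congrArg (DTC (DTree.read i t₀ t₁).depth) ?_).mpr this
    funext x
    by_cases hx : x (e.symm i) <;> simp [DTree.eval, hx]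

/-- T6'': randomized computation in the frozen sense gives `RComp`. -/
theorem rcomp_of {n : ℕ} {ι : Type} (e : ι ≃ Fin n) (F : (ι → Bool) → Bool) (r : ℕ)
    (h : RandomizedComputes (fun y : Fin n → Bool => F (fun i => y (e i))) r) : RComp F r := by
  obtain ⟨s, p, T, hp0, hp1, hT, hF⟩ := h
  refine ⟨s, p, fun j x => if (T j).eval (fun k => x (e.symm k)) then (1 : ℝ) else 0, hp0, hp1,
    fun j => (dtc_of_tree e (T j)).lwMono (hT j), ?_, ?_⟩
  · intro x hx
    have h1 := hF (fun k => x (e.symm k))
    simp only [Equiv.symm_apply_apply, hx] at h1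
    refine h1.trans (le_of_eq ?_)
    refine Finset.sum_congr rfl fun j _ => ?_
    by_cases hj : (T j).eval (fun k => x (e.symm k)) = true <;> simp [hj]
  · intro x hx
    have h1 := hF (fun k => x (e.symm k))
    simp only [Equiv.symm_apply_apply, hx] at h1
    have h2 : (∑ j, p j * (if (T j).eval (fun k => x (e.symm k)) then (1 : ℝ) else 0)) +
        (∑ j, if (T j).eval (fun k => x (e.symm k)) = false then p j else 0) = 1 := by
      rw [← Finset.sum_add_distrib]
      refine (Finset.sum_congr rfl fun j _ => ?_).trans hp1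
      by_cases hj : (T j).eval (fun k => x (e.symm k)) = true <;> simp [hj]
    linarith

/-! ### hybrid argument -/

theorem hybrid_step {ξ L : Type} [Fintype ξ] [DecidableEq ξ] [Fintype L] [DecidableEq L]
    (μ : (ξ → Bool) → ℝ) (h0 : ∀ x, 0 ≤ μ x) (h1 : ∑ x, μ x = 1) (d : ℕ) (α : ℝ)
    (hα : ∀ f : (ξ → Bool) → ℝ, DTC d f →
      |∑ x, μ x * f x - (∑ x, f x) / Fintype.card (ξ → Bool)| ≤ α)
    (f : (L × ξ → Bool) → ℝ) (hf : DTC d f) (S : Finset L) :
    |∑ Z : L → ξ → Bool, (∏ l, (if l ∈ S then μ (Z l)
        else 1 / (Fintype.card (ξ → Bool) : ℝ))) * f (fun q => Z q.1 q.2)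
      - ∑ Z : L → ξ → Bool, (∏ _l : L, 1 / (Fintype.card (ξ → Bool) : ℝ)) *
        f (fun q => Z q.1 q.2)| ≤ S.card * α := by
  classical
  have hcard : (0 : ℝ) < (Fintype.card (ξ → Bool) : ℝ) := by
    exact_mod_cast Fintype.card_pos
  have hunif : ∑ _y : ξ → Bool, 1 / (Fintype.card (ξ → Bool) : ℝ) = 1 := by
    rw [Finset.sum_const, Finset.card_univ, nsmul_eq_mul]
    field_simp
  induction S using Finset.induction_on with
  | empty => simp
  | insert a S ha ih =>
    -- one step
    set D : Finset L → (L → (ξ → Bool)) → ℝ := fun S Z =>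
      ∏ l, (if l ∈ S then μ (Z l) else 1 / (Fintype.card (ξ → Bool) : ℝ)) with hD
    have hDnn : ∀ S Z, 0 ≤ D S Z := by
      intro S Z
      refine Finset.prod_nonneg fun l _ => ?_
      split_ifs
      · exact h0 _
      · positivity
    have hDsum : ∀ S : Finset L, ∑ Z, D S Z = 1 := by
      intro S
      have : ∑ Z : L → (ξ → Bool), D S Z = ∏ l : L, ∑ y : ξ → Bool,
          (if l ∈ S then μ y else 1 / (Fintype.card (ξ → Bool) : ℝ)) := by
        rw [Finset.prod_univ_sum, Fintype.piFinset_univ]
      rw [this]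
      refine Finset.prod_eq_one fun l _ => ?_
      by_cases hl : l ∈ S
      · simp only [hl, if_true, h1]
      · simp only [hl, if_false, hunif]
    have hstep : |∑ Z, D (insert a S) Z * f (fun q => Z q.1 q.2)
        - ∑ Z, D S Z * f (fun q => Z q.1 q.2)| ≤ α := by
      have e1 : ∑ Z, D (insert a S) Z * f (fun q => Z q.1 q.2) =
          ∑ Z, D S Z * ∑ y, μ y * f (fun q => Function.update Z a y q.1 q.2) := by
        have := lwSumProdResample (β := ξ → Bool) a
          (fun l y => if l ∈ insert a S then μ y else 1 / (Fintype.card (ξ → Bool) : ℝ))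
          (fun l y => if l ∈ S then μ y else 1 / (Fintype.card (ξ → Bool) : ℝ))
          (fun l hl => by simp [hl]) (by simp only [ha, if_false]; exact hunif)
          (fun Z => f (fun q => Z q.1 q.2))
        simp only [Finset.mem_insert_self, if_true] at this
        exact this
      have e2 : ∑ Z, D S Z * f (fun q => Z q.1 q.2) =
          ∑ Z, D S Z * ∑ y, 1 / (Fintype.card (ξ → Bool) : ℝ) *
            f (fun q => Function.update Z a y q.1 q.2) := by
        have := lwSumProdResample (β := ξ → Bool) a
          (fun l y => if l ∈ S then μ y else 1 / (Fintype.card (ξ → Bool) : ℝ))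
          (fun l y => if l ∈ S then μ y else 1 / (Fintype.card (ξ → Bool) : ℝ))
          (fun l hl => rfl) (by simp only [ha, if_false]; exact hunif)
          (fun Z => f (fun q => Z q.1 q.2))
        simp only [ha, if_false] at this
        exact this
      rw [e1, e2, ← Finset.sum_sub_distrib]
      have hterm : ∀ Z, |D S Z * ∑ y, μ y * f (fun q => Function.update Z a y q.1 q.2)
          - D S Z * ∑ y, 1 / (Fintype.card (ξ → Bool) : ℝ) *
            f (fun q => Function.update Z a y q.1 q.2)| ≤ D S Z * α := by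
        intro Z
        rw [← mul_sub, abs_mul, abs_of_nonneg (hDnn S Z)]
        refine mul_le_mul_of_nonneg_left ?_ (hDnn S Z)
        have hsub : DTC d (fun y : ξ → Bool => f (fun q => Function.update Z a y q.1 q.2)) := by
          refine hf.lwSubst (fun y q => Function.update Z a y q.1 q.2) ?_
          rintro ⟨l, i⟩
          by_cases hl : l = a
          · left
            refine ⟨i, fun z => ?_⟩
            subst hl
            simp
          · right
            refine ⟨Z l i, fun z => ?_⟩
            simp [Function.update_of_ne hl]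
        have := hα _ hsub
        rw [Finset.sum_div] at this
        refine le_trans (le_of_eq ?_) this
        congr 2
        refine Finset.sum_congr rfl fun y _ => ?_
        ring
      calc |∑ Z, (D S Z * ∑ y, μ y * f (fun q => Function.update Z a y q.1 q.2)
          - D S Z * ∑ y, 1 / (Fintype.card (ξ → Bool) : ℝ) *
            f (fun q => Function.update Z a y q.1 q.2))|
          ≤ ∑ Z, |D S Z * ∑ y, μ y * f (fun q => Function.update Z a y q.1 q.2)
          - D S Z * ∑ y, 1 / (Fintype.card (ξ → Bool) : ℝ) *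
            f (fun q => Function.update Z a y q.1 q.2)| := Finset.abs_sum_le_sum_abs _ _
        _ ≤ ∑ Z, D S Z * α := Finset.sum_le_sum fun Z _ => hterm Z
        _ = α := by rw [← Finset.sum_mul, hDsum, one_mul]
    rw [Finset.card_insert_of_notMem ha]
    push_cast
    have htri := abs_add_le (∑ Z, D (insert a S) Z * f (fun q => Z q.1 q.2)
        - ∑ Z, D S Z * f (fun q => Z q.1 q.2)) (∑ Z, D S Z * f (fun q => Z q.1 q.2) -
        ∑ Z : L → ξ → Bool, (∏ _l : L, 1 / (Fintype.card (ξ → Bool) : ℝ)) *
        f (fun q => Z q.1 q.2))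
    have e3 : (∑ Z, D (insert a S) Z * f (fun q => Z q.1 q.2)
        - ∑ Z, D S Z * f (fun q => Z q.1 q.2)) + (∑ Z, D S Z * f (fun q => Z q.1 q.2) -
        ∑ Z : L → ξ → Bool, (∏ _l : L, 1 / (Fintype.card (ξ → Bool) : ℝ)) *
        f (fun q => Z q.1 q.2)) = ∑ Z, D (insert a S) Z * f (fun q => Z q.1 q.2) -
        ∑ Z : L → ξ → Bool, (∏ _l : L, 1 / (Fintype.card (ξ → Bool) : ℝ)) *
        f (fun q => Z q.1 q.2) := by ring
    rw [e3] at htri
    have : (((S.card : ℝ)) + 1) * α = α + S.card * α := by ring
    rw [this]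
    exact htri.trans (add_le_add hstep ih)

/-- T6': hybrid over independent copies: product of `L` distributions each `α`-close to uniform
for depth-`d` trees. `w l = true` uses `μ`, otherwise uniform. -/
theorem hybrid_copies {ξ L : Type} [Fintype ξ] [DecidableEq ξ] [Fintype L] [DecidableEq L]
    (μ : (ξ → Bool) → ℝ) (h0 : ∀ x, 0 ≤ μ x) (h1 : ∑ x, μ x = 1) (d : ℕ) (α : ℝ)
    (hα : ∀ f : (ξ → Bool) → ℝ, DTC d f →
      |∑ x, μ x * f x - (∑ x, f x) / Fintype.card (ξ → Bool)| ≤ α)
    (w : L → Bool) (f : (L × ξ → Bool) → ℝ) (hf : DTC d f) :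
    |∑ z : L × ξ → Bool, (∏ l, (if w l then μ (fun i => z (l, i))
        else 1 / (Fintype.card (ξ → Bool) : ℝ))) * f z
      - (∑ z, f z) / Fintype.card (L × ξ → Bool)| ≤ Fintype.card L * α := by
  classical
  have hα0 : 0 ≤ α := le_trans (abs_nonneg _) (hα (fun _ => 0) (DTC.const d 0 le_rfl zero_le_one))
  have hstep := hybrid_step μ h0 h1 d α hα f hf (Finset.univ.filter fun l => w l = true)
  have e1 : ∑ z : L × ξ → Bool, (∏ l, (if w l then μ (fun i => z (l, i))
        else 1 / (Fintype.card (ξ → Bool) : ℝ))) * f z =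
      ∑ Z : L → ξ → Bool, (∏ l, (if l ∈ Finset.univ.filter (fun l => w l = true) then μ (Z l)
        else 1 / (Fintype.card (ξ → Bool) : ℝ))) * f (fun q => Z q.1 q.2) := by
    refine Fintype.sum_equiv (Equiv.curry L ξ Bool) _ _ fun z => ?_
    simp only [Finset.mem_filter, Finset.mem_univ, true_and]
    rfl
  have e2 : (∑ z, f z) / Fintype.card (L × ξ → Bool) =
      ∑ Z : L → ξ → Bool, (∏ _l : L, 1 / (Fintype.card (ξ → Bool) : ℝ)) *
        f (fun q => Z q.1 q.2) := by
    rw [Finset.sum_div]
    refine Fintype.sum_equiv (Equiv.curry L ξ Bool) _ _ fun z => ?_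
    have hc : (Fintype.card (L × ξ → Bool) : ℝ) =
        (Fintype.card (ξ → Bool) : ℝ) ^ Fintype.card L := by
      rw [Fintype.card_congr (Equiv.curry L ξ Bool), Fintype.card_fun (α := L) (β := ξ → Bool)]
      push_cast
      rfl
    rw [hc, Finset.prod_const, Finset.card_univ, one_div, inv_pow, div_eq_inv_mul]
    rfl
  rw [e1, e2]
  refine hstep.trans ?_
  refine mul_le_mul_of_nonneg_right ?_ hα0
  exact_mod_cast Finset.card_le_univ _

/-! ### the abstract lower bound -/

section lower

/-- column (lwArea) of an index. -/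
def lwArea {N ζ Kp η : Type} : (N × N) ⊕ (N × ζ) ⊕ (N × Kp × η) → N
  | .inl (_, c) => c
  | .inr (.inl (c, _)) => c
  | .inr (.inr (c, _, _)) => c

/-- null input. -/
def lwNul {N ζ Kp η : Type} [DecidableEq N] (e : N → N) (z : N → ζ → Bool) :
    (N × N) ⊕ (N × ζ) ⊕ (N × Kp × η) → Bool
  | .inl (r, c) => decide (r ≠ e c)
  | .inr (.inl (c, w)) => z c w
  | .inr (.inr _) => false

/-- null input with column `b` all-true and instances of `b` replaced by `w`. -/
def lwBas {N ζ Kp η : Type} [DecidableEq N] (b : N) (e : N → N) (z : N → ζ → Bool)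
    (w : ζ → Bool) : (N × N) ⊕ (N × ζ) ⊕ (N × Kp × η) → Bool
  | .inl (r, c) => if c = b then true else decide (r ≠ e c)
  | .inr (.inl (c, j)) => if c = b then w j else z c j
  | .inr (.inr _) => false

/-- owner of an index: the sheet `κ` of column `b`. -/
def lwOwnr {N ζ Kp η : Type} [DecidableEq N] (b : N) :
    (N × N) ⊕ (N × ζ) ⊕ (N × Kp × η) → Option Kp
  | .inl _ => none
  | .inr (.inl _) => none
  | .inr (.inr (c, κ, _)) => if c = b then some κ else none

variable {N ζ Kp η : Type} [Fintype N] [DecidableEq N] [Nonempty N] [Fintype ζ]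
    [DecidableEq ζ] [Fintype Kp] [DecidableEq Kp] [Nonempty Kp] [Fintype η] [DecidableEq η]

omit [Fintype η] [DecidableEq η] in
/-- the comparison for a fixed column `b` and a fixed outside. -/
theorem lower_local (d : ℕ) (α : ℝ)
    (ν : Kp → (ζ → Bool) → ℝ) (hν0 : ∀ κ z, 0 ≤ ν κ z)
    (hadv : ∀ κ, ∀ f : (ζ → Bool) → ℝ, DTC d f →
      |∑ z, ν κ z * f z - (∑ z, f z) / Fintype.card (ζ → Bool)| ≤ α)
    (content : N → Kp → (N → N) → (ζ → Bool) → η → Bool)
    (b : N) (e : N → N) (z : N → ζ → Bool)
    (f g : ((N × N) ⊕ (N × ζ) ⊕ (N × Kp × η) → Bool) → ℝ) (cnt : N →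
      ((N × N) ⊕ (N × ζ) ⊕ (N × Kp × η) → Bool) → ℕ) (hg : DTC d g)
    (hfg : ∀ x, (∀ i, lwArea i ≠ b → x i = lwNul e z i) →
          f x ≤ g x ∧ g x ≤ f x + (if d < cnt b x then 1 else 0)) :
    (∑ κ, ∑ w, ν κ w * f (build content b κ e (Function.update z b w))) / Fintype.card Kp ≤
      (∑ w : ζ → Bool, ∑ ρ : N, (f (lwNul (Function.update e b ρ) (Function.update z b w)) +
        (if d < cnt b (lwNul (Function.update e b ρ) (Function.update z b w)) then 1 else 0))) /
        (Fintype.card (ζ → Bool) * Fintype.card N) + ((d : ℝ) / Fintype.card N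
        + (d : ℝ) / Fintype.card Kp + 2 * α) := by
  classical
  have hN : (0 : ℝ) < Fintype.card N := by exact_mod_cast Fintype.card_pos
  have hK : (0 : ℝ) < Fintype.card Kp := by exact_mod_cast Fintype.card_pos
  have hW : (0 : ℝ) < (Fintype.card (ζ → Bool) : ℝ) := by exact_mod_cast Fintype.card_pos
  have hbs : ∀ i : (N × N) ⊕ (N × ζ) ⊕ (N × Kp × η),
      (∃ j : ζ, lwOwnr b i = none ∧ ∀ w : ζ → Bool, lwBas b e z w i = w j) ∨
        (∃ v, ∀ w : ζ → Bool, lwBas b e z w i = v) := by
    rintro (⟨r, c⟩ | ⟨c, j⟩ | ⟨c, κ, h⟩)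
    · right
      exact ⟨_, fun w => rfl⟩
    · by_cases hc : c = b
      · left
        exact ⟨j, rfl, fun w => by simp [lwBas, hc]⟩
      · right
        exact ⟨z c j, fun w => by simp [lwBas, hc]⟩
    · right
      exact ⟨_, fun w => rfl⟩
  -- detection
  obtain ⟨H, H1, H2, H3⟩ := hg.detect (P := Kp) (lwBas b e z) (lwOwnr b) hbs
  have hgw : DTC d (fun w => g (lwBas b e z w)) := by
    refine hg.lwSubst (lwBas b e z) fun i => ?_
    rcases hbs i with ⟨j, _, hj⟩ | h
    · exact Or.inl ⟨j, hj⟩
    · exact Or.inr h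
  -- step 2 and 3
  have s1 : ∀ κ, ∑ w, ν κ w * f (build content b κ e (Function.update z b w)) ≤
      (∑ w, g (lwBas b e z w)) / Fintype.card (ζ → Bool) +
      (∑ w, H κ w) / Fintype.card (ζ → Bool) + 2 * α := by
    intro κ
    have a1 : ∀ w, f (build content b κ e (Function.update z b w)) ≤
        g (lwBas b e z w) + H κ w := by
      intro w
      have b1 : f (build content b κ e (Function.update z b w)) ≤
          g (build content b κ e (Function.update z b w)) := by
        refine (hfg _ ?_).1
        rintro (⟨r, c⟩ | ⟨c, j⟩ | ⟨c, κ', h⟩) hi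
        · have hc : c ≠ b := hi
          simp [build, lwNul, hc]
        · have hc : c ≠ b := hi
          simp [build, lwNul, hc]
        · have hc : c ≠ b := hi
          simp [build, lwNul, hc]
      have b2 : g (build content b κ e (Function.update z b w)) ≤
          g (lwBas b e z w) + H κ w := by
        refine H3 κ w _ ?_
        rintro (⟨r, c⟩ | ⟨c, j⟩ | ⟨c, κ', h⟩) hi
        · rfl
        · by_cases hc : c = b
          · subst hc
            simp [build, lwBas]
          · simp [build, lwBas, hc]
        · have : ¬ (c = b ∧ κ' = κ) := by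
            rintro ⟨h1, h2⟩
            apply hi
            simp [lwOwnr, h1, h2]
          simp [build, lwBas, this]
      exact b1.trans b2
    have a2 : ∑ w, ν κ w * f (build content b κ e (Function.update z b w)) ≤
        ∑ w, ν κ w * g (lwBas b e z w) + ∑ w, ν κ w * H κ w := by
      rw [← Finset.sum_add_distrib]
      refine Finset.sum_le_sum fun w _ => ?_
      rw [← mul_add]
      exact mul_le_mul_of_nonneg_left (a1 w) (hν0 κ w)
    have a3 := (abs_le.mp (hadv κ _ hgw)).2
    have a4 := (abs_le.mp (hadv κ _ (H1 κ))).2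
    linarith
  have s2 : ∑ κ, ∑ w, ν κ w * f (build content b κ e (Function.update z b w)) ≤
      Fintype.card Kp * ((∑ w, g (lwBas b e z w)) / Fintype.card (ζ → Bool)) + d +
        Fintype.card Kp * (2 * α) := by
    calc ∑ κ, ∑ w, ν κ w * f (build content b κ e (Function.update z b w))
        ≤ ∑ κ : Kp, ((∑ w, g (lwBas b e z w)) / Fintype.card (ζ → Bool) +
          (∑ w, H κ w) / Fintype.card (ζ → Bool) + 2 * α) := Finset.sum_le_sum fun κ _ => s1 κ
      _ = Fintype.card Kp * ((∑ w, g (lwBas b e z w)) / Fintype.card (ζ → Bool)) +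
          (∑ w, ∑ κ, H κ w) / Fintype.card (ζ → Bool) + Fintype.card Kp * (2 * α) := by
          rw [Finset.sum_add_distrib, Finset.sum_add_distrib, Finset.sum_const, Finset.sum_const,
            Finset.card_univ, nsmul_eq_mul, nsmul_eq_mul, ← Finset.sum_div, Finset.sum_comm]
      _ ≤ _ := by
          have : (∑ w : ζ → Bool, ∑ κ, H κ w) / Fintype.card (ζ → Bool) ≤ d := by
            rw [div_le_iff₀ hW]
            calc (∑ w : ζ → Bool, ∑ κ, H κ w) ≤ ∑ w : ζ → Bool, (d : ℝ) :=
                  Finset.sum_le_sum fun w _ => H2 w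
              _ = d * Fintype.card (ζ → Bool) := by
                  rw [Finset.sum_const, Finset.card_univ, nsmul_eq_mul, mul_comm]
          linarith
  -- step 1
  have s3 : ∀ w : ζ → Bool, Fintype.card N * g (lwBas b e z w) ≤
      (∑ ρ : N, (f (lwNul (Function.update e b ρ) (Function.update z b w)) +
        (if d < cnt b (lwNul (Function.update e b ρ) (Function.update z b w)) then 1 else 0)))
        + d := by
    intro w
    have a1 := hg.sum_pert (P := N) (lwBas b e z w)
      (fun ρ => lwNul (Function.update e b ρ) (Function.update z b w)) (by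
        rintro (⟨r, c⟩ | ⟨c, j⟩ | ⟨c, κ', h⟩)
        · refine ⟨some r, fun ρ hρ => ?_⟩
          by_cases hc : c = b
          · subst hc
            have : r ≠ ρ := fun h => hρ (by rw [h])
            simp [lwNul, lwBas, this]
          · simp [lwNul, lwBas, hc]
        · refine ⟨none, fun ρ hρ => ?_⟩
          by_cases hc : c = b
          · subst hc
            simp [lwNul, lwBas]
          · simp [lwNul, lwBas, hc]
        · exact ⟨none, fun ρ _ => rfl⟩)
    have a2 : ∀ ρ : N, g (lwBas b e z w) ≤
        (f (lwNul (Function.update e b ρ) (Function.update z b w)) +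
        (if d < cnt b (lwNul (Function.update e b ρ) (Function.update z b w)) then 1 else 0)) +
        |g (lwNul (Function.update e b ρ) (Function.update z b w)) - g (lwBas b e z w)| := by
      intro ρ
      have b1 := (hfg (lwNul (Function.update e b ρ) (Function.update z b w)) (by
        rintro (⟨r, c⟩ | ⟨c, j⟩ | ⟨c, κ', h⟩) hi
        · have hc : c ≠ b := hi
          simp [lwNul, hc]
        · have hc : c ≠ b := hi
          simp [lwNul, hc]
        · rfl)).2
      have b2 := neg_abs_le (g (lwNul (Function.update e b ρ) (Function.update z b w))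
        - g (lwBas b e z w))
      linarith
    calc (Fintype.card N : ℝ) * g (lwBas b e z w) = ∑ ρ : N, g (lwBas b e z w) := by
          rw [Finset.sum_const, Finset.card_univ, nsmul_eq_mul]
      _ ≤ ∑ ρ : N, ((f (lwNul (Function.update e b ρ) (Function.update z b w)) +
        (if d < cnt b (lwNul (Function.update e b ρ) (Function.update z b w)) then 1 else 0)) +
        |g (lwNul (Function.update e b ρ) (Function.update z b w)) - g (lwBas b e z w)|) :=
          Finset.sum_le_sum fun ρ _ => a2 ρ
      _ ≤ _ := by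
          rw [Finset.sum_add_distrib]
          exact add_le_add le_rfl a1
  have s4 : Fintype.card N * ∑ w, g (lwBas b e z w) ≤
      (∑ w : ζ → Bool, ∑ ρ : N, (f (lwNul (Function.update e b ρ) (Function.update z b w)) +
        (if d < cnt b (lwNul (Function.update e b ρ) (Function.update z b w)) then 1 else 0)))
        + d * Fintype.card (ζ → Bool) := by
    rw [Finset.mul_sum]
    refine (Finset.sum_le_sum fun w _ => s3 w).trans ?_
    rw [Finset.sum_add_distrib, Finset.sum_const, Finset.card_univ, nsmul_eq_mul]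
    linarith
  set X := ∑ w : ζ → Bool, ∑ ρ : N, (f (lwNul (Function.update e b ρ) (Function.update z b w)) +
        (if d < cnt b (lwNul (Function.update e b ρ) (Function.update z b w)) then (1 : ℝ) else 0))
    with hX
  set Y := ∑ w, g (lwBas b e z w) with hY
  rw [div_le_iff₀ hK]
  refine s2.trans ?_
  have s5 : Y / (Fintype.card (ζ → Bool) : ℝ) ≤
      X / (Fintype.card (ζ → Bool) * Fintype.card N) + (d : ℝ) / Fintype.card N := by
    rw [div_add_div _ _ (by positivity) (by positivity), div_le_div_iff₀ (by positivity)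
      (by positivity)]
    nlinarith [mul_le_mul_of_nonneg_right s4
      (by positivity : (0 : ℝ) ≤ (Fintype.card (ζ → Bool) : ℝ) * Fintype.card N)]
  have s6 : (d : ℝ) / Fintype.card Kp * Fintype.card Kp = d := by field_simp
  calc (Fintype.card Kp : ℝ) * (Y / (Fintype.card (ζ → Bool) : ℝ)) + d +
        Fintype.card Kp * (2 * α)
      ≤ (Fintype.card Kp : ℝ) * (X / (Fintype.card (ζ → Bool) * Fintype.card N) +
        (d : ℝ) / Fintype.card N) + (d : ℝ) / Fintype.card Kp * Fintype.card Kp +
        Fintype.card Kp * (2 * α) := by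
        rw [s6]
        have := mul_le_mul_of_nonneg_left s5 hK.le
        linarith
    _ = _ := by ring

omit [Fintype Kp] [DecidableEq Kp] [Nonempty Kp] [Fintype η]
  [DecidableEq η] [Nonempty N] in
theorem lwSumNulUpdate (b : N)
    (G : ((N × N) ⊕ (N × ζ) ⊕ (N × Kp × η) → Bool) → ℝ) :
    ∑ e : N → N, ∑ z : N → ζ → Bool, ∑ w : ζ → Bool, ∑ ρ : N,
      G (lwNul (Function.update e b ρ) (Function.update z b w)) =
    Fintype.card N * (Fintype.card (ζ → Bool) * ∑ e : N → N, ∑ z : N → ζ → Bool, G (lwNul e z)) := by
  classical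
  calc ∑ e : N → N, ∑ z : N → ζ → Bool, ∑ w : ζ → Bool, ∑ ρ : N,
      G (lwNul (Function.update e b ρ) (Function.update z b w))
      = ∑ z : N → ζ → Bool, ∑ w : ζ → Bool, ∑ e : N → N, ∑ ρ : N,
      G (lwNul (Function.update e b ρ) (Function.update z b w)) := by
        rw [Finset.sum_comm]
        refine Finset.sum_congr rfl fun z _ => ?_
        rw [Finset.sum_comm]
    _ = ∑ z : N → ζ → Bool, ∑ w : ζ → Bool, (Fintype.card N : ℝ) * ∑ e : N → N,
      G (lwNul e (Function.update z b w)) := by
        refine Finset.sum_congr rfl fun z _ => Finset.sum_congr rfl fun w _ => ?_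
        exact lwSumUpdate b (fun e => G (lwNul e (Function.update z b w)))
    _ = (Fintype.card N : ℝ) * ∑ z : N → ζ → Bool, ∑ w : ζ → Bool, ∑ e : N → N,
      G (lwNul e (Function.update z b w)) := by
        simp only [Finset.mul_sum]
    _ = (Fintype.card N : ℝ) * (Fintype.card (ζ → Bool) * ∑ z : N → ζ → Bool, ∑ e : N → N,
      G (lwNul e z)) := by
        congr 1
        exact lwSumUpdate b (fun z => ∑ e : N → N, G (lwNul e z))
    _ = _ := by rw [Finset.sum_comm]

omit [Fintype η] [DecidableEq η] in
/-- comparison of planted and null averages for one tree (unnormalized). -/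
theorem lower_tree (d r : ℕ) (hd : 1 ≤ d) (α : ℝ)
    (ν : Kp → (ζ → Bool) → ℝ) (hν0 : ∀ κ z, 0 ≤ ν κ z)
    (hadv : ∀ κ, ∀ f : (ζ → Bool) → ℝ, DTC d f →
      |∑ z, ν κ z * f z - (∑ z, f z) / Fintype.card (ζ → Bool)| ≤ α)
    (content : N → Kp → (N → N) → (ζ → Bool) → η → Bool)
    (f : ((N × N) ⊕ (N × ζ) ⊕ (N × Kp × η) → Bool) → ℝ) (hf : DTC r f) :
    (∑ b : N, ∑ e : N → N, ∑ z : N → ζ → Bool, ∑ κ, ∑ w,
      ν κ w * f (build content b κ e (Function.update z b w))) ≤
      (Fintype.card Kp * Fintype.card N) * (∑ e : N → N, ∑ z : N → ζ → Bool, f (lwNul e z)) +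
      (Fintype.card Kp * Fintype.card N) * (Fintype.card (N → N) *
        Fintype.card (N → ζ → Bool)) *
        ((r : ℝ) / (d * Fintype.card N) + (d : ℝ) / Fintype.card N
        + (d : ℝ) / Fintype.card Kp + 2 * α) := by
  classical
  have hN : (0 : ℝ) < Fintype.card N := by exact_mod_cast Fintype.card_pos
  have hK : (0 : ℝ) < Fintype.card Kp := by exact_mod_cast Fintype.card_pos
  have hW : (0 : ℝ) < (Fintype.card (ζ → Bool) : ℝ) := by exact_mod_cast Fintype.card_pos
  have hd0 : (0 : ℝ) < d := by exact_mod_cast hd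
  obtain ⟨cnt, c1, c2⟩ := hf.trunc (N := N) lwArea
  set err : ℝ := (d : ℝ) / Fintype.card N + (d : ℝ) / Fintype.card Kp + 2 * α with herr
  -- per column
  have s1 : ∀ b : N, (∑ e : N → N, ∑ z : N → ζ → Bool, ∑ κ, ∑ w,
      ν κ w * f (build content b κ e (Function.update z b w))) ≤
      Fintype.card Kp * ((∑ e : N → N, ∑ z : N → ζ → Bool, f (lwNul e z)) +
        (∑ e : N → N, ∑ z : N → ζ → Bool, (cnt b (lwNul e z) : ℝ) / d) +
        (Fintype.card (N → N) * Fintype.card (N → ζ → Bool)) * err) := by
    intro b
    have a1 : ∀ (e : N → N) (z : N → ζ → Bool), ∑ κ, ∑ w,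
        ν κ w * f (build content b κ e (Function.update z b w)) ≤
        Fintype.card Kp * ((∑ w : ζ → Bool, ∑ ρ : N,
        (f (lwNul (Function.update e b ρ) (Function.update z b w)) +
        (cnt b (lwNul (Function.update e b ρ) (Function.update z b w)) : ℝ) / d)) /
        (Fintype.card (ζ → Bool) * Fintype.card N) + err) := by
      intro e z
      obtain ⟨g, hg, hfg⟩ := c2 b d (lwNul e z)
      have := lower_local d α ν hν0 hadv content b e z f g cnt hg hfg
      rw [div_le_iff₀ hK, mul_comm] at this
      refine this.trans (mul_le_mul_of_nonneg_left (add_le_add ?_ le_rfl) hK.le)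
      refine div_le_div_of_nonneg_right ?_ (by positivity)
      refine Finset.sum_le_sum fun w _ => Finset.sum_le_sum fun ρ _ => add_le_add le_rfl ?_
      split_ifs with h
      · rw [le_div_iff₀ hd0, one_mul]
        exact_mod_cast h.le
      · positivity
    have a2 := lwSumNulUpdate (Kp := Kp) (η := η) (ζ := ζ) b
      (fun x => f x + (cnt b x : ℝ) / d)
    calc (∑ e : N → N, ∑ z : N → ζ → Bool, ∑ κ, ∑ w,
      ν κ w * f (build content b κ e (Function.update z b w)))
        ≤ ∑ e : N → N, ∑ z : N → ζ → Bool, Fintype.card Kp * ((∑ w : ζ → Bool, ∑ ρ : N,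
        (f (lwNul (Function.update e b ρ) (Function.update z b w)) +
        (cnt b (lwNul (Function.update e b ρ) (Function.update z b w)) : ℝ) / d)) /
        (Fintype.card (ζ → Bool) * Fintype.card N) + err) :=
          Finset.sum_le_sum fun e _ => Finset.sum_le_sum fun z _ => a1 e z
      _ = Fintype.card Kp * ((∑ e : N → N, ∑ z : N → ζ → Bool, ∑ w : ζ → Bool, ∑ ρ : N,
        (f (lwNul (Function.update e b ρ) (Function.update z b w)) +
        (cnt b (lwNul (Function.update e b ρ) (Function.update z b w)) : ℝ) / d)) /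
        (Fintype.card (ζ → Bool) * Fintype.card N) +
        (Fintype.card (N → N) * Fintype.card (N → ζ → Bool)) * err) := by
          simp only [← Finset.mul_sum, Finset.sum_add_distrib, ← Finset.sum_div, Finset.sum_const,
            Finset.card_univ, nsmul_eq_mul]
          ring
      _ = Fintype.card Kp * ((∑ e : N → N, ∑ z : N → ζ → Bool, f (lwNul e z)) +
        (∑ e : N → N, ∑ z : N → ζ → Bool, (cnt b (lwNul e z) : ℝ) / d) +
        (Fintype.card (N → N) * Fintype.card (N → ζ → Bool)) * err) := by
          rw [a2]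
          have hne : (Fintype.card (ζ → Bool) : ℝ) * Fintype.card N ≠ 0 := by positivity
          have : (Fintype.card N * (Fintype.card (ζ → Bool) * ∑ e : N → N,
              ∑ z : N → ζ → Bool, (f (lwNul e z) + (cnt b (lwNul e z) : ℝ) / d))) /
              ((Fintype.card (ζ → Bool) : ℝ) * Fintype.card N) =
              ∑ e : N → N, ∑ z : N → ζ → Bool, (f (lwNul e z) + (cnt b (lwNul e z) : ℝ) / d) := by
            rw [div_eq_iff hne]
            ring
          rw [this]
          simp only [Finset.sum_add_distrib]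
  have s2 : ∑ b : N, (∑ e : N → N, ∑ z : N → ζ → Bool, (cnt b (lwNul e z) : ℝ) / d) ≤
      (Fintype.card (N → N) * Fintype.card (N → ζ → Bool)) * ((r : ℝ) / d) := by
    calc ∑ b : N, (∑ e : N → N, ∑ z : N → ζ → Bool, (cnt b (lwNul e z) : ℝ) / d)
        = ∑ e : N → N, ∑ z : N → ζ → Bool, ∑ b : N, (cnt b (lwNul e z) : ℝ) / d := by
          rw [Finset.sum_comm]
          refine Finset.sum_congr rfl fun e _ => ?_
          rw [Finset.sum_comm]
      _ ≤ ∑ e : N → N, ∑ z : N → ζ → Bool, (r : ℝ) / d := by
          refine Finset.sum_le_sum fun e _ => Finset.sum_le_sum fun z _ => ?_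
          rw [← Finset.sum_div]
          refine div_le_div_of_nonneg_right ?_ hd0.le
          exact_mod_cast c1 (lwNul e z)
      _ = _ := by
          simp only [Finset.sum_const, Finset.card_univ, nsmul_eq_mul]
          ring
  calc (∑ b : N, ∑ e : N → N, ∑ z : N → ζ → Bool, ∑ κ, ∑ w,
      ν κ w * f (build content b κ e (Function.update z b w)))
      ≤ ∑ b : N, Fintype.card Kp * ((∑ e : N → N, ∑ z : N → ζ → Bool, f (lwNul e z)) +
        (∑ e : N → N, ∑ z : N → ζ → Bool, (cnt b (lwNul e z) : ℝ) / d) +
        (Fintype.card (N → N) * Fintype.card (N → ζ → Bool)) * err) :=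
        Finset.sum_le_sum fun b _ => s1 b
    _ = Fintype.card Kp * (Fintype.card N * (∑ e : N → N, ∑ z : N → ζ → Bool, f (lwNul e z)) +
        (∑ b : N, ∑ e : N → N, ∑ z : N → ζ → Bool, (cnt b (lwNul e z) : ℝ) / d) +
        Fintype.card N * ((Fintype.card (N → N) * Fintype.card (N → ζ → Bool)) * err)) := by
        rw [← Finset.mul_sum, Finset.sum_add_distrib, Finset.sum_add_distrib]
        simp only [Finset.sum_const, Finset.card_univ, nsmul_eq_mul]
    _ ≤ Fintype.card Kp * (Fintype.card N * (∑ e : N → N, ∑ z : N → ζ → Bool, f (lwNul e z)) +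
        (Fintype.card (N → N) * Fintype.card (N → ζ → Bool)) * ((r : ℝ) / d) +
        Fintype.card N * ((Fintype.card (N → N) * Fintype.card (N → ζ → Bool)) * err)) := by
        refine mul_le_mul_of_nonneg_left ?_ hK.le
        linarith
    _ = _ := by
        have : (r : ℝ) / (d * Fintype.card N) * Fintype.card N = r / d := by
          field_simp
        rw [herr, ← this]
        ring

/-- T6 (Lower): abstract randomized lower bound. Null distribution: every column `c` has exactly
one `false`, at a random row; all `z` uniform; all sheets blank. Planted: `build` with random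
`b, κ, e`, with `z b ∼ ν κ`. `inl (r,c)` = cell in row `r`, column `c`. -/
theorem lower_abstract {N ζ Kp η : Type} [Fintype N] [DecidableEq N] [Nonempty N] [Fintype ζ]
    [DecidableEq ζ] [Fintype Kp] [DecidableEq Kp] [Nonempty Kp] [Fintype η] [DecidableEq η]
    (F : ((N × N) ⊕ (N × ζ) ⊕ (N × Kp × η) → Bool) → Bool) (d r : ℕ) (hd : 1 ≤ d) (α β : ℝ)
    (ν : Kp → (ζ → Bool) → ℝ) (hν0 : ∀ κ z, 0 ≤ ν κ z) (hν1 : ∀ κ, ∑ z, ν κ z = 1)
    (hadv : ∀ κ, ∀ f : (ζ → Bool) → ℝ, DTC d f →
      |∑ z, ν κ z * f z - (∑ z, f z) / Fintype.card (ζ → Bool)| ≤ α)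
    (hF0 : ∀ x, (∀ c, ∃ r, x (Sum.inl (r, c)) = false) → F x = false)
    (content : N → Kp → (N → N) → (ζ → Bool) → η → Bool)
    (Good : Kp → (ζ → Bool) → Prop) [∀ κ, DecidablePred (Good κ)]
    (hGood : ∀ κ, 1 - β ≤ ∑ z, if Good κ z then ν κ z else 0)
    (hF1 : ∀ (b : N) (κ : Kp) (e : N → N) (z : N → ζ → Bool), Good κ (z b) →
      F (build content b κ e z) = true)
    (hcomp : RComp F r) :
    1 / 3 - β ≤ (r : ℝ) / (d * Fintype.card N) + (d : ℝ) / Fintype.card N
      + (d : ℝ) / Fintype.card Kp + 2 * α := by
  classical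
  have hN : (0 : ℝ) < Fintype.card N := by exact_mod_cast Fintype.card_pos
  have hK : (0 : ℝ) < Fintype.card Kp := by exact_mod_cast Fintype.card_pos
  have hE : (0 : ℝ) < (Fintype.card (N → N) : ℝ) := by exact_mod_cast Fintype.card_pos
  have hZ : (0 : ℝ) < (Fintype.card (N → ζ → Bool) : ℝ) := by exact_mod_cast Fintype.card_pos
  obtain ⟨s, p, f, hp0, hp1, hf, hA1, hA0⟩ := hcomp
  have hβ : 0 ≤ β := by
    obtain ⟨κ⟩ := (inferInstance : Nonempty Kp)
    have h1 : ∑ z, (if Good κ z then ν κ z else 0) ≤ ∑ z, ν κ z := by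
      refine Finset.sum_le_sum fun z _ => ?_
      split_ifs
      · exact le_rfl
      · exact hν0 κ z
    have := hGood κ
    rw [hν1 κ] at h1
    linarith
  set err : ℝ := (r : ℝ) / (d * Fintype.card N) + (d : ℝ) / Fintype.card N
      + (d : ℝ) / Fintype.card Kp + 2 * α with herr
  set A : ((N × N) ⊕ (N × ζ) ⊕ (N × Kp × η) → Bool) → ℝ := fun x => ∑ j, p j * f j x with hA
  have hAnn : ∀ x, 0 ≤ A x := fun x =>
    Finset.sum_nonneg fun j _ => mul_nonneg (hp0 j) ((hf j).lwNonneg x)
  -- averaged comparison
  have s1 : (∑ b : N, ∑ e : N → N, ∑ z : N → ζ → Bool, ∑ κ, ∑ w,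
      ν κ w * A (build content b κ e (Function.update z b w))) ≤
      (Fintype.card Kp * Fintype.card N) * (∑ e : N → N, ∑ z : N → ζ → Bool, A (lwNul e z)) +
      (Fintype.card Kp * Fintype.card N) * (Fintype.card (N → N) *
        Fintype.card (N → ζ → Bool)) * err := by
    have e1 : (∑ b : N, ∑ e : N → N, ∑ z : N → ζ → Bool, ∑ κ, ∑ w,
        ν κ w * A (build content b κ e (Function.update z b w))) =
        ∑ j, p j * (∑ b : N, ∑ e : N → N, ∑ z : N → ζ → Bool, ∑ κ, ∑ w,
        ν κ w * f j (build content b κ e (Function.update z b w))) := by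
      simp only [hA, Finset.mul_sum]
      symm
      rw [Finset.sum_comm]
      refine Finset.sum_congr rfl fun b _ => ?_
      rw [Finset.sum_comm]
      refine Finset.sum_congr rfl fun e _ => ?_
      rw [Finset.sum_comm]
      refine Finset.sum_congr rfl fun z _ => ?_
      rw [Finset.sum_comm]
      refine Finset.sum_congr rfl fun κ _ => ?_
      rw [Finset.sum_comm]
      refine Finset.sum_congr rfl fun w _ => ?_
      refine Finset.sum_congr rfl fun j _ => ?_
      ring
    have e2 : (∑ e : N → N, ∑ z : N → ζ → Bool, A (lwNul e z)) =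
        ∑ j, p j * (∑ e : N → N, ∑ z : N → ζ → Bool, f j (lwNul e z)) := by
      simp only [hA, Finset.mul_sum]
      symm
      rw [Finset.sum_comm]
      refine Finset.sum_congr rfl fun e _ => ?_
      rw [Finset.sum_comm]
    rw [e1, e2]
    calc ∑ j, p j * (∑ b : N, ∑ e : N → N, ∑ z : N → ζ → Bool, ∑ κ, ∑ w,
        ν κ w * f j (build content b κ e (Function.update z b w)))
        ≤ ∑ j, p j * ((Fintype.card Kp * Fintype.card N) *
          (∑ e : N → N, ∑ z : N → ζ → Bool, f j (lwNul e z)) +
          (Fintype.card Kp * Fintype.card N) * (Fintype.card (N → N) *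
          Fintype.card (N → ζ → Bool)) * err) := by
          refine Finset.sum_le_sum fun j _ => mul_le_mul_of_nonneg_left ?_ (hp0 j)
          exact lower_tree d r hd α ν hν0 hadv content (f j) (hf j)
      _ = _ := by
          simp only [mul_add, Finset.sum_add_distrib]
          rw [← Finset.sum_mul, hp1, one_mul]
          congr 1
          rw [Finset.mul_sum]
          refine Finset.sum_congr rfl fun j _ => ?_
          ring
  -- null
  have s2 : (∑ e : N → N, ∑ z : N → ζ → Bool, A (lwNul e z)) ≤
      (Fintype.card (N → N) * Fintype.card (N → ζ → Bool)) * (1 / 3) := by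
    calc (∑ e : N → N, ∑ z : N → ζ → Bool, A (lwNul e z))
        ≤ ∑ e : N → N, ∑ z : N → ζ → Bool, (1 / 3 : ℝ) := by
          refine Finset.sum_le_sum fun e _ => Finset.sum_le_sum fun z _ => ?_
          refine hA0 _ (hF0 _ fun c => ⟨e c, ?_⟩)
          simp [lwNul]
      _ = _ := by
          simp only [Finset.sum_const, Finset.card_univ, nsmul_eq_mul]
          ring
  -- planted
  have s3 : (Fintype.card Kp * Fintype.card N) * (Fintype.card (N → N) *
        Fintype.card (N → ζ → Bool)) * (2 / 3 * (1 - β)) ≤
      (∑ b : N, ∑ e : N → N, ∑ z : N → ζ → Bool, ∑ κ, ∑ w,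
      ν κ w * A (build content b κ e (Function.update z b w))) := by
    calc (Fintype.card Kp * Fintype.card N) * (Fintype.card (N → N) *
        Fintype.card (N → ζ → Bool)) * (2 / 3 * (1 - β))
        = ∑ b : N, ∑ e : N → N, ∑ z : N → ζ → Bool, ∑ κ : Kp, (2 / 3 * (1 - β)) := by
          simp only [Finset.sum_const, Finset.card_univ, nsmul_eq_mul]
          ring
      _ ≤ _ := by
          refine Finset.sum_le_sum fun b _ => Finset.sum_le_sum fun e _ =>
            Finset.sum_le_sum fun z _ => Finset.sum_le_sum fun κ _ => ?_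
          calc 2 / 3 * (1 - β) ≤ 2 / 3 * ∑ w, (if Good κ w then ν κ w else 0) :=
                mul_le_mul_of_nonneg_left (hGood κ) (by norm_num)
            _ = ∑ w, 2 / 3 * (if Good κ w then ν κ w else 0) := by rw [Finset.mul_sum]
            _ ≤ _ := by
                refine Finset.sum_le_sum fun w _ => ?_
                split_ifs with hG
                · rw [mul_comm]
                  refine mul_le_mul_of_nonneg_left ?_ (hν0 κ w)
                  refine hA1 _ (hF1 b κ e _ ?_)
                  simpa using hG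
                · rw [mul_zero]
                  exact mul_nonneg (hν0 κ w) (hAnn _)
  have hM : 0 < ((Fintype.card Kp : ℝ) * Fintype.card N) * (Fintype.card (N → N) *
        Fintype.card (N → ζ → Bool)) := by positivity
  have s4 : ((Fintype.card Kp : ℝ) * Fintype.card N) * (Fintype.card (N → N) *
        Fintype.card (N → ζ → Bool)) * (2 / 3 * (1 - β)) ≤
      ((Fintype.card Kp : ℝ) * Fintype.card N) * (Fintype.card (N → N) *
        Fintype.card (N → ζ → Bool)) * (1 / 3 + err) := by
    have := mul_le_mul_of_nonneg_left s2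
      (by positivity : (0 : ℝ) ≤ (Fintype.card Kp : ℝ) * Fintype.card N)
    linarith
  have s5 := le_of_mul_le_mul_left s4 hM
  linarith

end lower

end Crest.Agent.R350
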