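import Crest.Agent.R350.Amp

/-! Row 350, T4: abstract pointer search by halving (`abstract_search`). -/

set_option autoImplicit false

namespace Crest.Agent.R350

open Finset Crest.MathPhysics.Query

/-! ### decision trees -/

section DT

variable {ι Ω Ω' Ω'' : Type}

theorem DTE.srMono' {d d' : ℕ} {f : (ι → Bool) → Ω} (h : DTE d f) (hd : d ≤ d') : DTE d' f := by
  induction h generalizing d' with
  | const d c => exact DTE.const d' c
  | ask d i f g hf hg ihf ihg =>
    obtain ⟨e, rfl⟩ : ∃ e, d' = e + 1 := ⟨d' - 1, by omega⟩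
    exact DTE.ask e i f g (ihf (by omega)) (ihg (by omega))

theorem DTE.map' {d : ℕ} {f : (ι → Bool) → Ω} (h : DTE d f) (F : Ω → Ω') :
    DTE d (fun x => F (f x)) := by
  induction h with
  | const d c => exact DTE.const d _
  | ask d i f g hf hg ihf ihg =>
    have := DTE.ask d i _ _ ihf ihg
    convert this using 1
    funext x; by_cases hx : x i <;> simp [hx]

theorem DTE.comp2' {d d' : ℕ} {f : (ι → Bool) → Ω} {f' : (ι → Bool) → Ω'} (h : DTE d f)
    (h' : DTE d' f') (F : Ω → Ω' → Ω'') : DTE (d + d') (fun x => F (f x) (f' x)) := by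
  induction h with
  | const d c => exact (DTE.map' h' (F c)).srMono' (by omega)
  | ask d i f g hf hg ihf ihg =>
    have := DTE.ask (d + d') i _ _ ihf ihg
    convert this using 1
    · omega
    · funext x; by_cases hx : x i <;> simp [hx]

theorem DTE.list_all' {α : Type} {g : ℕ} (f : α → (ι → Bool) → Bool) (hf : ∀ a, DTE g (f a))
    (l : List α) : DTE (l.length * g) (fun x => l.all (fun a => f a x)) := by
  induction l with
  | nil => exact DTE.const _ _
  | cons a l ih =>
    have := DTE.comp2' (hf a) ih (fun u v => u && v)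
    convert this using 1
    · simp only [List.length_cons]; ring
    · funext x; simp

end DT

section

variable {ι : Type} [Fintype ι] [DecidableEq ι] [Nonempty ι]

/-! ### combinators -/

omit [Nonempty ι] in
theorem QSamp_pair {Ω Ω' : Type} [Fintype Ω] [DecidableEq Ω] [Fintype Ω'] [DecidableEq Ω']
    {q q' : ℕ} {μ : (ι → Bool) → Ω → ℝ} {ν : Ω → (ι → Bool) → Ω' → ℝ}
    (hμ : QSamp Ω q μ) (hν : ∀ ω, QSamp Ω' q' (ν ω)) :
    QSamp (Ω × Ω') (q + q') (fun x p => μ x p.1 * ν p.1 x p.2) := by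
  have h := QSamp_bind hμ (fun ω => QSamp_map (hν ω) (fun ω' => (ω, ω')))
  convert h using 1
  funext x p
  obtain ⟨a, b⟩ := p
  rw [Finset.sum_eq_single a]
  · simp
  · intro c _ hc
    simp [hc]
  · simp

theorem QSamp_iid {Ω : Type} [Fintype Ω] [DecidableEq Ω] {q : ℕ} {μ : (ι → Bool) → Ω → ℝ}
    (hμ : QSamp Ω q μ) (s : ℕ) :
    QSamp (Fin s → Ω) (s * q) (fun x v => ∏ i, μ x (v i)) := by
  induction s with
  | zero =>
    have := QSamp_const (ι := ι) (Ω := Fin 0 → Ω) (fun _ => 1) (by simp) (by simp)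
    simpa using this
  | succ s ih =>
    have h := QSamp_map (QSamp_pair hμ (fun _ => ih)) (fun p : Ω × (Fin s → Ω) =>
      (Fin.cons p.1 p.2 : Fin (s + 1) → Ω))
    convert h using 1
    · ring
    · funext x v
      rw [Finset.sum_eq_single (v 0, fun i => v (Fin.succ i))]
      · have hc : (Fin.cons (v 0) (fun i => v (Fin.succ i)) : Fin (s + 1) → Ω) = v :=
          Fin.cons_self_tail v
        show _ = if (Fin.cons (v 0) (fun i => v (Fin.succ i)) : Fin (s + 1) → Ω) = v then
          μ x (v 0) * ∏ i : Fin s, μ x (v (Fin.succ i)) else 0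
        rw [if_pos hc, Fin.prod_univ_succ]
      · rintro ⟨a, w⟩ _ hne
        rw [if_neg]
        rintro rfl
        exact hne (by simp)
      · simp

theorem QSamp_unif (Ω : Type) [Fintype Ω] [DecidableEq Ω] [Nonempty Ω] :
    QSamp (ι := ι) Ω 0 (fun _ _ => 1 / (Fintype.card Ω : ℝ)) := by
  apply QSamp_const
  · intro ω; positivity
  · simp

/-- amplitude amplification for an `x`-dependent test. -/
theorem QSamp_ampTest {Ω : Type} [Fintype Ω] [DecidableEq Ω] {q d : ℕ}
    {μ : (ι → Bool) → Ω → ℝ} (h : QSamp Ω q μ) (P : Ω → (ι → Bool) → Bool)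
    (hP : ∀ ω, DTE d (P ω)) (T : ℕ) (hT : 1 ≤ T) :
    ∃ ν : (ι → Bool) → Ω × Bool → ℝ, QSamp (Ω × Bool) ((2 * T + 1) * (q + d)) ν ∧
      ∀ x, ∃ c c' : ℝ, 0 ≤ c ∧ 0 ≤ c' ∧
      (∀ ω, ν x (ω, true) = if P ω x = true then c * μ x ω else 0) ∧
      (∀ ω, ν x (ω, false) = if P ω x = true then 0 else c' * μ x ω) ∧
      ((1 : ℝ) / (T : ℝ) ^ 2 ≤ ∑ ω, (if P ω x = true then μ x ω else 0) →
        (1 : ℝ) / 8 ≤ ∑ ω, (if P ω x = true then c * μ x ω else 0)) := by
  have h1 := QSamp_pair h (fun ω => QSamp_ofDTE (hP ω))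
  obtain ⟨ν, hν, hx⟩ := QSamp_amplify h1 (fun p : Ω × Bool => p.2 = true) T hT
  refine ⟨ν, hν, fun x => ?_⟩
  obtain ⟨c, c', hc, hc', h2, h3, h4⟩ := hx x
  refine ⟨c, c', hc, hc', ?_, ?_, ?_⟩
  · intro ω
    rw [h2 (ω, true) rfl]
    by_cases hp : P ω x = true <;> simp [hp]
  · intro ω
    rw [h3 (ω, false) (by simp)]
    by_cases hp : P ω x = true <;> simp [hp]
  · intro h5
    have e1 : ∀ f : Ω × Bool → ℝ, ∑ p : Ω × Bool, (if p.2 = true then f p else 0)
        = ∑ ω, f (ω, true) := by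
      intro f
      rw [Fintype.sum_prod_type]
      simp
    rw [e1, e1] at h4
    have e2 : ∀ ω, ν x (ω, true) = if P ω x = true then c * μ x ω else 0 := by
      intro ω
      rw [h2 (ω, true) rfl]
      by_cases hp : P ω x = true <;> simp [hp]
    simp only [e2] at h4
    apply h4
    convert h5 using 2 with ω
    by_cases hp : P ω x = true <;> simp [hp]

/-! ### small facts on laws -/

omit [Nonempty ι] in
theorem QSamp_le_one {Ω : Type} [Fintype Ω] [DecidableEq Ω] {q : ℕ} {μ : (ι → Bool) → Ω → ℝ}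
    (h : QSamp Ω q μ) (x : ι → Bool) (ω : Ω) : μ x ω ≤ 1 := by
  rw [← QSamp_sum_one h x]
  exact Finset.single_le_sum (fun ω _ => QSamp_nonneg h x ω) (Finset.mem_univ ω)

omit [Nonempty ι] in
theorem QSamp_bool {q : ℕ} {μ : (ι → Bool) → Bool → ℝ}
    (h : QSamp Bool q μ) (x : ι → Bool) : μ x true + μ x false = 1 := by
  rw [← QSamp_sum_one h x]; simp

/-! ### verification of a certificate -/

theorem verify_one (C : Type) [Fintype C] [DecidableEq C] [Nonempty C] (g' : ℕ)
    (chk : C → (ι → Bool) → Bool) (hchk : ∀ c, DTE g' (chk c)) (T' : ℕ)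
    (hT' : Fintype.card C ≤ T' ^ 2) :
    ∃ w : (ι → Bool) → Bool → ℝ, QSamp Bool ((2 * T' + 1) * g') w ∧ ∀ x,
      ((∀ c, chk c x = true) → w x true = 1) ∧ ((¬ ∀ c, chk c x = true) → w x true ≤ 7 / 8) := by
  have hT1 : 1 ≤ T' := by
    rcases Nat.eq_zero_or_pos T' with h | h
    · subst h
      have := Fintype.card_pos (α := C)
      omega
    · exact h
  obtain ⟨ν, hν, hx⟩ := QSamp_ampTest (QSamp_unif (ι := ι) C) (fun c x => ! chk c x)
    (fun c => (hchk c).map' (fun b => !b)) T' hT1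
  have hm := QSamp_map hν (fun p => ! p.2)
  rw [Nat.zero_add] at hm
  refine ⟨_, hm, fun x => ?_⟩
  have hs := QSamp_bool hm x
  obtain ⟨c, c', hc, hc', h1, h2, h3⟩ := hx x
  have e1 : (∑ ω : C × Bool, if (!ω.2) = false then ν x ω else 0) = ∑ ω : C, ν x (ω, true) := by
    rw [Fintype.sum_prod_type]
    simp
  have e2 : ∀ b : Bool, (∑ ω : C × Bool, if (!ω.2) = b then ν x ω else 0) =
    ∑ ω : C × Bool, if (!ω.2) = b then ν x ω else 0 := fun _ => rfl
  constructor
  · intro hall
    have h4 : ∑ ω : C, ν x (ω, true) = 0 := by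
      apply Finset.sum_eq_zero
      intro ω _
      rw [h1 ω]
      simp [hall ω]
    linarith
  · intro hnot
    push Not at hnot
    obtain ⟨c0, hc0⟩ := hnot
    have h5 : (1 : ℝ) / (T' : ℝ) ^ 2 ≤ ∑ ω : C, (if (!chk ω x) = true then
        1 / (Fintype.card C : ℝ) else 0) := by
      have h6 : 1 / (Fintype.card C : ℝ) ≤ ∑ ω : C, (if (!chk ω x) = true then
          1 / (Fintype.card C : ℝ) else 0) := by
        have := Finset.single_le_sum (f := fun ω : C => (if (!chk ω x) = true then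
          1 / (Fintype.card C : ℝ) else 0)) (fun ω _ => by positivity) (Finset.mem_univ c0)
        simpa [hc0] using this
      refine le_trans ?_ h6
      have hC : (0 : ℝ) < Fintype.card C := by exact_mod_cast Fintype.card_pos
      apply one_div_le_one_div_of_le hC
      exact_mod_cast hT'
    have h7 := h3 h5
    have h8 : (1 : ℝ) / 8 ≤ ∑ ω : C, ν x (ω, true) := by
      simpa only [h1] using h7
    linarith

theorem verify_many (C : Type) [Fintype C] [DecidableEq C] [Nonempty C] (g' : ℕ)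
    (chk : C → (ι → Bool) → Bool) (hchk : ∀ c, DTE g' (chk c)) (T' : ℕ)
    (hT' : Fintype.card C ≤ T' ^ 2) :
    ∃ w : (ι → Bool) → Bool → ℝ, QSamp Bool (40 * ((2 * T' + 1) * g')) w ∧ ∀ x,
      ((∀ c, chk c x = true) → w x true = 1) ∧
      ((¬ ∀ c, chk c x = true) → w x true ≤ (7 / 8) ^ 40) := by
  obtain ⟨w, hw, hx⟩ := verify_one C g' chk hchk T' hT'
  have hm := QSamp_map (QSamp_iid hw 40) (fun v : Fin 40 → Bool => decide (∀ i, v i = true))
  refine ⟨_, hm, fun x => ?_⟩
  have e : (∑ v : Fin 40 → Bool, if decide (∀ i, v i = true) = true then ∏ i, w x (v i) else 0)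
      = (w x true) ^ 40 := by
    rw [Finset.sum_eq_single (fun _ => true)]
    · simp
    · intro v _ hv
      rw [if_neg]
      simp only [decide_eq_true_eq]
      intro h
      exact hv (funext h)
    · simp
  have h0 := QSamp_nonneg hw x true
  obtain ⟨h1, h2⟩ := hx x
  constructor
  · intro hall
    show (∑ v : Fin 40 → Bool, if decide (∀ i, v i = true) = true then ∏ i, w x (v i) else 0) = 1
    rw [e, h1 hall, one_pow]
  · intro hnot
    show (∑ v : Fin 40 → Bool, if decide (∀ i, v i = true) = true then ∏ i, w x (v i) else 0) ≤ _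
    rw [e]
    exact pow_le_pow_left₀ h0 (h2 hnot) 40

/-- repeat 40 times and take the OR. -/
theorem repeat_or {q : ℕ} {w : (ι → Bool) → Bool → ℝ} (hw : QSamp Bool q w) :
    ∃ μ : (ι → Bool) → Bool → ℝ, QSamp Bool (40 * q) μ ∧ ∀ x,
      ((1 : ℝ) / 32 ≤ w x true → 2 / 3 ≤ μ x true) ∧
      (w x true ≤ (7 / 8) ^ 40 → 2 / 3 ≤ μ x false) := by
  have hm := QSamp_map (QSamp_iid hw 40) (fun v : Fin 40 → Bool => !decide (∀ i, v i = false))
  refine ⟨_, hm, fun x => ?_⟩
  have e : (∑ v : Fin 40 → Bool, if (!decide (∀ i, v i = false)) = false then ∏ i, w x (v i)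
      else 0) = (w x false) ^ 40 := by
    rw [Finset.sum_eq_single (fun _ => false)]
    · simp
    · intro v _ hv
      rw [if_neg]
      simp only [Bool.not_eq_false', decide_eq_true_eq]
      intro h
      exact hv (funext h)
    · simp
  have hs := QSamp_bool hm x
  have hb := QSamp_bool hw x
  have h0 := QSamp_nonneg hw x false
  have h0' := QSamp_nonneg hw x true
  constructor
  · intro h
    have h1 : (w x false) ^ 40 ≤ (31 / 32) ^ 40 := pow_le_pow_left₀ h0 (by linarith) 40
    have h2 : ((31 : ℝ) / 32) ^ 40 ≤ 1 / 3 := by norm_num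
    linarith
  · intro h
    have h1 : (1 : ℝ) + (40 : ℕ) * (-(w x true)) ≤ (1 + -(w x true)) ^ 40 :=
      one_add_mul_le_pow (by linarith) 40
    have h2 : (1 + -(w x true)) = w x false := by linarith
    rw [h2] at h1
    have h3 : ((7 : ℝ) / 8) ^ 40 ≤ 1 / 120 := by norm_num
    push_cast at h1
    have h4 : (2 : ℝ) / 3 ≤ (w x false) ^ 40 := by linarith
    rw [← e] at h4
    exact h4

/-! ### candidates -/

variable {N Kp : Type} [Fintype N] [DecidableEq N] [Fintype Kp] [DecidableEq Kp]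

omit [Fintype ι] [DecidableEq ι] [Nonempty ι] [Fintype N] [DecidableEq N] [Fintype Kp]
  [DecidableEq Kp] in
/-- surviving candidates: not refuted by any champion of the list. -/
def surv (ref : N → Kp → N → (ι → Bool) → Bool) (l : List (N × Kp)) (x : ι → Bool) (j : N) : Bool :=
  l.all (fun p => ! ref p.1 p.2 j x)

/-- number of surviving candidates -/
def nsurv (ref : N → Kp → N → (ι → Bool) → Bool) (l : List (N × Kp)) (x : ι → Bool) : ℕ :=
  (Finset.univ.filter (fun j => surv ref l x j = true)).card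

/-- the champion `p` passes the sample `v`. -/
def pass (ref : N → Kp → N → (ι → Bool) → Bool) {s : ℕ} (v : Fin s → N) (p : N × Kp)
    (x : ι → Bool) : Bool :=
  (List.ofFn v).all (fun j => decide (j = p.1) || ref p.1 p.2 j x)

omit [Fintype ι] [DecidableEq ι] [Nonempty ι] [Fintype N] [DecidableEq N] [Fintype Kp]
  [DecidableEq Kp] in
theorem surv_cons (ref : N → Kp → N → (ι → Bool) → Bool) (l : List (N × Kp)) (p : N × Kp)
    (x : ι → Bool) (j : N) :
    surv ref (p :: l) x j = true ↔ ref p.1 p.2 j x = false ∧ surv ref l x j = true := by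
  simp [surv]

omit [Fintype ι] [DecidableEq ι] [Nonempty ι] [Fintype N] [Fintype Kp]
  [DecidableEq Kp] in
theorem pass_iff (ref : N → Kp → N → (ι → Bool) → Bool) {s : ℕ} (v : Fin s → N) (p : N × Kp)
    (x : ι → Bool) :
    pass ref v p x = true ↔ ∀ i, v i = p.1 ∨ ref p.1 p.2 (v i) x = true := by
  unfold pass
  rw [List.all_eq_true]
  constructor
  · intro h i
    have := h (v i) (List.mem_ofFn.2 ⟨i, rfl⟩)
    simpa using this
  · intro h j hj
    obtain ⟨i, rfl⟩ := List.mem_ofFn.1 hj
    simpa using h i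

omit [Fintype Kp] [DecidableEq Kp] in
theorem sample_one [Nonempty N] (g : ℕ) (ref : N → Kp → N → (ι → Bool) → Bool)
    (href : ∀ b κ j, DTE g (ref b κ j)) (T R : ℕ) (hT : 2 * Fintype.card N ≤ T ^ 2)
    (l : List (N × Kp)) (hl : l.length ≤ R) :
    ∃ σ : (ι → Bool) → N → ℝ, QSamp N ((2 * T + 1) * (R * g)) σ ∧ ∀ x,
      (∃ j, surv ref l x j = true) →
      ∀ j, surv ref l x j = true → 1 / (8 * (nsurv ref l x : ℝ)) ≤ σ x j := by
  have hN : 0 < Fintype.card N := Fintype.card_pos
  have hT1 : 1 ≤ T := by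
    rcases Nat.eq_zero_or_pos T with h | h
    · subst h; omega
    · exact h
  have hP : ∀ j : N, DTE (R * g) (fun x => surv ref l x j) := by
    intro j
    have h := DTE.list_all' (g := g) (fun (p : N × Kp) (x : ι → Bool) => ! ref p.1 p.2 j x)
      (fun p => (href p.1 p.2 j).map' (fun b => !b)) l
    exact h.srMono' (Nat.mul_le_mul_right g hl)
  obtain ⟨ν, hν, hx⟩ := QSamp_ampTest (QSamp_unif (ι := ι) N) (fun j x => surv ref l x j) hP T hT1
  have hm := QSamp_map hν Prod.fst
  rw [Nat.zero_add] at hm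
  refine ⟨_, hm, fun x hex j hj => ?_⟩
  obtain ⟨c, c', hc, hc', h1, h2, h3⟩ := hx x
  obtain ⟨j0, hj0⟩ := hex
  have hNpos : (0 : ℝ) < Fintype.card N := by exact_mod_cast hN
  have hA : 0 < nsurv ref l x :=
    Finset.card_pos.2 ⟨j0, Finset.mem_filter.2 ⟨Finset.mem_univ _, hj0⟩⟩
  have hA' : (1 : ℝ) ≤ nsurv ref l x := by exact_mod_cast hA
  have hsum : ∀ y : ℝ, (∑ ω : N, (if surv ref l x ω = true then y else 0))
      = (nsurv ref l x : ℝ) * y := by
    intro y
    rw [← Finset.sum_filter, Finset.sum_const, nsmul_eq_mul]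
    rfl
  rw [hsum, hsum] at h3
  have h4 : (1 : ℝ) / (T : ℝ) ^ 2 ≤ (nsurv ref l x : ℝ) * (1 / (Fintype.card N : ℝ)) := by
    have hT2 : (Fintype.card N : ℝ) ≤ (T : ℝ) ^ 2 := by
      have : Fintype.card N ≤ T ^ 2 := by omega
      exact_mod_cast this
    calc (1 : ℝ) / (T : ℝ) ^ 2 ≤ 1 / (Fintype.card N : ℝ) := one_div_le_one_div_of_le hNpos hT2
      _ = 1 * (1 / (Fintype.card N : ℝ)) := by ring
      _ ≤ _ := by gcongr
  have h5 := h3 h4
  have h6 : ν x (j, true) ≤ ∑ ω : N × Bool, if ω.1 = j then ν x ω else 0 := by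
    have := Finset.single_le_sum (f := fun ω : N × Bool => if ω.1 = j then ν x ω else 0)
      (fun ω _ => by
        show 0 ≤ (if ω.1 = j then ν x ω else 0)
        split_ifs
        · exact QSamp_nonneg hν x ω
        · exact le_rfl) (Finset.mem_univ (j, true))
    simpa using this
  refine le_trans ?_ h6
  rw [h1 j, if_pos hj]
  rw [div_le_iff₀ (by positivity)]
  have : c * (1 / (Fintype.card N : ℝ)) * (8 * (nsurv ref l x : ℝ))
    = 8 * ((nsurv ref l x : ℝ) * (c * (1 / (Fintype.card N : ℝ)))) := by ring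
  rw [this]
  linarith

theorem champion [Nonempty N] (g qd : ℕ) (ref : N → Kp → N → (ι → Bool) → Bool)
    (href : ∀ b κ j, DTE g (ref b κ j)) (dec : N → (ι → Bool) → Kp → ℝ)
    (hdec : ∀ b, QSamp Kp qd (dec b)) (T : ℕ) (hT : 2 * Fintype.card N ≤ T ^ 2) {s : ℕ}
    (v : Fin s → N) :
    ∃ ρ : (ι → Bool) → N × Kp → ℝ, QSamp (N × Kp) ((2 * T + 1) * (qd + s * g)) ρ ∧ ∀ x,
      (∃ b κ, 1 / 2 ≤ dec b x κ ∧ ∀ j, j ≠ b → ref b κ j x = true) →
        1 / 8 ≤ ∑ p, if pass ref v p x = true then ρ x p else 0 := by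
  have hN : 0 < Fintype.card N := Fintype.card_pos
  have hT1 : 1 ≤ T := by
    rcases Nat.eq_zero_or_pos T with h | h
    · subst h; omega
    · exact h
  have hP : ∀ p : N × Kp, DTE (s * g) (fun x : ι → Bool => pass ref v p x) := by
    intro p
    have h := DTE.list_all' (g := g) (fun (j : N) (x : ι → Bool) =>
      decide (j = p.1) || ref p.1 p.2 j x)
      (fun j => (href p.1 p.2 j).map' (fun b => decide (j = p.1) || b)) (List.ofFn v)
    rw [List.length_ofFn] at h
    exact h
  have hbase := QSamp_pair (QSamp_unif (ι := ι) N) hdec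
  obtain ⟨ν, hν, hx⟩ := QSamp_ampTest hbase (fun p x => pass ref v p x) hP T hT1
  have hm := QSamp_map hν Prod.fst
  rw [Nat.zero_add] at hm
  refine ⟨_, hm, fun x hex => ?_⟩
  obtain ⟨c, c', hc, hc', h1, h2, h3⟩ := hx x
  obtain ⟨b, κ, hd, hr⟩ := hex
  have hNpos : (0 : ℝ) < Fintype.card N := by exact_mod_cast hN
  have hnn : ∀ p : N × Kp, 0 ≤ 1 / (Fintype.card N : ℝ) * dec p.1 x p.2 := fun p =>
    mul_nonneg (by positivity) (QSamp_nonneg (hdec p.1) x p.2)
  have hpass : pass ref v (b, κ) x = true := by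
    rw [pass_iff]
    intro i
    by_cases h : v i = b
    · exact Or.inl h
    · exact Or.inr (hr _ h)
  have h4 : (1 : ℝ) / (T : ℝ) ^ 2 ≤ ∑ p : N × Kp, (if pass ref v p x = true then
      1 / (Fintype.card N : ℝ) * dec p.1 x p.2 else 0) := by
    have h5 := Finset.single_le_sum (f := fun p : N × Kp => (if pass ref v p x = true then
      1 / (Fintype.card N : ℝ) * dec p.1 x p.2 else 0)) (fun p _ => by
        show 0 ≤ (if pass ref v p x = true then 1 / (Fintype.card N : ℝ) * dec p.1 x p.2 else 0)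
        split_ifs
        · exact hnn p
        · exact le_rfl) (Finset.mem_univ (b, κ))
    refine le_trans ?_ h5
    show _ ≤ if pass ref v (b, κ) x = true then 1 / (Fintype.card N : ℝ) * dec b x κ else 0
    rw [if_pos hpass]
    have hT2 : 2 * (Fintype.card N : ℝ) ≤ (T : ℝ) ^ 2 := by exact_mod_cast hT
    calc (1 : ℝ) / (T : ℝ) ^ 2 ≤ 1 / (2 * (Fintype.card N : ℝ)) :=
          one_div_le_one_div_of_le (by positivity) hT2
      _ = 1 / (Fintype.card N : ℝ) * (1 / 2) := by ring
      _ ≤ _ := by gcongr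
  refine le_trans (h3 h4) ?_
  apply Finset.sum_le_sum
  intro p _
  split_ifs with hp
  · have h6 : ν x (p, true) ≤ ∑ ω : (N × Kp) × Bool, if ω.1 = p then ν x ω else 0 := by
      have := Finset.single_le_sum (f := fun ω : (N × Kp) × Bool => if ω.1 = p then ν x ω else 0)
        (fun ω _ => by
          show 0 ≤ (if ω.1 = p then ν x ω else 0)
          split_ifs
          · exact QSamp_nonneg hν x ω
          · exact le_rfl) (Finset.mem_univ (p, true))
      simpa using this
    refine le_trans ?_ h6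
    rw [h1 p, if_pos hp]
  · exact le_rfl

omit [Fintype ι] [DecidableEq ι] [Nonempty ι] [DecidableEq N] [Fintype Kp]
  [DecidableEq Kp] in
theorem nsurv_cons_le (ref : N → Kp → N → (ι → Bool) → Bool) (l : List (N × Kp)) (p : N × Kp)
    (x : ι → Bool) : nsurv ref (p :: l) x ≤ nsurv ref l x := by
  classical
  unfold nsurv
  apply Finset.card_le_card
  intro j hj
  rw [Finset.mem_filter] at hj ⊢
  exact ⟨hj.1, ((surv_cons ref l p x j).1 hj.2).2⟩

/-- candidates that the champion `p` fails to refute. -/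
def missed (ref : N → Kp → N → (ι → Bool) → Bool) (l : List (N × Kp)) (p : N × Kp)
    (x : ι → Bool) : Finset N :=
  Finset.univ.filter (fun j => surv ref l x j = true ∧ j ≠ p.1 ∧ ref p.1 p.2 j x = false)

omit [Fintype ι] [DecidableEq ι] [Nonempty ι] [Fintype Kp] [DecidableEq Kp] in
theorem nsurv_cons_le_missed (ref : N → Kp → N → (ι → Bool) → Bool) (l : List (N × Kp))
    (p : N × Kp) (x : ι → Bool) : nsurv ref (p :: l) x ≤ (missed ref l p x).card + 1 := by
  have h : Finset.univ.filter (fun j => surv ref (p :: l) x j = true) ⊆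
      insert p.1 (missed ref l p x) := by
    intro j hj
    rw [Finset.mem_filter, surv_cons] at hj
    rw [Finset.mem_insert]
    by_cases hjp : j = p.1
    · exact Or.inl hjp
    · exact Or.inr (Finset.mem_filter.2 ⟨Finset.mem_univ _, hj.2.2, hjp, hj.2.1⟩)
  exact (Finset.card_le_card h).trans (Finset.card_insert_le _ _)

omit [Fintype ι] [DecidableEq ι] [Nonempty ι] [DecidableEq Kp] in
theorem halving_step (ref : N → Kp → N → (ι → Bool) → Bool) (l : List (N × Kp)) (x : ι → Bool)
    (b : N) (hb : ∀ b' κ', ref b' κ' b x = false) (σ : N → ℝ) (hσ0 : ∀ j, 0 ≤ σ j)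
    (hσ1 : ∑ j, σ j = 1)
    (hσ : ∀ j, surv ref l x j = true → 1 / (8 * (nsurv ref l x : ℝ)) ≤ σ j) (s : ℕ)
    (hs : (Fintype.card N : ℝ) * Fintype.card Kp * (23 / 24) ^ s ≤ 1 / 2)
    (ρ : (Fin s → N) → N × Kp → ℝ) (hρ0 : ∀ v p, 0 ≤ ρ v p) (hρ1 : ∀ v, ∑ p, ρ v p = 1)
    (hρ : ∀ v, 1 / 8 ≤ ∑ p, if pass ref v p x = true then ρ v p else 0) :
    ∑ v, (∏ i, σ (v i)) * ∑ p, ρ v p * ((nsurv ref (p :: l) x : ℝ) - 1)
      ≤ 47 / 48 * ((nsurv ref l x : ℝ) - 1) := by
  classical
  set A : ℝ := (nsurv ref l x : ℝ) with hA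
  have hbs : surv ref l x b = true := by
    unfold surv
    rw [List.all_eq_true]
    intro p _
    simp [hb]
  have hA0 : 0 < nsurv ref l x :=
    Finset.card_pos.2 ⟨b, Finset.mem_filter.2 ⟨Finset.mem_univ _, hbs⟩⟩
  have hA1 : 1 ≤ A := by rw [hA]; exact_mod_cast hA0
  -- bad champions
  let bad : N × Kp → Prop := fun p => A / 3 < ((missed ref l p x).card : ℝ)
  let typ : (Fin s → N) → Prop := fun v => ∀ p, bad p → pass ref v p x = false
  have hnotbad : ∀ p, ¬ bad p → (nsurv ref (p :: l) x : ℝ) - 1 ≤ 2 / 3 * (A - 1) := by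
    intro p hp
    have h1 : (nsurv ref (p :: l) x : ℝ) ≤ ((missed ref l p x).card : ℝ) + 1 := by
      exact_mod_cast nsurv_cons_le_missed ref l p x
    have h2 : ((missed ref l p x).card : ℝ) ≤ A / 3 := not_lt.1 hp
    have h3 : (nsurv ref (p :: l) x : ℝ) ≤ A := by
      rw [hA]; exact_mod_cast nsurv_cons_le ref l p x
    rcases Nat.lt_or_ge (nsurv ref l x) 2 with h4 | h4
    · have h5 : nsurv ref l x = 1 := by omega
      have h6 : A = 1 := by rw [hA, h5]; norm_num
      rw [h6] at h3 ⊢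
      linarith
    · have h5 : (2 : ℝ) ≤ A := by rw [hA]; exact_mod_cast h4
      linarith
  have hall : ∀ p, (nsurv ref (p :: l) x : ℝ) - 1 ≤ A - 1 := by
    intro p
    have h3 : (nsurv ref (p :: l) x : ℝ) ≤ A := by
      rw [hA]; exact_mod_cast nsurv_cons_le ref l p x
    linarith
  -- typical samples
  have htyp : ∀ v, typ v → ∑ p, ρ v p * ((nsurv ref (p :: l) x : ℝ) - 1) ≤ 23 / 24 * (A - 1) := by
    intro v hv
    have h1 : ∀ p, ρ v p * ((nsurv ref (p :: l) x : ℝ) - 1) ≤
        ρ v p * (A - 1) - 1 / 3 * (A - 1) * (if pass ref v p x = true then ρ v p else 0) := by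
      intro p
      split_ifs with hp
      · have hnb : ¬ bad p := by
          intro hbad
          have := hv p hbad
          rw [hp] at this
          exact absurd this (by simp)
        have := mul_le_mul_of_nonneg_left (hnotbad p hnb) (hρ0 v p)
        linarith
      · have := mul_le_mul_of_nonneg_left (hall p) (hρ0 v p)
        linarith
    calc ∑ p, ρ v p * ((nsurv ref (p :: l) x : ℝ) - 1)
        ≤ ∑ p, (ρ v p * (A - 1) - 1 / 3 * (A - 1) *
            (if pass ref v p x = true then ρ v p else 0)) := Finset.sum_le_sum (fun p _ => h1 p)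
      _ = (A - 1) - 1 / 3 * (A - 1) * ∑ p, (if pass ref v p x = true then ρ v p else 0) := by
          rw [Finset.sum_sub_distrib, ← Finset.sum_mul, hρ1, ← Finset.mul_sum]
          ring
      _ ≤ 23 / 24 * (A - 1) := by
          have := mul_le_mul_of_nonneg_left (hρ v) (by linarith : 0 ≤ 1 / 3 * (A - 1))
          linarith
  have hany : ∀ v, ∑ p, ρ v p * ((nsurv ref (p :: l) x : ℝ) - 1) ≤ A - 1 := by
    intro v
    calc ∑ p, ρ v p * ((nsurv ref (p :: l) x : ℝ) - 1) ≤ ∑ p, ρ v p * (A - 1) :=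
          Finset.sum_le_sum (fun p _ => mul_le_mul_of_nonneg_left (hall p) (hρ0 v p))
      _ = A - 1 := by rw [← Finset.sum_mul, hρ1, one_mul]
  -- probability of atypical samples
  have hprod0 : ∀ v : Fin s → N, 0 ≤ ∏ i, σ (v i) := fun v => Finset.prod_nonneg (fun i _ => hσ0 _)
  have hprod1 : ∑ v : Fin s → N, ∏ i, σ (v i) = 1 := by
    rw [← Fintype.sum_pow, hσ1, one_pow]
  have hbadp : ∀ p, bad p → ∑ v : Fin s → N, (if pass ref v p x = true then ∏ i, σ (v i) else 0)
      ≤ (23 / 24) ^ s := by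
    intro p hp
    let τ : N → ℝ := fun j => if j ∈ missed ref l p x then 0 else σ j
    have hτ0 : ∀ j, 0 ≤ τ j := by
      intro j
      show 0 ≤ if j ∈ missed ref l p x then 0 else σ j
      split_ifs
      · exact le_rfl
      · exact hσ0 j
    have h1 : ∀ v : Fin s → N, (if pass ref v p x = true then ∏ i, σ (v i) else 0)
        ≤ ∏ i, τ (v i) := by
      intro v
      split_ifs with hv
      · rw [pass_iff] at hv
        apply le_of_eq
        apply Finset.prod_congr rfl
        intro i _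
        show σ (v i) = if v i ∈ missed ref l p x then 0 else σ (v i)
        rw [if_neg]
        intro hmem
        obtain ⟨_, h2, h3, h4⟩ := Finset.mem_filter.1 hmem
        rcases hv i with h5 | h5
        · exact h3 h5
        · rw [h4] at h5; exact absurd h5 (by simp)
      · exact Finset.prod_nonneg (fun i _ => hτ0 _)
    refine le_trans (Finset.sum_le_sum (fun v _ => h1 v)) ?_
    rw [← Fintype.sum_pow]
    apply pow_le_pow_left₀ (Finset.sum_nonneg (fun j _ => hτ0 j))
    have h2 : ∑ j, τ j = 1 - ∑ j ∈ missed ref l p x, σ j := by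
      have h3 : ∑ j, τ j + ∑ j ∈ missed ref l p x, σ j = ∑ j, σ j := by
        have : ∑ j ∈ missed ref l p x, σ j = ∑ j, (if j ∈ missed ref l p x then σ j else 0) := by
          rw [← Finset.sum_filter]; congr 1; ext j; simp
        rw [this, ← Finset.sum_add_distrib]
        apply Finset.sum_congr rfl
        intro j _
        show (if j ∈ missed ref l p x then 0 else σ j) + _ = _
        split_ifs <;> simp
      linarith
    have h3 : ((missed ref l p x).card : ℝ) * (1 / (8 * A)) ≤ ∑ j ∈ missed ref l p x, σ j := by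
      rw [← nsmul_eq_mul]
      apply Finset.card_nsmul_le_sum
      intro j hj
      exact hσ j (Finset.mem_filter.1 hj).2.1
    have h4 : (1 : ℝ) / 24 ≤ ((missed ref l p x).card : ℝ) * (1 / (8 * A)) := by
      have h5 : A / 3 * (1 / (8 * A)) ≤ ((missed ref l p x).card : ℝ) * (1 / (8 * A)) := by
        apply mul_le_mul_of_nonneg_right hp.le
        positivity
      have h6 : A / 3 * (1 / (8 * A)) = 1 / 24 := by
        field_simp
        norm_num
      linarith
    linarith
  have hatyp : ∑ v : Fin s → N, (if typ v then 0 else ∏ i, σ (v i)) ≤ 1 / 2 := by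
    have h1 : ∀ v : Fin s → N, (if typ v then 0 else ∏ i, σ (v i)) ≤
        ∑ p, (if bad p then (if pass ref v p x = true then ∏ i, σ (v i) else 0) else 0) := by
      intro v
      have hnn : ∀ p ∈ (Finset.univ : Finset (N × Kp)),
          0 ≤ (if bad p then (if pass ref v p x = true then ∏ i, σ (v i) else 0) else 0) := by
        intro p _
        split_ifs
        · exact hprod0 v
        · exact le_rfl
        · exact le_rfl
      split_ifs with hv
      · exact Finset.sum_nonneg hnn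
      · have : ∃ p, bad p ∧ pass ref v p x = true := by
          by_contra hcon
          push Not at hcon
          exact hv (fun p hp => by simpa using hcon p hp)
        obtain ⟨p, hp, hpp⟩ := this
        have h2 := Finset.single_le_sum hnn (Finset.mem_univ p)
        rw [if_pos hp, if_pos hpp] at h2
        exact h2
    calc ∑ v : Fin s → N, (if typ v then 0 else ∏ i, σ (v i))
        ≤ ∑ v : Fin s → N, ∑ p, (if bad p then (if pass ref v p x = true then ∏ i, σ (v i)
            else 0) else 0) := Finset.sum_le_sum (fun v _ => h1 v)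
      _ = ∑ p, ∑ v : Fin s → N, (if bad p then (if pass ref v p x = true then ∏ i, σ (v i)
            else 0) else 0) := Finset.sum_comm
      _ ≤ ∑ p : N × Kp, (23 / 24 : ℝ) ^ s := by
          apply Finset.sum_le_sum
          intro p _
          by_cases hp : bad p
          · simp only [if_pos hp]
            exact hbadp p hp
          · simp only [if_neg hp, Finset.sum_const_zero]
            positivity
      _ = (Fintype.card N : ℝ) * Fintype.card Kp * (23 / 24) ^ s := by
          rw [Finset.sum_const, nsmul_eq_mul, Finset.card_univ, Fintype.card_prod]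
          push_cast
          ring
      _ ≤ 1 / 2 := hs
  -- conclusion
  have hfin : ∀ v : Fin s → N, (∏ i, σ (v i)) * ∑ p, ρ v p * ((nsurv ref (p :: l) x : ℝ) - 1) ≤
      23 / 24 * (A - 1) * (∏ i, σ (v i)) + 1 / 24 * (A - 1) *
        (if typ v then 0 else ∏ i, σ (v i)) := by
    intro v
    split_ifs with hv
    · have := mul_le_mul_of_nonneg_left (htyp v hv) (hprod0 v)
      linarith
    · have := mul_le_mul_of_nonneg_left (hany v) (hprod0 v)
      linarith
  calc ∑ v, (∏ i, σ (v i)) * ∑ p, ρ v p * ((nsurv ref (p :: l) x : ℝ) - 1)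
      ≤ ∑ v : Fin s → N, (23 / 24 * (A - 1) * (∏ i, σ (v i)) + 1 / 24 * (A - 1) *
        (if typ v then 0 else ∏ i, σ (v i))) := Finset.sum_le_sum (fun v _ => hfin v)
    _ = 23 / 24 * (A - 1) + 1 / 24 * (A - 1) *
        ∑ v : Fin s → N, (if typ v then 0 else ∏ i, σ (v i)) := by
        rw [Finset.sum_add_distrib, ← Finset.mul_sum, ← Finset.mul_sum, hprod1, mul_one]
    _ ≤ 47 / 48 * (A - 1) := by
        have := mul_le_mul_of_nonneg_left hatyp (by linarith : 0 ≤ 1 / 24 * (A - 1))
        linarith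

/-! ### one trial -/

theorem trial {C : Type} [Fintype C] [DecidableEq C] [Nonempty N] [Nonempty Kp] [Nonempty C]
    (g g' qd : ℕ)
    (ref : N → Kp → N → (ι → Bool) → Bool) (href : ∀ b κ j, DTE g (ref b κ j))
    (chk : N → Kp → C → (ι → Bool) → Bool) (hchk : ∀ b κ c, DTE g' (chk b κ c))
    (dec : N → (ι → Bool) → Kp → ℝ) (hdec : ∀ b, QSamp Kp qd (dec b))
    (h1 : ∀ x b κ, (∀ c, chk b κ c x = true) → 1 / 2 ≤ dec b x κ)
    (h2 : ∀ x b κ, (∀ c, chk b κ c x = true) → ∀ j, j ≠ b → ref b κ j x = true)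
    (h3 : ∀ x b κ, (∀ c, chk b κ c x = true) → ∀ b' κ', ref b' κ' b x = false)
    (T T' R s : ℕ) (hT : 2 * Fintype.card N ≤ T ^ 2) (hT' : Fintype.card C ≤ T' ^ 2)
    (hs : (Fintype.card N : ℝ) * Fintype.card Kp * (23 / 24) ^ s ≤ 1 / 2) (m : ℕ) :
    ∀ l : List (N × Kp), l.length + m ≤ R → ∃ μ : (ι → Bool) → Bool → ℝ,
      QSamp Bool (m * (s * ((2 * T + 1) * (R * g)) + (2 * T + 1) * (qd + s * g)) +
        ((2 * T + 1) * (R * g) + qd + 40 * ((2 * T' + 1) * g'))) μ ∧ ∀ x,
        ((¬ ∃ b κ, ∀ c, chk b κ c x = true) → μ x true ≤ (7 / 8) ^ 40) ∧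
        ((∃ b κ, ∀ c, chk b κ c x = true) →
          1 / 16 * (1 - (47 / 48) ^ m * ((nsurv ref l x : ℝ) - 1)) ≤ μ x true) := by
  have hsv : ∀ (l : List (N × Kp)) (x : ι → Bool) (b : N), (∀ b' κ', ref b' κ' b x = false) →
      surv ref l x b = true := by
    intro l x b hb
    unfold surv
    rw [List.all_eq_true]
    intro p _
    simp [hb]
  induction m with
  | zero =>
    intro l hl
    obtain ⟨σ, hσ, hσx⟩ := sample_one g ref href T R hT l (by omega)
    choose w hw hwx using fun p : N × Kp => verify_many C g' (chk p.1 p.2) (hchk p.1 p.2) T' hT'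
    have hpair := QSamp_pair hσ hdec
    have hfin := QSamp_bind hpair hw
    rw [Nat.zero_mul, Nat.zero_add]
    refine ⟨_, hfin, fun x => ⟨?_, ?_⟩⟩
    · intro hno
      have hle : ∀ p : N × Kp, w p x true ≤ (7 / 8) ^ 40 := by
        intro p
        apply (hwx p x).2
        intro hall
        exact hno ⟨p.1, p.2, hall⟩
      calc ∑ p : N × Kp, σ x p.1 * dec p.1 x p.2 * w p x true
          ≤ ∑ p : N × Kp, σ x p.1 * dec p.1 x p.2 * (7 / 8) ^ 40 := by
            apply Finset.sum_le_sum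
            intro p _
            exact mul_le_mul_of_nonneg_left (hle p)
              (mul_nonneg (QSamp_nonneg hσ x _) (QSamp_nonneg (hdec _) x _))
        _ = (7 / 8) ^ 40 := by
            rw [← Finset.sum_mul, QSamp_sum_one hpair x, one_mul]
    · rintro ⟨b, κ, hv⟩
      have hb := h3 x b κ hv
      have hbs := hsv l x b hb
      have hσb := hσx x ⟨b, hbs⟩ b hbs
      have hd := h1 x b κ hv
      have hwb : w (b, κ) x true = 1 := (hwx (b, κ) x).1 hv
      have hnn : ∀ p ∈ (Finset.univ : Finset (N × Kp)),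
          0 ≤ σ x p.1 * dec p.1 x p.2 * w p x true := fun p _ =>
        mul_nonneg (mul_nonneg (QSamp_nonneg hσ x _) (QSamp_nonneg (hdec _) x _))
          (QSamp_nonneg (hw p) x _)
      have hge := Finset.single_le_sum hnn (Finset.mem_univ (b, κ))
      have hA0 : 0 < nsurv ref l x :=
        Finset.card_pos.2 ⟨b, Finset.mem_filter.2 ⟨Finset.mem_univ _, hbs⟩⟩
      show _ ≤ ∑ p : N × Kp, σ x p.1 * dec p.1 x p.2 * w p x true
      rcases Nat.lt_or_ge (nsurv ref l x) 2 with h4 | h4
      · have h5 : nsurv ref l x = 1 := by omega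
        rw [h5] at hσb ⊢
        refine le_trans ?_ hge
        simp only [hwb, mul_one]
        have h6 : (1 : ℝ) / 8 ≤ σ x b := by norm_num at hσb ⊢; exact hσb
        have h7 : (1 : ℝ) / 8 * (1 / 2) ≤ σ x b * dec b x κ :=
          mul_le_mul h6 hd (by norm_num) (QSamp_nonneg hσ x b)
        norm_num at h7 ⊢
        exact h7
      · have h5 : (2 : ℝ) ≤ nsurv ref l x := by exact_mod_cast h4
        refine le_trans ?_ (Finset.sum_nonneg hnn)
        rw [pow_zero]
        linarith
  | succ m ih =>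
    intro l hl
    obtain ⟨σ, hσ, hσx⟩ := sample_one g ref href T R hT l (by omega)
    have hτ := QSamp_iid hσ s
    choose ρ hρ hρx using fun v : Fin s → N => champion g qd ref href dec hdec T hT v
    choose μ hμ hμx using fun p : N × Kp => ih (p :: l) (by rw [List.length_cons]; omega)
    have hpair := QSamp_pair hτ hρ
    have hfin := QSamp_bind hpair (fun p : (Fin s → N) × (N × Kp) => hμ p.2)
    refine ⟨fun x ω' => ∑ ω : (Fin s → N) × (N × Kp),
      (∏ i, σ x (ω.1 i)) * ρ ω.1 x ω.2 * μ ω.2 x ω', ?_, fun x => ⟨?_, ?_⟩⟩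
    · convert hfin using 1
      ring
    · intro hno
      have hle : ∀ p : N × Kp, μ p x true ≤ (7 / 8) ^ 40 := fun p => (hμx p x).1 hno
      calc ∑ ω : (Fin s → N) × (N × Kp), (∏ i, σ x (ω.1 i)) * ρ ω.1 x ω.2 * μ ω.2 x true
          ≤ ∑ ω : (Fin s → N) × (N × Kp), (∏ i, σ x (ω.1 i)) * ρ ω.1 x ω.2 * (7 / 8) ^ 40 := by
            apply Finset.sum_le_sum
            intro ω _
            exact mul_le_mul_of_nonneg_left (hle ω.2)
              (mul_nonneg (Finset.prod_nonneg (fun i _ => QSamp_nonneg hσ x _))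
                (QSamp_nonneg (hρ _) x _))
        _ = (7 / 8) ^ 40 := by
            rw [← Finset.sum_mul, QSamp_sum_one hpair x, one_mul]
    · intro hex
      obtain ⟨b, κ, hv⟩ := id hex
      have hb := h3 x b κ hv
      have hbs := hsv l x b hb
      have hρv : ∀ v : Fin s → N, 1 / 8 ≤ ∑ p, if pass ref v p x = true then ρ v x p else 0 :=
        fun v => hρx v x ⟨b, κ, h1 x b κ hv, h2 x b κ hv⟩
      have hstep := halving_step ref l x b hb (σ x) (fun j => QSamp_nonneg hσ x j)
        (QSamp_sum_one hσ x) (hσx x ⟨b, hbs⟩) s hs (fun v p => ρ v x p)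
        (fun v p => QSamp_nonneg (hρ v) x p) (fun v => QSamp_sum_one (hρ v) x) hρv
      have hge : ∀ p : N × Kp, 1 / 16 * (1 - (47 / 48) ^ m * ((nsurv ref (p :: l) x : ℝ) - 1))
          ≤ μ p x true := fun p => (hμx p x).2 hex
      have hpw : (0 : ℝ) ≤ (47 / 48) ^ m := by positivity
      calc 1 / 16 * (1 - (47 / 48) ^ (m + 1) * ((nsurv ref l x : ℝ) - 1))
          = 1 / 16 * (1 - (47 / 48) ^ m * (47 / 48 * ((nsurv ref l x : ℝ) - 1))) := by
            rw [pow_succ]; ring
        _ ≤ 1 / 16 * (1 - (47 / 48) ^ m * ∑ v : Fin s → N, (∏ i, σ x (v i)) *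
              ∑ p, ρ v x p * ((nsurv ref (p :: l) x : ℝ) - 1)) := by
            have := mul_le_mul_of_nonneg_left hstep hpw
            linarith
        _ = ∑ ω : (Fin s → N) × (N × Kp), (∏ i, σ x (ω.1 i)) * ρ ω.1 x ω.2 *
              (1 / 16 * (1 - (47 / 48) ^ m * ((nsurv ref (ω.2 :: l) x : ℝ) - 1))) := by
            have e1 : ∑ ω : (Fin s → N) × (N × Kp), (∏ i, σ x (ω.1 i)) * ρ ω.1 x ω.2 = 1 :=
              QSamp_sum_one hpair x
            have e2 : ∑ ω : (Fin s → N) × (N × Kp), (∏ i, σ x (ω.1 i)) * ρ ω.1 x ω.2 *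
                ((nsurv ref (ω.2 :: l) x : ℝ) - 1) = ∑ v : Fin s → N, (∏ i, σ x (v i)) *
              ∑ p, ρ v x p * ((nsurv ref (p :: l) x : ℝ) - 1) := by
              rw [Fintype.sum_prod_type]
              apply Finset.sum_congr rfl
              intro v _
              rw [Finset.mul_sum]
              apply Finset.sum_congr rfl
              intro p _
              ring
            have e3 : ∀ ω : (Fin s → N) × (N × Kp), (∏ i, σ x (ω.1 i)) * ρ ω.1 x ω.2 *
              (1 / 16 * (1 - (47 / 48) ^ m * ((nsurv ref (ω.2 :: l) x : ℝ) - 1))) =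
              1 / 16 * ((∏ i, σ x (ω.1 i)) * ρ ω.1 x ω.2) - 1 / 16 * (47 / 48) ^ m *
                ((∏ i, σ x (ω.1 i)) * ρ ω.1 x ω.2 * ((nsurv ref (ω.2 :: l) x : ℝ) - 1)) := by
              intro ω; ring
            rw [Finset.sum_congr rfl (fun ω _ => e3 ω), Finset.sum_sub_distrib, ← Finset.mul_sum,
              ← Finset.mul_sum, e1, e2]
            ring
        _ ≤ ∑ ω : (Fin s → N) × (N × Kp), (∏ i, σ x (ω.1 i)) * ρ ω.1 x ω.2 * μ ω.2 x true := by
            apply Finset.sum_le_sum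
            intro ω _
            exact mul_le_mul_of_nonneg_left (hge ω.2)
              (mul_nonneg (Finset.prod_nonneg (fun i _ => QSamp_nonneg hσ x _))
                (QSamp_nonneg (hρ _) x _))

/-- number of queries of the abstract search -/
def Qbound (T T' R s g g' qd : ℕ) : ℕ :=
  40 * (R * (s * ((2 * T + 1) * (R * g)) + (2 * T + 1) * (qd + s * g)) + (2 * T + 1) * (R * g)
    + qd + 40 * ((2 * T' + 1) * g'))

end

/-- T4 (Search): abstract pointer search by halving. `chk b κ c` are the local checks of the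
certificate `(b, κ)`; `ref b κ j` says that the sheet of `(b, κ)` refutes `j`. -/
theorem abstract_search {ι : Type} [Fintype ι] [DecidableEq ι] [Nonempty ι] (N Kp C : Type)
    [Fintype N] [DecidableEq N] [Fintype Kp]
    [DecidableEq Kp] [Fintype C] [DecidableEq C] [Nonempty N] [Nonempty Kp] [Nonempty C]
    (g g' qd : ℕ)
    (ref : N → Kp → N → (ι → Bool) → Bool) (href : ∀ b κ j, DTE g (ref b κ j))
    (chk : N → Kp → C → (ι → Bool) → Bool) (hchk : ∀ b κ c, DTE g' (chk b κ c))
    (dec : N → (ι → Bool) → Kp → ℝ) (hdec : ∀ b, QSamp Kp qd (dec b))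
    (h1 : ∀ x b κ, (∀ c, chk b κ c x = true) → 1 / 2 ≤ dec b x κ)
    (h2 : ∀ x b κ, (∀ c, chk b κ c x = true) → ∀ j, j ≠ b → ref b κ j x = true)
    (h3 : ∀ x b κ, (∀ c, chk b κ c x = true) → ∀ b' κ', ref b' κ' b x = false)
    (T T' R s : ℕ) (hT : 2 * Fintype.card N ≤ T ^ 2) (hT' : Fintype.card C ≤ T' ^ 2)
    (hR : (Fintype.card N : ℝ) * (47 / 48) ^ R ≤ 1 / 2)
    (hs : (Fintype.card N : ℝ) * Fintype.card Kp * (23 / 24) ^ s ≤ 1 / 2) :
    ∃ μ : (ι → Bool) → Bool → ℝ, QSamp Bool (Qbound T T' R s g g' qd) μ ∧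
      ∀ (x : ι → Bool) (v : Bool), (v = true ↔ ∃ b κ, ∀ c, chk b κ c x = true) →
        2 / 3 ≤ μ x v := by
  obtain ⟨w, hw, hwx⟩ := trial g g' qd ref href chk hchk dec hdec h1 h2 h3 T T' R s hT hT' hs R []
    (by simp)
  obtain ⟨μ, hμ, hμx⟩ := repeat_or hw
  refine ⟨μ, ?_, ?_⟩
  · convert hμ using 1
    unfold Qbound
    ring
  · intro x v hv
    by_cases hex : ∃ b κ, ∀ c, chk b κ c x = true
    · have hvt : v = true := hv.2 hex
      rw [hvt]
      apply (hμx x).1
      refine le_trans ?_ ((hwx x).2 hex)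
      have hn : nsurv ref ([] : List (N × Kp)) x = Fintype.card N := by
        unfold nsurv surv
        simp
      rw [hn]
      have : (47 / 48 : ℝ) ^ R * ((Fintype.card N : ℝ) - 1) ≤ 1 / 2 := by
        have hpw : (0 : ℝ) ≤ (47 / 48) ^ R := by positivity
        nlinarith
      linarith
    · have hvf : v = false := by
        cases v with
        | false => rfl
        | true => exact absurd (hv.1 rfl) hex
      rw [hvf]
      exact (hμx x).2 ((hwx x).1 hex)

end Crest.Agent.R350
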