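import Crest.Agent.R350.Func
import Crest.Agent.R350.Search
import Crest.Agent.R350.Decode
import Crest.Agent.R350.GoodProb
import Crest.Agent.R350.Lower
import Crest.Agent.R350.ForrLB

/-! Row 350 (S0554): final assembly (T9). -/

set_option autoImplicit false

namespace Crest.Agent.R350.Final

open Finset Crest.Agent.R350 Crest.MathPhysics.Query


/-- a product of probability vectors over independent copies is a probability vector -/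
theorem sum_prod_copies {L ξ : Type} [Fintype L] [DecidableEq L] [Fintype ξ] [DecidableEq ξ]
    (φ : L → (ξ → Bool) → ℝ) (h : ∀ l, ∑ y, φ l y = 1) :
    ∑ z : L × ξ → Bool, ∏ l, φ l (fun i => z (l, i)) = 1 := by
  have h1 : ∑ z : L × ξ → Bool, ∏ l, φ l (fun i => z (l, i))
      = ∑ z : L → ξ → Bool, ∏ l, φ l (z l) := by
    refine Fintype.sum_equiv (Equiv.curry L ξ Bool) _ _ ?_
    intro z
    rfl
  rw [h1]
  have h2 := Finset.prod_univ_sum (κ := fun _ : L => (ξ → Bool)) (fun _ => Finset.univ) φ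
  rw [Fintype.piFinset_univ] at h2
  rw [← h2]
  exact Finset.prod_eq_one (fun l _ => h l)

/-- the secret length -/
def tau (t : ℕ) : ℕ := 2 * t + 10

/-- number of copies -/
noncomputable def SS (δ : ℝ) (t : ℕ) : ℕ := ⌈384 * (tau t : ℝ) * (((2 : ℝ) ^ t) ^ δ) ^ 2⌉₊

/-- number of samples of the decoder -/
noncomputable def TT0 (δ : ℝ) (t : ℕ) : ℕ := ⌈32 * (tau t : ℝ) * (((2 : ℝ) ^ t) ^ δ) ^ 2⌉₊

/-- Grover bound -/
def TT (t : ℕ) : ℕ := 2 ^ ((t + 2) / 2)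

/-- `A0` -/
noncomputable def AA (k : ℕ) (δ : ℝ) (t : ℕ) : ℕ :=
  2 + tau t * SS δ t * (k + 1) * (t + 1) + tau t

/-- depth of the block algorithm -/
noncomputable def dd (k : ℕ) (δ : ℝ) (t : ℕ) : ℕ :=
  ⌊((2 : ℝ) ^ t) ^ (1 - 1 / ((k : ℝ) + 1) - 8 * δ)⌋₊

/-- query cost for parameter `t` -/
noncomputable def QQ (k : ℕ) (δ : ℝ) (t : ℕ) : ℕ :=
  Qbound (TT t) (TT t * AA k δ t) (100 * (t + 1)) (24 * (t + tau t + 1)) (t + 1)
    ((SS δ t + 3) * (t * (k + 1) + 3) + t + 2) (tau t * (TT0 δ t * (k + 1)))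

/-- The combinatorial heart of the assembly, for one value of `t`. -/
theorem one_t (k : ℕ) (δ : ℝ) (hδ : 0 < δ) (t : ℕ)
    (μ : (Fin (k + 1) × NN t → Bool) → ℝ) (h0 : ∀ x, 0 ≤ μ x) (h1 : ∑ x, μ x = 1)
    (hμ : ((2 : ℝ) ^ t) ^ (-δ) ≤ ∑ x, μ x * phi k t (fun a i => x (a, i)))
    (hadv : ∀ d : ℕ, (d : ℝ) ≤ ((2 : ℝ) ^ t) ^ (1 - 1 / ((k : ℝ) + 1) - 8 * δ) →
        ∀ f : (Fin (k + 1) × NN t → Bool) → ℝ, DTC d f →
          |∑ x, μ x * f x - (∑ x, f x) / Fintype.card (Fin (k + 1) × NN t → Bool)|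
            ≤ ((2 : ℝ) ^ t) ^ (-(4 * δ)))
    (hd : 1 ≤ dd k δ t)
    (hsmall : (dd k δ t : ℝ) / 2 ^ t + (dd k δ t : ℝ) / 2 ^ (tau t)
      + 2 * ((tau t : ℝ) * SS δ t * ((2 : ℝ) ^ t) ^ (-(4 * δ))) ≤ 1 / 24) :
    ∃ (n : ℕ) (F : (Fin n → Bool) → Bool), QuantumComputes F (QQ k δ t) ∧
      ∀ r : ℕ, RandomizedComputes F r → (dd k δ t : ℝ) * 2 ^ t / 4 ≤ r := by
  classical
  set X : ℝ := ((2 : ℝ) ^ t) ^ δ with hX
  have h2t : (1 : ℝ) ≤ (2 : ℝ) ^ t := one_le_pow₀ (by norm_num)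
  have h2t0 : (0 : ℝ) < (2 : ℝ) ^ t := by positivity
  have hX0 : 0 < X := Real.rpow_pos_of_pos h2t0 _
  have hX1 : 1 ≤ X := Real.one_le_rpow h2t hδ.le
  have hXinv : ((2 : ℝ) ^ t) ^ (-δ) = X⁻¹ := by rw [Real.rpow_neg h2t0.le]
  set θ : ℝ := X⁻¹ with hθ
  have hθ0 : 0 < θ := inv_pos.mpr hX0
  have hτ1 : 1 ≤ tau t := by unfold tau; omega
  have hτ1' : (1 : ℝ) ≤ tau t := by exact_mod_cast hτ1
  set τ := tau t with hτ
  set S := SS δ t with hSdef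
  have hSle : 384 * (τ : ℝ) * X ^ 2 ≤ S := by
    rw [hSdef]; unfold SS; exact Nat.le_ceil _
  have hS1 : 1 ≤ S := by
    have : (0 : ℝ) < S := lt_of_lt_of_le (by positivity) hSle
    exact_mod_cast this
  have hT0le : 32 * (τ : ℝ) * X ^ 2 ≤ TT0 δ t := by
    unfold TT0; exact Nat.le_ceil _
  obtain ⟨η, C, iη, dη, iC, dC, nC, content, ref, chk, href, hchk, hcard, hgood, hrefj, hrefb,
    hplant, hnull⟩ := func_exists k t τ S hS1 (θ / 4) (3 * θ / 4)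
  let ι : Type := (NN t × NN t) ⊕ (NN t × ZI k t τ S) ⊕ (NN t × (Fin τ → Bool) × η)
  haveI : Nonempty ι := ⟨Sum.inl (fun _ => false, fun _ => false)⟩
  have hθd : 3 * θ / 4 - θ / 4 = θ / 2 := by ring
  have hdec : ∀ b : NN t, ∃ dec : (ι → Bool) → (Fin τ → Bool) → ℝ,
      QSamp (ι := ι) (Fin τ → Bool) (τ * (TT0 δ t * (k + 1))) dec ∧
      ∀ x κ, Good k t τ S (θ / 4) (3 * θ / 4) κ (fun w => x (Sum.inr (Sum.inl (b, w)))) →
        1 / 2 ≤ dec x κ := by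
    intro b
    refine decode_exists (ι := ι) k t τ S (TT0 δ t) hS1 hτ1 (θ / 4) (3 * θ / 4) (by linarith) ?_
      (fun w => Sum.inr (Sum.inl (b, w)))
    rw [hθd]
    have : 8 * (τ : ℝ) / (θ / 2) ^ 2 = 32 * (τ : ℝ) * X ^ 2 := by
      rw [hθ]; field_simp; ring
    rw [this]; exact hT0le
  choose dec hdec1 hdec2 using hdec
  -- the quantum algorithm
  have hTT : 2 * Fintype.card (NN t) ≤ (TT t) ^ 2 := by
    have : Fintype.card (NN t) = 2 ^ t := by simp [NN]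
    rw [this]; unfold TT
    rw [← pow_mul, ← pow_succ']
    exact Nat.pow_le_pow_right (by norm_num) (by omega)
  have hTT' : Fintype.card C ≤ (TT t * AA k δ t) ^ 2 := by
    refine hcard.trans ?_
    have h3 : 2 ^ t ≤ (TT t) ^ 2 := by
      have : Fintype.card (NN t) = 2 ^ t := by simp [NN]
      rw [this] at hTT; omega
    have h4 : 2 + τ * S * (k + 1) * (t + 1) + τ ≤ (AA k δ t) ^ 2 := by
      have : 2 + τ * S * (k + 1) * (t + 1) + τ = AA k δ t := rfl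
      rw [this]
      exact Nat.le_self_pow (by norm_num) _
    calc 2 ^ t * (2 + τ * S * (k + 1) * (t + 1) + τ) ≤ (TT t) ^ 2 * (AA k δ t) ^ 2 :=
          Nat.mul_le_mul h3 h4
      _ = _ := by ring
  have hR : (Fintype.card (NN t) : ℝ) * (47 / 48) ^ (100 * (t + 1)) ≤ 1 / 2 := by
    have : Fintype.card (NN t) = 2 ^ t := by simp [NN]
    rw [this, pow_mul]
    have h5 : ((47 : ℝ) / 48) ^ 100 ≤ 1 / 2 := by norm_num
    have h6 : (((47 : ℝ) / 48) ^ 100) ^ (t + 1) ≤ (1 / 2) ^ (t + 1) :=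
      pow_le_pow_left₀ (by positivity) h5 _
    calc ((2 ^ t : ℕ) : ℝ) * (((47 : ℝ) / 48) ^ 100) ^ (t + 1)
        ≤ ((2 ^ t : ℕ) : ℝ) * (1 / 2) ^ (t + 1) := by gcongr
      _ = 1 / 2 := by
          push_cast
          rw [pow_succ, ← mul_assoc, ← mul_pow]; norm_num
  have hs : (Fintype.card (NN t) : ℝ) * Fintype.card (Fin τ → Bool)
      * (23 / 24) ^ (24 * (t + τ + 1)) ≤ 1 / 2 := by
    have : Fintype.card (NN t) = 2 ^ t := by simp [NN]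
    rw [this]
    have : Fintype.card (Fin τ → Bool) = 2 ^ τ := by simp
    rw [this, pow_mul]
    have h5 : ((23 : ℝ) / 24) ^ 24 ≤ 1 / 2 := by norm_num
    have h6 : (((23 : ℝ) / 24) ^ 24) ^ (t + τ + 1) ≤ (1 / 2) ^ (t + τ + 1) :=
      pow_le_pow_left₀ (by positivity) h5 _
    calc ((2 ^ t : ℕ) : ℝ) * ((2 ^ τ : ℕ) : ℝ) * (((23 : ℝ) / 24) ^ 24) ^ (t + τ + 1)
        ≤ ((2 ^ t : ℕ) : ℝ) * ((2 ^ τ : ℕ) : ℝ) * (1 / 2) ^ (t + τ + 1) := by gcongr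
      _ = 1 / 2 := by
          push_cast
          rw [← pow_add, pow_succ, ← mul_assoc, ← mul_pow]; norm_num
  obtain ⟨ρ, hρ1, hρ2⟩ := abstract_search (ι := ι) (NN t) (Fin τ → Bool) C (t + 1)
    ((S + 3) * (t * (k + 1) + 3) + t + 2) (τ * (TT0 δ t * (k + 1))) ref href chk hchk dec hdec1
    (fun x b κ h => hdec2 b x κ (hgood x b κ h)) hrefj hrefb (TT t) (TT t * AA k δ t)
    (100 * (t + 1)) (24 * (t + τ + 1)) hTT hTT' hR hs
  let F0 : (ι → Bool) → Bool := fun x => decide (∃ b κ, ∀ c, chk b κ c x = true)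
  let e : ι ≃ Fin (Fintype.card ι) := Fintype.equivFin ι
  refine ⟨Fintype.card ι, fun y => F0 (fun i => y (e i)), ?_, ?_⟩
  · have hq := QSamp_reindex e hρ1
    refine QSamp_computes hq ?_
    intro y
    refine hρ2 _ _ ?_
    simp only [F0, decide_eq_true_eq]
  · intro r hr
    have hcomp : RComp F0 r := rcomp_of e F0 r hr
    set L := Fin τ × Fin S with hL
    set μ0 : (Fin (k + 1) × NN t → Bool) → ℝ :=
      fun _ => 1 / (Fintype.card (Fin (k + 1) × NN t → Bool) : ℝ) with hμ0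
    have hcardpos : (0 : ℝ) < (Fintype.card (Fin (k + 1) × NN t → Bool) : ℝ) := by
      exact_mod_cast Fintype.card_pos
    let ν : (Fin τ → Bool) → (ZI k t τ S → Bool) → ℝ := fun κ z =>
      ∏ l : Fin τ × Fin S, (if κ l.1 then μ (fun i => z (l, i))
        else 1 / (Fintype.card (Fin (k + 1) × NN t → Bool) : ℝ))
    have hν0 : ∀ κ z, 0 ≤ ν κ z := by
      intro κ z
      refine Finset.prod_nonneg (fun l _ => ?_)
      split_ifs
      · exact h0 _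
      · positivity
    have hν1 : ∀ κ, ∑ z, ν κ z = 1 := by
      intro κ
      have := sum_prod_copies (L := Fin τ × Fin S) (ξ := Fin (k + 1) × NN t)
        (fun l y => if κ l.1 then μ y
          else 1 / (Fintype.card (Fin (k + 1) × NN t → Bool) : ℝ)) ?_
      · exact this
      · intro l
        by_cases h : κ l.1
        · simp only [h, if_true]; exact h1
        · simp only [h, if_false, Bool.false_eq_true]
          rw [Finset.sum_const, Finset.card_univ, nsmul_eq_mul]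
          field_simp
    have hα0 : ∀ f : (Fin (k + 1) × NN t → Bool) → ℝ, DTC (dd k δ t) f →
        |∑ x, μ x * f x - (∑ x, f x) / Fintype.card (Fin (k + 1) × NN t → Bool)|
            ≤ ((2 : ℝ) ^ t) ^ (-(4 * δ)) := by
      refine hadv (dd k δ t) ?_
      unfold dd
      exact Nat.floor_le (by positivity)
    have hadv' : ∀ κ, ∀ f : (ZI k t τ S → Bool) → ℝ, DTC (dd k δ t) f →
      |∑ z, ν κ z * f z - (∑ z, f z) / Fintype.card (ZI k t τ S → Bool)|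
        ≤ (τ : ℝ) * S * ((2 : ℝ) ^ t) ^ (-(4 * δ)) := by
      intro κ f hf
      have := hybrid_copies (ξ := Fin (k + 1) × NN t) (L := Fin τ × Fin S) μ h0 h1 (dd k δ t) _ hα0
        (fun l => κ l.1) f hf
      have hc : ((Fintype.card (Fin τ × Fin S) : ℕ) : ℝ) = (τ : ℝ) * S := by simp
      rw [hc] at this
      exact this
    have hG : ∀ κ, 1 - (1 / 24 : ℝ) ≤ ∑ z, if Good k t τ S (θ / 4) (3 * θ / 4) κ z
        then ν κ z else 0 := by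
      intro κ
      refine good_prob k t τ S hS1 (1 / 24) θ (by norm_num) hθ0 ?_ μ h0 h1 ?_ κ
      · have : 16 * (τ : ℝ) / (1 / 24 * θ ^ 2) = 384 * (τ : ℝ) * X ^ 2 := by
          rw [hθ]; field_simp; ring
        rw [this]; exact hSle
      · rw [← hXinv]; exact hμ
    have hF0 : ∀ x : ι → Bool, (∀ c, ∃ r, x (Sum.inl (r, c)) = false) → F0 x = false := by
      intro x hx
      simp only [F0, decide_eq_false_iff_not, not_exists, not_forall]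
      intro b κ
      obtain ⟨c, hc⟩ := hnull x hx b κ
      exact ⟨c, by simp [hc]⟩
    have hF1 : ∀ (b : NN t) (κ : Fin τ → Bool) (e : NN t → NN t) (z : NN t → ZI k t τ S → Bool),
        Good k t τ S (θ / 4) (3 * θ / 4) κ (z b) → F0 (Crest.Agent.R350.build content b κ e z) = true := by
      intro b κ e z hz
      simp only [F0, decide_eq_true_eq]
      exact ⟨b, κ, hplant b κ e z hz⟩
    have hlow := lower_abstract (N := NN t) (ζ := ZI k t τ S) (Kp := Fin τ → Bool) (η := η)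
      F0 (dd k δ t) r hd _ (1 / 24) ν hν0 hν1 hadv' hF0 content
      (fun κ z => Good k t τ S (θ / 4) (3 * θ / 4) κ z) hG hF1 hcomp
    have hc1 : ((Fintype.card (NN t) : ℕ) : ℝ) = 2 ^ t := by simp [NN]
    have hc2 : ((Fintype.card (Fin τ → Bool) : ℕ) : ℝ) = 2 ^ τ := by simp
    rw [hc1, hc2] at hlow
    have hdpos : (0 : ℝ) < dd k δ t := by exact_mod_cast hd
    have h7 : (1 / 4 : ℝ) ≤ (r : ℝ) / ((dd k δ t : ℝ) * 2 ^ t) := by linarith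
    rw [le_div_iff₀ (by positivity)] at h7
    linarith

theorem mono_bd (κ u X T : ℝ) (hκ : 1 ≤ κ) (hu : 1 ≤ u) (hX : 1 ≤ X) (hT : 1 ≤ T) {a b c e : ℕ}
    (ha : a ≤ 2) (hb : b ≤ 5) (hc : c ≤ 4) (he : e ≤ 1) :
    κ ^ a * u ^ b * X ^ c * T ^ e ≤ κ ^ 2 * u ^ 5 * X ^ 4 * T := by
  have h1 : κ ^ a ≤ κ ^ 2 := pow_le_pow_right₀ hκ ha
  have h2 : u ^ b ≤ u ^ 5 := pow_le_pow_right₀ hu hb
  have h3 : X ^ c ≤ X ^ 4 := pow_le_pow_right₀ hX hc
  have h4 : T ^ e ≤ T ^ 1 := pow_le_pow_right₀ hT he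
  rw [pow_one] at h4
  have := zero_le_one.trans hκ
  have := zero_le_one.trans hu
  have := zero_le_one.trans hX
  have := zero_le_one.trans hT
  gcongr

/-- pure real-arithmetic bound -/
theorem real_bd (κ u X T τ S T0 qd g' A T' t : ℝ) (hκ : 1 ≤ κ) (hu : 1 ≤ u) (hX : 1 ≤ X)
    (hT : 1 ≤ T) (ht0 : 0 ≤ t) (ht : t + 1 = u) (hτ0 : 0 ≤ τ) (hS0 : 0 ≤ S) (hT00 : 0 ≤ T0)
    (hτ : τ ≤ 10 * u) (hS : S ≤ 384 * τ * X ^ 2 + 1) (hT0 : T0 ≤ 32 * τ * X ^ 2 + 1)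
    (hqd : qd = τ * (T0 * κ)) (hg' : g' = (S + 3) * (t * κ + 3) + t + 2)
    (hA : A = 2 + τ * S * κ * u + τ) (hT' : T' = T * A) :
    40 * (100 * u * (24 * (t + τ + 1) * ((2 * T + 1) * (100 * u * u)) + (2 * T + 1) *
      (qd + 24 * (t + τ + 1) * u)) + (2 * T + 1) * (100 * u * u)
      + qd + 40 * ((2 * T' + 1) * g')) ≤ 10 ^ 14 * (κ ^ 2 * u ^ 5 * X ^ 4 * T) := by
  have hκ0 : 0 ≤ κ := zero_le_one.trans hκ
  have hu0 : 0 ≤ u := zero_le_one.trans hu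
  have hX0 : 0 ≤ X := zero_le_one.trans hX
  have hT0' : 0 ≤ T := zero_le_one.trans hT
  have mb := fun {a b c e : ℕ} (ha : a ≤ 2) (hb : b ≤ 5) (hc : c ≤ 4) (he : e ≤ 1) =>
    mono_bd κ u X T hκ hu hX hT ha hb hc he
  have hX2 : 1 ≤ X ^ 2 := one_le_pow₀ hX
  have huX : 1 ≤ u * X ^ 2 := by nlinarith
  have hS1 : S ≤ 3841 * (u * X ^ 2) := by
    have : 384 * τ * X ^ 2 ≤ 384 * (10 * u) * X ^ 2 := by gcongr
    nlinarith
  have hT01 : T0 ≤ 321 * (u * X ^ 2) := by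
    have : 32 * τ * X ^ 2 ≤ 32 * (10 * u) * X ^ 2 := by gcongr
    nlinarith
  have hqd1 : qd ≤ 3210 * (κ ^ 1 * u ^ 2 * X ^ 2 * T ^ 0) := by
    rw [hqd]
    calc τ * (T0 * κ) ≤ 10 * u * (321 * (u * X ^ 2) * κ) := by gcongr
      _ = _ := by ring
  have hqd0 : 0 ≤ qd := by rw [hqd]; positivity
  have hg1 : g' ≤ 15379 * (κ ^ 1 * u ^ 2 * X ^ 2 * T ^ 0) := by
    have h1 : t * κ + 3 ≤ 4 * (κ * u) := by
      have : 1 ≤ κ * u := by nlinarith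
      nlinarith
    have h2 : S + 3 ≤ 3844 * (u * X ^ 2) := by linarith
    have h3 : (S + 3) * (t * κ + 3) ≤ 3844 * (u * X ^ 2) * (4 * (κ * u)) := by
      apply mul_le_mul h2 h1 (by positivity) (by positivity)
    have h4 : t + 2 ≤ 2 * u := by linarith
    have h5 : u ≤ κ ^ 1 * u ^ 2 * X ^ 2 * T ^ 0 := by
      have : 1 * (u * 1) * 1 * 1 ≤ κ ^ 1 * (u * u) * X ^ 2 * T ^ 0 := by
        have : κ ^ 1 = κ := pow_one κ
        rw [this, pow_zero]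
        gcongr
      nlinarith
    rw [hg']
    nlinarith
  have hg0 : 0 ≤ g' := by rw [hg']; positivity
  have hA1 : A ≤ 38422 * (κ ^ 1 * u ^ 3 * X ^ 2) := by
    have h1 : τ * S * κ * u ≤ (10 * u) * (3841 * (u * X ^ 2)) * κ * u := by gcongr
    have h2 : u ≤ κ ^ 1 * u ^ 3 * X ^ 2 := by
      have : 1 * (u ^ 1) * 1 ≤ κ ^ 1 * (u ^ 3) * X ^ 2 := by
        have : κ ^ 1 = κ := pow_one κ
        rw [this]
        gcongr
        norm_num
      simpa using this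
    rw [hA]
    nlinarith
  have hA0 : 0 ≤ A := by rw [hA]; positivity
  have hT1 : 2 * T' + 1 ≤ 76845 * (κ ^ 1 * u ^ 3 * X ^ 2 * T) := by
    have h1 : T' ≤ T * (38422 * (κ ^ 1 * u ^ 3 * X ^ 2)) := by rw [hT']; gcongr
    have h2 : 1 ≤ κ ^ 1 * u ^ 3 * X ^ 2 * T := by
      have : (1 : ℝ) * 1 * 1 * 1 ≤ κ ^ 1 * u ^ 3 * X ^ 2 * T := by
        have : κ ^ 1 = κ := pow_one κ
        rw [this]
        gcongr
        exact one_le_pow₀ hu
      simpa using this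
    nlinarith
  have hT1' : 0 ≤ 2 * T' + 1 := by rw [hT']; positivity
  have h2T : 2 * T + 1 ≤ 3 * T := by linarith
  have hs1 : 24 * (t + τ + 1) ≤ 264 * u := by linarith
  have hs0 : 0 ≤ 24 * (t + τ + 1) := by positivity
  have e1 : 100 * u * (24 * (t + τ + 1) * ((2 * T + 1) * (100 * u * u)))
      ≤ 7920000 * (κ ^ 0 * u ^ 4 * X ^ 0 * T ^ 1) := by
    calc 100 * u * (24 * (t + τ + 1) * ((2 * T + 1) * (100 * u * u)))
        ≤ 100 * u * (264 * u * (3 * T * (100 * u * u))) := by gcongr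
      _ = _ := by ring
  have e2 : 100 * u * ((2 * T + 1) * qd) ≤ 963000 * (κ ^ 1 * u ^ 3 * X ^ 2 * T ^ 1) := by
    calc 100 * u * ((2 * T + 1) * qd)
        ≤ 100 * u * (3 * T * (3210 * (κ ^ 1 * u ^ 2 * X ^ 2 * T ^ 0))) := by gcongr
      _ = _ := by ring
  have e3 : 100 * u * ((2 * T + 1) * (24 * (t + τ + 1) * u))
      ≤ 79200 * (κ ^ 0 * u ^ 3 * X ^ 0 * T ^ 1) := by
    calc 100 * u * ((2 * T + 1) * (24 * (t + τ + 1) * u))
        ≤ 100 * u * (3 * T * (264 * u * u)) := by gcongr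
      _ = _ := by ring
  have e4 : (2 * T + 1) * (100 * u * u) ≤ 300 * (κ ^ 0 * u ^ 2 * X ^ 0 * T ^ 1) := by
    calc (2 * T + 1) * (100 * u * u) ≤ 3 * T * (100 * u * u) := by gcongr
      _ = _ := by ring
  have e5 : 40 * ((2 * T' + 1) * g')
      ≤ (40 * 76845 * 15379) * (κ ^ 2 * u ^ 5 * X ^ 4 * T) := by
    calc 40 * ((2 * T' + 1) * g')
        ≤ 40 * (76845 * (κ ^ 1 * u ^ 3 * X ^ 2 * T) * (15379 * (κ ^ 1 * u ^ 2 * X ^ 2 * T ^ 0))) := by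
          gcongr
      _ = _ := by ring
  have m1 := mb (a := 0) (b := 4) (c := 0) (e := 1) (by norm_num) (by norm_num) (by norm_num)
    (by norm_num)
  have m2 := mb (a := 1) (b := 3) (c := 2) (e := 1) (by norm_num) (by norm_num) (by norm_num)
    (by norm_num)
  have m3 := mb (a := 0) (b := 3) (c := 0) (e := 1) (by norm_num) (by norm_num) (by norm_num)
    (by norm_num)
  have m4 := mb (a := 0) (b := 2) (c := 0) (e := 1) (by norm_num) (by norm_num) (by norm_num)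
    (by norm_num)
  have m5 := mb (a := 1) (b := 2) (c := 2) (e := 0) (by norm_num) (by norm_num) (by norm_num)
    (by norm_num)
  have hM : 0 ≤ κ ^ 2 * u ^ 5 * X ^ 4 * T := by positivity
  generalize κ ^ 2 * u ^ 5 * X ^ 4 * T = M at *
  generalize κ ^ 0 * u ^ 4 * X ^ 0 * T ^ 1 = M1 at *
  generalize κ ^ 1 * u ^ 3 * X ^ 2 * T ^ 1 = M2 at *
  generalize κ ^ 0 * u ^ 3 * X ^ 0 * T ^ 1 = M3 at *
  generalize κ ^ 0 * u ^ 2 * X ^ 0 * T ^ 1 = M4 at *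
  generalize κ ^ 1 * u ^ 2 * X ^ 2 * T ^ 0 = M5 at *
  have expand : 40 * (100 * u * (24 * (t + τ + 1) * ((2 * T + 1) * (100 * u * u)) + (2 * T + 1) *
      (qd + 24 * (t + τ + 1) * u)) + (2 * T + 1) * (100 * u * u)
      + qd + 40 * ((2 * T' + 1) * g'))
      = 40 * (100 * u * (24 * (t + τ + 1) * ((2 * T + 1) * (100 * u * u))))
        + 40 * (100 * u * ((2 * T + 1) * qd)) + 40 * (100 * u * ((2 * T + 1) * (24 * (t + τ + 1) * u)))
        + 40 * ((2 * T + 1) * (100 * u * u)) + 40 * qd + 40 * (40 * ((2 * T' + 1) * g')) := by ring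
  rw [expand]
  linarith

/-- real upper bound for the query cost -/
theorem QQ_le (k : ℕ) (δ : ℝ) (hδ : 0 < δ) :
    ∃ B : ℝ, 0 < B ∧ ∀ t : ℕ, (QQ k δ t : ℝ) ≤
      B * ((t : ℝ) + 1) ^ 5 * ((2 : ℝ) ^ t) ^ (1 / 2 + 4 * δ) := by
  refine ⟨2 * 10 ^ 14 * ((k : ℝ) + 1) ^ 2, by positivity, ?_⟩
  intro t
  have h2t : (1 : ℝ) ≤ (2 : ℝ) ^ t := one_le_pow₀ (by norm_num)
  have h2t0 : (0 : ℝ) < (2 : ℝ) ^ t := by positivity
  set X : ℝ := ((2 : ℝ) ^ t) ^ δ with hX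
  have hX1 : 1 ≤ X := Real.one_le_rpow h2t hδ.le
  have hT1 : (1 : ℝ) ≤ (TT t : ℝ) := by
    unfold TT; push_cast; exact one_le_pow₀ (by norm_num)
  have hT2 : (TT t : ℝ) ≤ 2 * ((2 : ℝ) ^ t) ^ (1 / 2 : ℝ) := by
    rw [← Real.sqrt_eq_rpow]
    have h1 : (TT t : ℝ) ^ 2 ≤ 4 * 2 ^ t := by
      unfold TT; push_cast
      rw [← pow_mul]
      calc (2 : ℝ) ^ ((t + 2) / 2 * 2) ≤ 2 ^ (t + 2) :=
            pow_le_pow_right₀ (by norm_num) (by omega)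
        _ = 4 * 2 ^ t := by rw [pow_add]; ring
    have h2 : (2 * Real.sqrt ((2 : ℝ) ^ t)) ^ 2 = 4 * 2 ^ t := by
      rw [mul_pow, Real.sq_sqrt h2t0.le]; norm_num
    exact le_of_sq_le_sq (by rw [h2]; exact h1) (by positivity)
  have hk : (1 : ℝ) ≤ (k : ℝ) + 1 := by
    have : (0 : ℝ) ≤ k := Nat.cast_nonneg k
    linarith
  have hu : (1 : ℝ) ≤ (t : ℝ) + 1 := by
    have : (0 : ℝ) ≤ t := Nat.cast_nonneg t
    linarith
  have hτ : (tau t : ℝ) = 2 * (t : ℝ) + 10 := by unfold tau; push_cast; ring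
  have hτ10 : (tau t : ℝ) ≤ 10 * ((t : ℝ) + 1) := by
    have : (0 : ℝ) ≤ t := Nat.cast_nonneg t
    rw [hτ]; linarith
  have hSS : (SS δ t : ℝ) ≤ 384 * (tau t : ℝ) * X ^ 2 + 1 := by
    unfold SS
    exact (Nat.ceil_lt_add_one (by positivity)).le
  have hTT0 : (TT0 δ t : ℝ) ≤ 32 * (tau t : ℝ) * X ^ 2 + 1 := by
    unfold TT0
    exact (Nat.ceil_lt_add_one (by positivity)).le
  have main := real_bd ((k : ℝ) + 1) ((t : ℝ) + 1) X (TT t) (tau t) (SS δ t) (TT0 δ t)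
    (tau t * (TT0 δ t * ((k : ℝ) + 1))) ((SS δ t + 3) * (t * ((k : ℝ) + 1) + 3) + t + 2)
    (2 + tau t * SS δ t * ((k : ℝ) + 1) * ((t : ℝ) + 1) + tau t)
    (TT t * (2 + tau t * SS δ t * ((k : ℝ) + 1) * ((t : ℝ) + 1) + tau t)) t
    hk hu hX1 hT1 (Nat.cast_nonneg t) rfl (Nat.cast_nonneg _) (Nat.cast_nonneg _)
    (Nat.cast_nonneg _) hτ10 hSS hTT0 rfl rfl rfl rfl
  have hQ : (QQ k δ t : ℝ) = 40 * (100 * ((t : ℝ) + 1) * (24 * (t + tau t + 1) *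
      ((2 * TT t + 1) * (100 * ((t : ℝ) + 1) * ((t : ℝ) + 1))) + (2 * TT t + 1) *
      (tau t * (TT0 δ t * ((k : ℝ) + 1)) + 24 * (t + tau t + 1) * ((t : ℝ) + 1)))
      + (2 * TT t + 1) * (100 * ((t : ℝ) + 1) * ((t : ℝ) + 1))
      + tau t * (TT0 δ t * ((k : ℝ) + 1))
      + 40 * ((2 * (TT t * (2 + tau t * SS δ t * ((k : ℝ) + 1) * ((t : ℝ) + 1) + tau t)) + 1) *
        ((SS δ t + 3) * (t * ((k : ℝ) + 1) + 3) + t + 2))) := by
    unfold QQ Qbound AA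
    push_cast
    ring
  rw [hQ]
  refine main.trans ?_
  have hpow : ((2 : ℝ) ^ t) ^ (1 / 2 + 4 * δ) = ((2 : ℝ) ^ t) ^ (1 / 2 : ℝ) * X ^ 4 := by
    have h4 : X ^ 4 = ((2 : ℝ) ^ t) ^ (4 * δ) := by
      rw [hX, ← Real.rpow_natCast (((2 : ℝ) ^ t) ^ δ) 4, ← Real.rpow_mul h2t0.le]
      congr 1
      push_cast; ring
    rw [Real.rpow_add h2t0, h4]
  rw [hpow]
  have hX4 : 0 ≤ X ^ 4 := by positivity
  calc 10 ^ 14 * (((k : ℝ) + 1) ^ 2 * ((t : ℝ) + 1) ^ 5 * X ^ 4 * TT t)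
      ≤ 10 ^ 14 * (((k : ℝ) + 1) ^ 2 * ((t : ℝ) + 1) ^ 5 * X ^ 4 *
        (2 * ((2 : ℝ) ^ t) ^ (1 / 2 : ℝ))) := by gcongr
    _ = _ := by ring

/-- smallness for large `t` -/
theorem small_event (δ : ℝ) (hδ : 0 < δ) : ∃ t₂ : ℕ, ∀ t : ℕ, t₂ ≤ t →
    76821 * (((t : ℝ) + 1) ^ 2 * ((((2 : ℝ) ^ t) ^ δ) ^ 2)⁻¹) ≤ 1 / 48 := by
  set ρ : ℝ := (2 : ℝ) ^ (-(2 * δ)) with hρ
  have hρ0 : 0 < ρ := Real.rpow_pos_of_pos (by norm_num) _
  have hρ1 : ρ < 1 := Real.rpow_lt_one_of_one_lt_of_neg (by norm_num) (by linarith)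
  have h1 : Filter.Tendsto (fun n : ℕ => (n : ℝ) ^ 2 * ρ ^ n) Filter.atTop (nhds 0) :=
    tendsto_pow_const_mul_const_pow_of_abs_lt_one 2 (by rw [abs_of_pos hρ0]; exact hρ1)
  have h2 : Filter.Tendsto (fun n : ℕ => (((n + 1 : ℕ) : ℝ)) ^ 2 * ρ ^ (n + 1)) Filter.atTop
      (nhds 0) := (Filter.tendsto_add_atTop_iff_nat 1).mpr h1
  have h3 : ∀ᶠ n : ℕ in Filter.atTop, (((n + 1 : ℕ) : ℝ)) ^ 2 * ρ ^ (n + 1)
      < ρ * (1 / 48 / 76821) := h2.eventually (gt_mem_nhds (by positivity))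
  obtain ⟨t₂, ht₂⟩ := Filter.eventually_atTop.mp h3
  refine ⟨t₂, fun t ht => ?_⟩
  have h4 := ht₂ t ht
  have h5 : ((((2 : ℝ) ^ t) ^ δ) ^ 2)⁻¹ = ρ ^ t := by
    rw [hρ, ← Real.rpow_natCast ((2 : ℝ) ^ (-(2 * δ))) t, ← Real.rpow_mul (by norm_num),
      ← Real.rpow_natCast (((2 : ℝ) ^ t) ^ δ) 2, ← Real.rpow_natCast (2 : ℝ) t,
      ← Real.rpow_mul (by norm_num), ← Real.rpow_mul (by norm_num), ← Real.rpow_neg (by norm_num)]
    congr 1
    push_cast; ring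
  rw [h5]
  rw [pow_succ] at h4
  push_cast at h4
  have h6 : ρ * (((t : ℝ) + 1) ^ 2 * ρ ^ t) < ρ * (1 / 48 / 76821) := by
    calc ρ * (((t : ℝ) + 1) ^ 2 * ρ ^ t) = ((t : ℝ) + 1) ^ 2 * (ρ ^ t * ρ) := by ring
      _ < _ := h4
  have h7 := lt_of_mul_lt_mul_left h6 hρ0.le
  linarith

theorem family_exists (k : ℕ) (hk : 1 ≤ k) (δ : ℝ) (hδ : 0 < δ) (hδ1 : δ ≤ 1 / 100)
    (he : 0 ≤ 1 - 1 / ((k : ℝ) + 1) - 8 * δ) :
    ∃ (B : ℝ) (t₁ : ℕ), 0 < B ∧ ∀ t : ℕ, t₁ ≤ t → ∃ (n : ℕ) (F : (Fin n → Bool) → Bool) (q : ℕ),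
      (q : ℝ) ≤ B * ((t : ℝ) + 1) ^ 5 * ((2 : ℝ) ^ t) ^ (1 / 2 + 4 * δ) ∧
      QuantumComputes F q ∧
      ∀ r : ℕ, RandomizedComputes F r →
        ((2 : ℝ) ^ t) ^ (2 - 1 / ((k : ℝ) + 1) - 8 * δ) / 8 ≤ r := by
  obtain ⟨B, hB, hQ⟩ := QQ_le k δ hδ
  obtain ⟨t₀, hforr⟩ := forr_hard k hk δ hδ hδ1
  obtain ⟨t₂, hsm⟩ := small_event δ hδ
  refine ⟨B, max t₀ t₂, hB, fun t ht => ?_⟩
  obtain ⟨μ, h0, h1, hμ, hadv⟩ := hforr t ((le_max_left _ _).trans ht)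
  have hs := hsm t ((le_max_right _ _).trans ht)
  have h2t : (1 : ℝ) ≤ (2 : ℝ) ^ t := one_le_pow₀ (by norm_num)
  have h2t0 : (0 : ℝ) < (2 : ℝ) ^ t := by positivity
  set x : ℝ := (2 : ℝ) ^ t with hx
  have hXdef : (x ^ δ) = x ^ δ := rfl
  set X : ℝ := x ^ δ with hX
  have hX1 : 1 ≤ X := Real.one_le_rpow h2t hδ.le
  have hX0 : 0 < X := lt_of_lt_of_le one_pos hX1
  have hk0 : (0 : ℝ) < (k : ℝ) + 1 := by positivity
  set ex : ℝ := 1 - 1 / ((k : ℝ) + 1) - 8 * δ with hex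
  have hy1 : 1 ≤ x ^ ex := Real.one_le_rpow h2t he
  have hdle : (dd k δ t : ℝ) ≤ x ^ ex := by
    unfold dd; exact Nat.floor_le (by positivity)
  have hd1 : 1 ≤ dd k δ t := by
    unfold dd
    exact (Nat.one_le_floor_iff _).mpr hy1
  have hdge : x ^ ex / 2 ≤ (dd k δ t : ℝ) := by
    have h3 : x ^ ex < (dd k δ t : ℝ) + 1 := by unfold dd; exact Nat.lt_floor_add_one _
    have h4 : (1 : ℝ) ≤ dd k δ t := by exact_mod_cast hd1
    linarith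
  have hX2 : (X ^ 2)⁻¹ = x ^ (-(2 * δ)) := by
    rw [hX, ← Real.rpow_natCast (x ^ δ) 2, ← Real.rpow_mul h2t0.le, ← Real.rpow_neg h2t0.le]
    congr 1; push_cast; ring
  have hu1 : (1 : ℝ) ≤ (t : ℝ) + 1 := by
    have : (0 : ℝ) ≤ t := Nat.cast_nonneg t
    linarith
  have hu2 : (1 : ℝ) ≤ ((t : ℝ) + 1) ^ 2 := one_le_pow₀ hu1
  -- first term
  have a1 : (dd k δ t : ℝ) / x ≤ ((t : ℝ) + 1) ^ 2 * (X ^ 2)⁻¹ := by
    have h5 : (dd k δ t : ℝ) / x ≤ x ^ (ex - 1) := by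
      rw [Real.rpow_sub_one h2t0.ne']
      gcongr
    have h6 : x ^ (ex - 1) ≤ x ^ (-(2 * δ)) := by
      apply Real.rpow_le_rpow_of_exponent_le h2t
      have : 0 < 1 / ((k : ℝ) + 1) := by positivity
      rw [hex]; linarith
    rw [hX2]
    have h7 : 0 ≤ x ^ (-(2 * δ)) := (Real.rpow_pos_of_pos h2t0 _).le
    nlinarith
  -- second term
  have a2 : (dd k δ t : ℝ) / 2 ^ (tau t) ≤ 1 / 1024 := by
    have h5 : (dd k δ t : ℝ) ≤ x := by
      refine hdle.trans ?_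
      calc x ^ ex ≤ x ^ (1 : ℝ) := by
            apply Real.rpow_le_rpow_of_exponent_le h2t
            have : 0 < 1 / ((k : ℝ) + 1) := by positivity
            rw [hex]; linarith
        _ = x := Real.rpow_one x
    have h6 : (2 : ℝ) ^ (tau t) = x * x * 1024 := by
      unfold tau
      rw [pow_add, mul_comm 2 t, pow_mul, hx]; norm_num; ring
    rw [h6, div_le_div_iff₀ (by positivity) (by norm_num)]
    nlinarith
  -- third term
  have hτ10 : (tau t : ℝ) ≤ 10 * ((t : ℝ) + 1) := by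
    have : (0 : ℝ) ≤ t := Nat.cast_nonneg t
    unfold tau; push_cast; linarith
  have hSS : (SS δ t : ℝ) ≤ 3841 * (((t : ℝ) + 1) * X ^ 2) := by
    have h5 : (SS δ t : ℝ) ≤ 384 * (tau t : ℝ) * X ^ 2 + 1 := by
      unfold SS
      exact (Nat.ceil_lt_add_one (by positivity)).le
    have h6 : 384 * (tau t : ℝ) * X ^ 2 ≤ 384 * (10 * ((t : ℝ) + 1)) * X ^ 2 := by gcongr
    have h7 : 1 ≤ X ^ 2 := one_le_pow₀ hX1
    have h8 : 1 ≤ ((t : ℝ) + 1) * X ^ 2 := by nlinarith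
    nlinarith
  have hX4 : x ^ (-(4 * δ)) = (X ^ 2)⁻¹ * (X ^ 2)⁻¹ := by
    rw [hX2, ← Real.rpow_add h2t0]; congr 1; ring
  have a3 : 2 * ((tau t : ℝ) * SS δ t * x ^ (-(4 * δ)))
      ≤ 76820 * (((t : ℝ) + 1) ^ 2 * (X ^ 2)⁻¹) := by
    rw [hX4]
    calc 2 * ((tau t : ℝ) * SS δ t * ((X ^ 2)⁻¹ * (X ^ 2)⁻¹))
        ≤ 2 * ((10 * ((t : ℝ) + 1)) * (3841 * (((t : ℝ) + 1) * X ^ 2)) *
          ((X ^ 2)⁻¹ * (X ^ 2)⁻¹)) := by gcongr
      _ = _ := by field_simp; ring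
  have hsmall : (dd k δ t : ℝ) / x + (dd k δ t : ℝ) / 2 ^ (tau t)
      + 2 * ((tau t : ℝ) * SS δ t * x ^ (-(4 * δ))) ≤ 1 / 24 := by
    linarith
  obtain ⟨n, F, hF1, hF2⟩ := one_t k δ hδ t μ h0 h1 hμ hadv hd1 hsmall
  refine ⟨n, F, QQ k δ t, hQ t, hF1, fun r hr => ?_⟩
  refine le_trans ?_ (hF2 r hr)
  have h9 : x ^ (2 - 1 / ((k : ℝ) + 1) - 8 * δ) = x ^ ex * x := by
    have : 2 - 1 / ((k : ℝ) + 1) - 8 * δ = ex + 1 := by rw [hex]; ring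
    rw [this, Real.rpow_add_one h2t0.ne']
  rw [h9]
  calc x ^ ex * x / 8 = (x ^ ex / 2) * x / 4 := by ring
    _ ≤ (dd k δ t : ℝ) * x / 4 := by gcongr

theorem result_aux (K : ℕ) (hK : 2 ≤ K) :
    ∃ (c C b : ℝ), 0 < c ∧ 0 < C ∧ 0 < b ∧ ∃ m₀ : ℕ, ∀ m : ℕ, m₀ ≤ m → (∃ j : ℕ, m = 4 ^ j) →
      ∃ (n : ℕ) (F : (Fin n → Bool) → Bool),
        (∃ q : ℕ, (q : ℝ) ≤ C * Real.sqrt m * Real.log m ^ b ∧ QuantumComputes F q) ∧
        (∀ r : ℕ, RandomizedComputes F r →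
          c * (m : ℝ) ^ (2 - 1 / (K : ℝ)) / Real.log m ^ 2 ≤ r) := by
  have hK2 : (2 : ℝ) ≤ K := by exact_mod_cast hK
  have hK0 : (0 : ℝ) < K := by linarith
  set v : ℝ := 1 / (K : ℝ) with hv
  have hv0 : 0 < v := by positivity
  have hv1 : v ≤ 1 / 2 := by
    rw [hv]; exact one_div_le_one_div_of_le (by norm_num) hK2
  set δ : ℝ := v / 100 with hδdef
  have hδ : 0 < δ := by positivity
  have hkk : ((2 * K - 1 : ℕ) : ℝ) + 1 = 2 * K := by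
    have : ((2 * K - 1 : ℕ) : ℝ) = 2 * K - 1 := by
      rw [Nat.cast_sub (by omega)]; push_cast; ring
    rw [this]; ring
  have hinv : 1 / (((2 * K - 1 : ℕ) : ℝ) + 1) = v / 2 := by
    rw [hkk, hv]; field_simp
  obtain ⟨B, t₁, hB, hfam⟩ := family_exists (2 * K - 1) (by omega) δ hδ
    (by rw [hδdef]; linarith) (by rw [hinv, hδdef]; linarith)
  refine ⟨1 / 32, 243 * B, 5, by norm_num, by positivity, by norm_num, 4 ^ (max t₁ 2), ?_⟩
  rintro m hm ⟨j, rfl⟩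
  have hj : max t₁ 2 ≤ j := (Nat.pow_le_pow_iff_right (by norm_num)).mp hm
  have hj1 : t₁ ≤ j := (le_max_left _ _).trans hj
  have hj2 : 2 ≤ j := (le_max_right _ _).trans hj
  have hj2' : (2 : ℝ) ≤ j := by exact_mod_cast hj2
  set D : ℝ := 1 + 8 * δ with hD
  have hD1 : 1 ≤ D := by rw [hD]; linarith
  have hD2 : D ≤ 1.04 := by rw [hD, hδdef]; linarith
  have hD0 : 0 < D := by linarith
  set t : ℕ := ⌊2 * (j : ℝ) / D⌋₊ with ht
  have ht1 : (t : ℝ) ≤ 2 * (j : ℝ) / D := Nat.floor_le (by positivity)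
  have ht2 : 2 * (j : ℝ) / D < (t : ℝ) + 1 := Nat.lt_floor_add_one _
  have ht1' : (t : ℝ) * D ≤ 2 * j := by rwa [le_div_iff₀ hD0] at ht1
  have ht2' : 2 * (j : ℝ) < ((t : ℝ) + 1) * D := by rwa [div_lt_iff₀ hD0] at ht2
  have htj : j ≤ t := by
    have h1 : (j : ℝ) < (t : ℝ) + 1 := by
      have : ((t : ℝ) + 1) * D ≤ ((t : ℝ) + 1) * 1.04 := by gcongr
      nlinarith
    have : j < t + 1 := by exact_mod_cast h1
    omega
  obtain ⟨n, F, q, hq1, hq2, hr⟩ := hfam t (hj1.trans htj)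
  have h2t : (1 : ℝ) ≤ (2 : ℝ) ^ t := one_le_pow₀ (by norm_num)
  have h2t0 : (0 : ℝ) < (2 : ℝ) ^ t := by positivity
  have hlog4 : (1 : ℝ) ≤ Real.log 4 := by
    have h4 : Real.log 4 = 2 * Real.log 2 := by
      rw [show (4 : ℝ) = 2 ^ (2 : ℕ) by norm_num, Real.log_pow]; norm_num
    rw [h4]
    have := Real.log_two_gt_d9
    linarith
  have hlogm : Real.log ((4 ^ j : ℕ) : ℝ) = j * Real.log 4 := by
    push_cast
    rw [Real.log_pow]
  have hlogmj : (j : ℝ) ≤ Real.log ((4 ^ j : ℕ) : ℝ) := by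
    rw [hlogm]
    nlinarith
  have hlog1 : (1 : ℝ) ≤ Real.log ((4 ^ j : ℕ) : ℝ) := by linarith
  have hsqrt : Real.sqrt ((4 ^ j : ℕ) : ℝ) = 2 ^ j := by
    have : ((4 ^ j : ℕ) : ℝ) = (2 ^ j) ^ 2 := by
      push_cast
      rw [← pow_mul, mul_comm, pow_mul]; norm_num
    rw [this, Real.sqrt_sq (by positivity)]
  refine ⟨n, F, ⟨q, ?_, hq2⟩, fun r hr' => ?_⟩
  · refine hq1.trans ?_
    have h1 : ((2 : ℝ) ^ t) ^ (1 / 2 + 4 * δ) ≤ 2 ^ j := by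
      rw [← Real.rpow_natCast (2 : ℝ) t, ← Real.rpow_mul (by norm_num),
        ← Real.rpow_natCast (2 : ℝ) j]
      apply Real.rpow_le_rpow_of_exponent_le (by norm_num)
      have : (t : ℝ) * (1 / 2 + 4 * δ) = (t : ℝ) * D / 2 := by rw [hD]; ring
      rw [this]; linarith
    have h2 : (t : ℝ) + 1 ≤ 3 * Real.log ((4 ^ j : ℕ) : ℝ) := by
      have : (t : ℝ) ≤ 2 * j := by nlinarith
      linarith
    have h3 : ((t : ℝ) + 1) ^ 5 ≤ 243 * Real.log ((4 ^ j : ℕ) : ℝ) ^ (5 : ℝ) := by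
      have h4 : Real.log ((4 ^ j : ℕ) : ℝ) ^ (5 : ℝ) = Real.log ((4 ^ j : ℕ) : ℝ) ^ (5 : ℕ) := by
        rw [← Real.rpow_natCast]; norm_num
      rw [h4]
      calc ((t : ℝ) + 1) ^ 5 ≤ (3 * Real.log ((4 ^ j : ℕ) : ℝ)) ^ 5 := by gcongr
        _ = _ := by ring
    rw [hsqrt]
    calc B * ((t : ℝ) + 1) ^ 5 * ((2 : ℝ) ^ t) ^ (1 / 2 + 4 * δ)
        ≤ B * (243 * Real.log ((4 ^ j : ℕ) : ℝ) ^ (5 : ℝ)) * 2 ^ j := by gcongr
      _ = _ := by ring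
  · refine le_trans ?_ (hr r hr')
    rw [hinv]
    set E : ℝ := 2 - v / 2 - 8 * δ with hE
    have hE0 : 0 ≤ E := by rw [hE, hδdef]; linarith
    have hE2 : E ≤ 2 := by rw [hE]; linarith
    have hED : (2 - v) * D ≤ E := by
      rw [hE, hD, hδdef]; nlinarith
    have h1 : ((4 ^ j : ℕ) : ℝ) ^ (2 - v) ≤ 4 * ((2 : ℝ) ^ t) ^ E := by
      have h4j : ((4 ^ j : ℕ) : ℝ) = (2 : ℝ) ^ (2 * (j : ℝ)) := by
        push_cast
        rw [Real.rpow_mul (by norm_num), Real.rpow_natCast]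
        norm_num
      rw [h4j, ← Real.rpow_mul (by norm_num), ← Real.rpow_natCast (2 : ℝ) t,
        ← Real.rpow_mul (by norm_num), show (4 : ℝ) = 2 ^ (2 : ℝ) by norm_num,
        ← Real.rpow_add (by norm_num)]
      apply Real.rpow_le_rpow_of_exponent_le (by norm_num)
      have h5 : 2 * (j : ℝ) * (2 - v) ≤ ((t : ℝ) + 1) * E := by
        calc 2 * (j : ℝ) * (2 - v) ≤ (((t : ℝ) + 1) * D) * (2 - v) := by
              apply mul_le_mul_of_nonneg_right ht2'.le; linarith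
          _ = ((t : ℝ) + 1) * ((2 - v) * D) := by ring
          _ ≤ ((t : ℝ) + 1) * E := by gcongr
      linarith
    have h6 : 1 / 32 * ((4 ^ j : ℕ) : ℝ) ^ (2 - v) / Real.log ((4 ^ j : ℕ) : ℝ) ^ 2
        ≤ 1 / 32 * ((4 ^ j : ℕ) : ℝ) ^ (2 - v) := by
      apply div_le_self
      · positivity
      · exact one_le_pow₀ hlog1
    linarith

end Crest.Agent.R350.Final
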