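import Crest.Agent.R350.Fourier

/-!
Row 350, part B (Forrelation lower bound, T5): latent Gaussian model.
`v : Fin k × NN t → ℝ` are iid `N(0,1)` latents, `W` = normalised Walsh matrix,
`X_a = v_a` (`a < k`), `X_k = 1`, `Y_0 = 1`, `Y_{a+1} = W v_a`, `Z_a = g X_a Y_a`.
-/

set_option autoImplicit false

namespace Crest.Agent.R350

open Finset MeasureTheory ProbabilityTheory

/-- normalised Walsh matrix (symmetric orthogonal) -/
noncomputable def Wm {t : ℕ} (i j : NN t) : ℝ := wal i j / Real.sqrt (2 ^ t)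

/-- latent Gaussian measure -/
noncomputable def gam (k t : ℕ) : Measure (Fin k × NN t → ℝ) :=
  Measure.pi (fun _ => gaussianReal 0 1)

noncomputable instance (k t : ℕ) : IsProbabilityMeasure (gam k t) := by
  unfold gam; infer_instance

/-- `X_a(i)`: `v_a(i)` for `a < k`, and `1` for `a = k`. -/
noncomputable def Xl {k t : ℕ} (v : Fin k × NN t → ℝ) (c : Fin (k + 1) × NN t) : ℝ :=
  if h : c.1.val < k then v (⟨c.1.val, h⟩, c.2) else 1

/-- `Y_0 = 1`, `Y_{a+1}(i) = ∑_j W i j v_a(j)`. -/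
noncomputable def Yl {k t : ℕ} (v : Fin k × NN t → ℝ) (c : Fin (k + 1) × NN t) : ℝ :=
  if h : c.1.val = 0 then 1
  else ∑ j, Wm c.2 j * v (⟨c.1.val - 1, by have := c.1.isLt; omega⟩, j)

/-- `Z_a = g X_a Y_a`. -/
noncomputable def Zl {k t : ℕ} (g : ℝ) (v : Fin k × NN t → ℝ) (c : Fin (k + 1) × NN t) : ℝ :=
  g * Xl v c * Yl v c

/-- `off-cube weight`: `∏_c max 1 |Z_c|`. -/
noncomputable def Rmax {k t : ℕ} (g : ℝ) (v : Fin k × NN t → ℝ) : ℝ :=
  ∏ c : Fin (k + 1) × NN t, max 1 |Zl g v c|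

/-- bad event: some coordinate leaves `[-1/2,1/2]`. -/
def badSet (k t : ℕ) (g : ℝ) : Set (Fin k × NN t → ℝ) :=
  {v | ∃ c : Fin (k + 1) × NN t, 1 / 2 < |Zl g v c|}

end Crest.Agent.R350
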