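import Crest.Agent.R350.Defs

/-!
Row 350, part B2: level-`k` bound for decision trees at biased points (structural induction).
-/

set_option autoImplicit false

namespace Crest.Agent.R350

open Finset

@[simp] lemma sg_true : sg true = -1 := by simp [sg]
@[simp] lemma sg_false : sg false = 1 := by simp [sg]

lemma one_add_pow_le (m : ℕ) (y : ℝ) (hy : |y| ≤ 1) :
    (1 + y) ^ m ≤ 1 + m * y + 3 ^ m * y ^ 2 := by
  have hy' := abs_le.1 hy
  induction m with
  | zero => simp; positivity
  | succ m ih =>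
    have h1 : (0:ℝ) ≤ 1 + y := by linarith
    have h2 : (1 + y) ^ (m + 1) ≤ (1 + y) * (1 + m * y + 3 ^ m * y ^ 2) := by
      rw [pow_succ, mul_comm]; exact mul_le_mul_of_nonneg_left ih h1
    have h3 : (m : ℝ) ≤ 3 ^ m := by
      have : m < 3 ^ m := Nat.lt_pow_self (by norm_num)
      exact_mod_cast this.le
    have h4 : (0:ℝ) ≤ y ^ 2 := sq_nonneg y
    have h5 : (0:ℝ) ≤ 3 ^ m := by positivity
    have h6 : y ^ 3 ≤ y ^ 2 := by nlinarith
    push_cast
    calc (1 + y) ^ (m + 1) ≤ (1 + y) * (1 + m * y + 3 ^ m * y ^ 2) := h2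
      _ = 1 + (m + 1) * y + m * y ^ 2 + 3 ^ m * y ^ 2 + 3 ^ m * y ^ 3 := by ring
      _ ≤ 1 + (m + 1) * y + 3 ^ m * y ^ 2 + 3 ^ m * y ^ 2 + 3 ^ m * y ^ 2 := by
          have := mul_le_mul_of_nonneg_right h3 h4
          have := mul_le_mul_of_nonneg_left h6 h5
          linarith
      _ = 1 + (m + 1) * y + 3 ^ (m + 1) * y ^ 2 := by ring

/-- Two-point inequality: mean-zero bounded increments in `L_{2p}`. -/
lemma two_point (p : ℕ) (hp : 1 ≤ p) (q ξ : Bool → ℝ) (hq0 : ∀ b, 0 ≤ q b)
    (hq1 : ∑ b, q b = 1) (hmean : ∑ b, q b * ξ b = 0) (hξ : ∀ b, |ξ b| ≤ 2) (a c : ℝ) :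
    ∑ b, q b * (a + ξ b * c) ^ (2 * p) ≤ (a ^ 2 + 4 * 9 ^ p * c ^ 2) ^ p := by
  by_cases hac : 2 * |c| ≤ |a|
  · by_cases ha : a = 0
    · have hc : c = 0 := by
        rw [ha, abs_zero] at hac
        have := abs_nonneg c
        exact abs_eq_zero.1 (by linarith)
      subst ha; subst hc
      have : 2 * p ≠ 0 := by omega
      have hp' : p ≠ 0 := by omega
      simp [hp']
    · have ha2 : 0 < a ^ 2 := by positivity
      have habs : 0 < |a| := abs_pos.2 ha
      have hy : ∀ b, |ξ b * c / a| ≤ 1 := by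
        intro b
        rw [abs_div, abs_mul, div_le_one habs]
        have := mul_le_mul_of_nonneg_right (hξ b) (abs_nonneg c)
        linarith
      have key : ∀ b, (a + ξ b * c) ^ (2 * p) ≤
          a ^ (2 * p) * (1 + (2 * p : ℕ) * (ξ b * c / a) + 3 ^ (2 * p) * (ξ b * c / a) ^ 2) := by
        intro b
        have h1 : a + ξ b * c = a * (1 + ξ b * c / a) := by field_simp
        rw [h1, mul_pow]
        apply mul_le_mul_of_nonneg_left (one_add_pow_le _ _ (hy b))
        rw [pow_mul]; positivity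
      calc ∑ b, q b * (a + ξ b * c) ^ (2 * p)
          ≤ ∑ b, q b * (a ^ (2 * p) * (1 + (2 * p : ℕ) * (ξ b * c / a) + 3 ^ (2 * p) * (ξ b * c / a) ^ 2)) := by
            apply Finset.sum_le_sum; intro b _
            exact mul_le_mul_of_nonneg_left (key b) (hq0 b)
        _ = a ^ (2 * p) * ((∑ b, q b) + (2 * p : ℕ) * (c / a) * (∑ b, q b * ξ b)
              + 3 ^ (2 * p) * (c / a) ^ 2 * (∑ b, q b * ξ b ^ 2)) := by
            simp only [Fintype.sum_bool]; ring
        _ ≤ a ^ (2 * p) * (1 + 3 ^ (2 * p) * (c / a) ^ 2 * 4) := by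
            rw [hq1, hmean]
            have h4 : ∑ b, q b * ξ b ^ 2 ≤ 4 := by
              calc ∑ b, q b * ξ b ^ 2 ≤ ∑ b, q b * 4 := by
                    apply Finset.sum_le_sum; intro b _
                    apply mul_le_mul_of_nonneg_left _ (hq0 b)
                    have := hξ b
                    rw [← sq_abs]
                    nlinarith [abs_nonneg (ξ b)]
                _ = 4 := by rw [← Finset.sum_mul, hq1]; norm_num
            have h5 : (0:ℝ) ≤ 3 ^ (2 * p) * (c / a) ^ 2 := by positivity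
            have h6 := mul_le_mul_of_nonneg_left h4 h5
            apply mul_le_mul_of_nonneg_left _ (by rw [pow_mul]; positivity)
            linarith
        _ = (a ^ 2) ^ p * (1 + 4 * 9 ^ p * (c / a) ^ 2) := by
            rw [pow_mul, pow_mul]; norm_num; ring_nf; simp
        _ ≤ (a ^ 2) ^ p * (1 + 4 * 9 ^ p * (c / a) ^ 2) ^ p := by
            apply mul_le_mul_of_nonneg_left _ (by positivity)
            apply le_self_pow₀ _ (by omega)
            have : (0:ℝ) ≤ 4 * 9 ^ p * (c / a) ^ 2 := by positivity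
            linarith
        _ = (a ^ 2 + 4 * 9 ^ p * c ^ 2) ^ p := by
            rw [← mul_pow]; congr 1; field_simp
  · push Not at hac
    have h1 : ∀ b, (a + ξ b * c) ^ (2 * p) ≤ (a ^ 2 + 4 * 9 ^ p * c ^ 2) ^ p := by
      intro b
      rw [pow_mul]
      apply pow_le_pow_left₀ (sq_nonneg _)
      have h2 : |a + ξ b * c| ≤ 4 * |c| := by
        calc |a + ξ b * c| ≤ |a| + |ξ b * c| := abs_add_le _ _
          _ ≤ 2 * |c| + 2 * |c| := by
              rw [abs_mul]
              have := mul_le_mul_of_nonneg_right (hξ b) (abs_nonneg c)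
              linarith
          _ = 4 * |c| := by ring
      have h3 : (a + ξ b * c) ^ 2 ≤ 16 * c ^ 2 := by
        rw [← sq_abs, ← sq_abs c]
        nlinarith [abs_nonneg (a + ξ b * c), abs_nonneg c]
      have h4 : (9:ℝ) ≤ 9 ^ p := le_self_pow₀ (by norm_num) (by omega)
      nlinarith [sq_nonneg a, sq_nonneg c]
    calc ∑ b, q b * (a + ξ b * c) ^ (2 * p) ≤ ∑ b, q b * (a ^ 2 + 4 * 9 ^ p * c ^ 2) ^ p := by
          apply Finset.sum_le_sum; intro b _
          exact mul_le_mul_of_nonneg_left (h1 b) (hq0 b)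
      _ = (a ^ 2 + 4 * 9 ^ p * c ^ 2) ^ p := by rw [← Finset.sum_mul, hq1, one_mul]


variable {ι : Type*} [Fintype ι] [DecidableEq ι]

/-- the weight vector at `z`: `(1 ± z i)/2`. -/
noncomputable def qw (t : ℝ) (b : Bool) : ℝ := (1 + sg b * t) / 2

/-- `S`-th mixed derivative of the multi-affine extension of `f` at `z`. -/
noncomputable def dmext (S : Finset ι) (f : (ι → Bool) → ℝ) (z : ι → ℝ) : ℝ :=
  ∑ x : ι → Bool, f x * ∏ i, (if i ∈ S then sg (x i) / 2 else qw (z i) (x i))

/-- product functional with coordinate weights `w`. -/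
noncomputable def pfun (w : ι → Bool → ℝ) (f : (ι → Bool) → ℝ) : ℝ :=
  ∑ x : ι → Bool, f x * ∏ i, w i (x i)

lemma dmext_eq_pfun (S : Finset ι) (f : (ι → Bool) → ℝ) (z : ι → ℝ) :
    dmext S f z = pfun (fun i b => if i ∈ S then sg b / 2 else qw (z i) b) f := rfl

/-- averaging a coordinate. -/
lemma sum_eq_half_update (i : ι) (G : (ι → Bool) → ℝ) :
    ∑ x : ι → Bool, G x = (1/2) * ∑ x : ι → Bool, ∑ b : Bool, G (Function.update x i b) := by
  rw [← (Equiv.funSplitAt i Bool).symm.sum_comp, ← (Equiv.funSplitAt i Bool).symm.sum_comp]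
  rw [Fintype.sum_prod_type, Fintype.sum_prod_type]
  have h : ∀ (b' b : Bool) (y : {j // j ≠ i} → Bool),
      Function.update ((Equiv.funSplitAt i Bool).symm (b', y)) i b =
        (Equiv.funSplitAt i Bool).symm (b, y) := by
    intro b' b y
    ext j
    by_cases hj : j = i
    · subst hj; simp [Equiv.funSplitAt]
    · simp [Equiv.funSplitAt, hj]
  simp only [h]
  simp only [Fintype.sum_bool, Finset.sum_add_distrib]
  ring

/-- the product over the other coordinates does not see an update at `i`. -/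
lemma prod_erase_update (i : ι) (w : ι → Bool → ℝ) (x : ι → Bool) (b : Bool) :
    ∏ j ∈ univ.erase i, w j (Function.update x i b j) = ∏ j ∈ univ.erase i, w j (x j) := by
  apply Finset.prod_congr rfl
  intro j hj
  rw [Function.update_of_ne (Finset.ne_of_mem_erase hj)]

lemma pfun_node (w : ι → Bool → ℝ) (i : ι) (u : Bool → ℝ) (hu : ∑ b, u b = 1)
    (f : (ι → Bool) → ℝ) (g : Bool → (ι → Bool) → ℝ)
    (hg : ∀ b b' x, g b (Function.update x i b') = g b x)
    (hf : ∀ x, f x = g (x i) x) :
    pfun w f = ∑ b, w i b * pfun (Function.update w i u) (g b) := by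
  have hL : pfun w f = (1/2) * ∑ b, w i b * ∑ x : ι → Bool, g b x * ∏ j ∈ univ.erase i, w j (x j) := by
    unfold pfun
    rw [sum_eq_half_update i]
    congr 1
    rw [Finset.sum_comm]
    apply Finset.sum_congr rfl
    intro b _
    rw [Finset.mul_sum]
    apply Finset.sum_congr rfl
    intro x _
    rw [← Finset.mul_prod_erase univ _ (Finset.mem_univ i), prod_erase_update, hf]
    simp only [Function.update_self]
    rw [hg]
    ring
  have hR : ∀ b, pfun (Function.update w i u) (g b) =
      (1/2) * ∑ x : ι → Bool, g b x * ∏ j ∈ univ.erase i, w j (x j) := by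
    intro b
    unfold pfun
    rw [sum_eq_half_update i]
    congr 1
    apply Finset.sum_congr rfl
    intro x _
    have : ∀ b', g b (Function.update x i b') * ∏ j, (Function.update w i u) j (Function.update x i b' j)
        = u b' * (g b x * ∏ j ∈ univ.erase i, w j (x j)) := by
      intro b'
      rw [← Finset.mul_prod_erase univ _ (Finset.mem_univ i), hg]
      simp only [Function.update_self]
      have : ∏ j ∈ univ.erase i, (Function.update w i u) j (Function.update x i b' j)
          = ∏ j ∈ univ.erase i, w j (x j) := by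
        apply Finset.prod_congr rfl
        intro j hj
        rw [Function.update_of_ne (Finset.ne_of_mem_erase hj), Function.update_of_ne (Finset.ne_of_mem_erase hj)]
      rw [this]; ring
    simp only [this]
    rw [← Finset.sum_mul, hu, one_mul]
  rw [hL]
  simp only [hR]
  rw [Finset.mul_sum]
  apply Finset.sum_congr rfl
  intro b _
  ring

/-- Functions with values computed by decision trees of depth at most `d`, leaves in `[-1,1]`. -/
inductive DTF : ℕ → ((ι → Bool) → ℝ) → Prop
  | const {d : ℕ} (c : ℝ) (hc : |c| ≤ 1) : DTF d (fun _ => c)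
  | node {d : ℕ} (i : ι) (g : Bool → (ι → Bool) → ℝ) (hg : ∀ b, DTF d (g b)) :
      DTF (d + 1) (fun x => g (x i) x)

omit [Fintype ι] [DecidableEq ι] in
lemma DTF.succ {d : ℕ} {f : (ι → Bool) → ℝ} (h : DTF d f) : DTF (d + 1) f := by
  induction h with
  | const c hc => exact DTF.const c hc
  | node i g _ ih => exact DTF.node i g ih

omit [Fintype ι] [DecidableEq ι] in
lemma DTF.mono {d d' : ℕ} (hd : d ≤ d') {f : (ι → Bool) → ℝ} (h : DTF d f) : DTF d' f := by
  induction hd with
  | refl => exact h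
  | step _ ih => exact ih.succ

omit [Fintype ι] in
lemma DTF.restrict {d : ℕ} {f : (ι → Bool) → ℝ} (h : DTF d f) (i : ι) (b : Bool) :
    DTF d (fun x => f (Function.update x i b)) := by
  induction h with
  | const c hc => exact DTF.const c hc
  | @node d j g _ ih =>
    by_cases hj : j = i
    · subst hj
      have : (fun x : ι → Bool => g (Function.update x j b j) (Function.update x j b))
          = fun x => g b (Function.update x j b) := by
        ext x; simp
      rw [this]
      exact (ih b).succ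
    · have : (fun x : ι → Bool => g (Function.update x i b j) (Function.update x i b))
          = fun x => (fun b' x => g b' (Function.update x i b)) (x j) x := by
        ext x; simp [Function.update_of_ne hj]
      rw [this]
      exact DTF.node j _ (fun b' => ih b')

/-- updated coefficient vector after reading coordinate `i`. -/
def upd (i : ι) (ξ : ℝ) (a : Finset ι → ℝ) (S : Finset ι) : ℝ :=
  if i ∈ S then 0 else a S + ξ * a (insert i S)

/-- `Λ(a,f) = ∑_S a_S ∂_S f(z)` -/
noncomputable def Lam (z : ι → ℝ) (a : Finset ι → ℝ) (f : (ι → Bool) → ℝ) : ℝ :=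
  ∑ S : Finset ι, a S * dmext S f z

lemma sum_qw (t : ℝ) : ∑ b, qw t b = 1 := by simp [qw]; ring

lemma dmext_node (z : ι → ℝ) (i : ι) (S : Finset ι) (hi : i ∉ S)
    (f : (ι → Bool) → ℝ) (g : Bool → (ι → Bool) → ℝ)
    (hg : ∀ b b' x, g b (Function.update x i b') = g b x)
    (hf : ∀ x, f x = g (x i) x) :
    dmext S f z = ∑ b, qw (z i) b * dmext S (g b) z := by
  rw [dmext_eq_pfun, pfun_node _ i (qw (z i)) (sum_qw _) f g hg hf]
  apply Finset.sum_congr rfl
  intro b _
  have : Function.update (fun i b => if i ∈ S then sg b / 2 else qw (z i) b) i (qw (z i))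
      = (fun i b => if i ∈ S then sg b / 2 else qw (z i) b) := by
    funext j b
    by_cases hj : j = i
    · subst hj; simp [hi]
    · simp [Function.update_of_ne hj]
  rw [this]
  simp only [hi, if_false]
  rw [← dmext_eq_pfun]

lemma dmext_node' (z : ι → ℝ) (i : ι) (S : Finset ι) (hi : i ∉ S)
    (f : (ι → Bool) → ℝ) (g : Bool → (ι → Bool) → ℝ)
    (hg : ∀ b b' x, g b (Function.update x i b') = g b x)
    (hf : ∀ x, f x = g (x i) x) :
    dmext (insert i S) f z = ∑ b, (sg b / 2) * dmext S (g b) z := by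
  rw [dmext_eq_pfun, pfun_node _ i (qw (z i)) (sum_qw _) f g hg hf]
  apply Finset.sum_congr rfl
  intro b _
  have : Function.update (fun j b => if j ∈ insert i S then sg b / 2 else qw (z j) b) i (qw (z i))
      = (fun i b => if i ∈ S then sg b / 2 else qw (z i) b) := by
    funext j b
    by_cases hj : j = i
    · subst hj; simp [hi]
    · simp [Function.update_of_ne hj, hj]
  rw [this]
  simp only [Finset.mem_insert_self, if_true]
  rw [← dmext_eq_pfun]

lemma sum_finset_split (i : ι) (G : Finset ι → ℝ) :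
    ∑ S : Finset ι, G S = ∑ S ∈ univ.filter (fun S : Finset ι => i ∉ S), (G S + G (insert i S)) := by
  rw [← Finset.sum_filter_add_sum_filter_not univ (fun S : Finset ι => i ∉ S) G,
    Finset.sum_add_distrib]
  congr 1
  symm
  apply Finset.sum_bij (fun S _ => insert i S)
  · intro S hS; simp
  · intro S hS T hT h
    simp only [mem_filter, mem_univ, true_and] at hS hT
    have := congrArg (fun U => U.erase i) h
    simpa [Finset.erase_insert hS, Finset.erase_insert hT] using this
  · intro T hT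
    simp only [mem_filter, mem_univ, true_and, not_not] at hT
    exact ⟨T.erase i, by simp, Finset.insert_erase hT⟩
  · intro S hS; rfl

lemma qw_mul_xi (t : ℝ) (ht : |t| ≤ 1/2) (b : Bool) :
    qw t b * (sg b / (1 + sg b * t)) = sg b / 2 := by
  have ht' := abs_le.1 ht
  unfold qw
  have : 1 + sg b * t ≠ 0 := by
    cases b
    · simp; linarith
    · simp; linarith
  field_simp

lemma Lam_node (z : ι → ℝ) (i : ι) (hz : |z i| ≤ 1/2) (a : Finset ι → ℝ)
    (f : (ι → Bool) → ℝ) (g : Bool → (ι → Bool) → ℝ)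
    (hg : ∀ b b' x, g b (Function.update x i b') = g b x)
    (hf : ∀ x, f x = g (x i) x) :
    Lam z a f = ∑ b, qw (z i) b * Lam z (upd i (sg b / (1 + sg b * z i)) a) (g b) := by
  unfold Lam
  rw [sum_finset_split i]
  have hz' := abs_le.1 hz
  have h2 : ∀ b, Lam z (upd i (sg b / (1 + sg b * z i)) a) (g b) =
      ∑ S ∈ univ.filter (fun S : Finset ι => i ∉ S),
        (a S + (sg b / (1 + sg b * z i)) * a (insert i S)) * dmext S (g b) z := by
    intro b
    unfold Lam
    rw [sum_finset_split i]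
    apply Finset.sum_congr rfl
    intro S hS
    simp only [mem_filter, mem_univ, true_and] at hS
    simp [upd, hS]
  unfold Lam at h2
  simp only [h2]
  simp only [Finset.mul_sum]
  rw [Finset.sum_comm]
  apply Finset.sum_congr rfl
  intro S hS
  simp only [mem_filter, mem_univ, true_and] at hS
  rw [dmext_node z i S hS f g hg hf, dmext_node' z i S hS f g hg hf]
  have h5 : ∀ b, qw (z i) b * (sg b / (1 + sg b * z i)) = sg b / 2 :=
    fun b => qw_mul_xi _ hz b
  have h6 : ∀ b, qw (z i) b * ((a S + sg b / (1 + sg b * z i) * a (insert i S)) * dmext S (g b) z)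
      = a S * (qw (z i) b * dmext S (g b) z) + a (insert i S) * (sg b / 2 * dmext S (g b) z) := by
    intro b
    rw [← h5 b]; ring
  simp only [h6]
  rw [Finset.sum_add_distrib, Finset.mul_sum, Finset.mul_sum]


/-- weighted `ℓ_p` mean over a bit -/
noncomputable def wn (p : ℕ) (q : Bool → ℝ) (h : Bool → ℝ) : ℝ :=
  (∑ b, q b * (h b) ^ p) ^ ((1:ℝ) / p)

lemma wn_eq (p : ℕ) (hp : 1 ≤ p) (q h : Bool → ℝ) (hq : ∀ b, 0 ≤ q b) (hh : ∀ b, 0 ≤ h b) :
    wn p q h = (∑ b, ((q b) ^ ((1:ℝ) / p) * h b) ^ (p:ℝ)) ^ ((1:ℝ) / p) := by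
  unfold wn
  congr 1
  apply Finset.sum_congr rfl
  intro b _
  rw [Real.mul_rpow (Real.rpow_nonneg (hq b) _) (hh b), ← Real.rpow_mul (hq b)]
  have : (p:ℝ) ≠ 0 := by positivity
  rw [one_div_mul_cancel this, Real.rpow_one, Real.rpow_natCast]

lemma wn_add (p : ℕ) (hp : 1 ≤ p) (q h h' : Bool → ℝ) (hq : ∀ b, 0 ≤ q b) (hh : ∀ b, 0 ≤ h b)
    (hh' : ∀ b, 0 ≤ h' b) : wn p q (fun b => h b + h' b) ≤ wn p q h + wn p q h' := by
  rw [wn_eq p hp q _ hq (fun b => add_nonneg (hh b) (hh' b)), wn_eq p hp q h hq hh,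
    wn_eq p hp q h' hq hh']
  have := Real.Lp_add_le_of_nonneg (s := (univ : Finset Bool))
    (f := fun b => (q b) ^ ((1:ℝ) / p) * h b) (g := fun b => (q b) ^ ((1:ℝ) / p) * h' b)
    (p := (p:ℝ)) (by exact_mod_cast hp)
    (fun b _ => mul_nonneg (Real.rpow_nonneg (hq b) _) (hh b))
    (fun b _ => mul_nonneg (Real.rpow_nonneg (hq b) _) (hh' b))
  simpa only [mul_add] using this

lemma wn_nonneg (p : ℕ) (q h : Bool → ℝ) (hq : ∀ b, 0 ≤ q b) (hh : ∀ b, 0 ≤ h b) :
    0 ≤ wn p q h :=
  Real.rpow_nonneg (Finset.sum_nonneg fun b _ => mul_nonneg (hq b) (pow_nonneg (hh b) _)) _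

lemma wn_smul (p : ℕ) (hp : 1 ≤ p) (q h : Bool → ℝ) (hq : ∀ b, 0 ≤ q b) (hh : ∀ b, 0 ≤ h b)
    (c : ℝ) (hc : 0 ≤ c) : wn p q (fun b => c * h b) = c * wn p q h := by
  unfold wn
  have : ∑ b, q b * (c * h b) ^ p = c ^ p * ∑ b, q b * h b ^ p := by
    rw [Finset.mul_sum]; apply Finset.sum_congr rfl; intro b _; ring
  rw [this, Real.mul_rpow (by positivity)
    (Finset.sum_nonneg fun b _ => mul_nonneg (hq b) (pow_nonneg (hh b) _))]
  congr 1
  rw [← Real.rpow_natCast, ← Real.rpow_mul hc]
  have : (p:ℝ) ≠ 0 := by positivity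
  rw [mul_one_div_cancel this, Real.rpow_one]

lemma wn_sum (p : ℕ) (hp : 1 ≤ p) (q : Bool → ℝ) (hq : ∀ b, 0 ≤ q b) (s : Finset ℕ)
    (c : ℕ → ℝ) (hc : ∀ j, 0 ≤ c j) (h : ℕ → Bool → ℝ) (hh : ∀ j b, 0 ≤ h j b) :
    wn p q (fun b => ∑ j ∈ s, c j * h j b) ≤ ∑ j ∈ s, c j * wn p q (h j) := by
  classical
  induction s using Finset.induction_on with
  | empty =>
    have hp' : p ≠ 0 := by omega
    have : (p:ℝ) ≠ 0 := by positivity
    simp [wn, hp']
  | insert j s hj ih =>
    simp only [Finset.sum_insert hj]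
    calc wn p q (fun b => c j * h j b + ∑ j ∈ s, c j * h j b)
        ≤ wn p q (fun b => c j * h j b) + wn p q (fun b => ∑ j ∈ s, c j * h j b) :=
          wn_add p hp q _ _ hq (fun b => mul_nonneg (hc j) (hh j b))
            (fun b => Finset.sum_nonneg fun j _ => mul_nonneg (hc j) (hh j b))
      _ ≤ c j * wn p q (h j) + ∑ j ∈ s, c j * wn p q (h j) := by
          rw [wn_smul p hp q (h j) hq (hh j) (c j) (hc j)]
          linarith

/-- level-`j` norm of a coefficient vector. -/
noncomputable def Bn (p j : ℕ) (a : Finset ι → ℝ) : ℝ :=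
  (∑ S ∈ powersetCard j univ, (a S ^ 2) ^ p) ^ ((1:ℝ) / p)

omit [DecidableEq ι] in
lemma Bn_nonneg (p j : ℕ) (a : Finset ι → ℝ) : 0 ≤ Bn p j a :=
  Real.rpow_nonneg (Finset.sum_nonneg fun S _ => by positivity) _

omit [DecidableEq ι] in
lemma Bn_pow (p j : ℕ) (hp : 1 ≤ p) (a : Finset ι → ℝ) :
    (Bn p j a) ^ p = ∑ S ∈ powersetCard j univ, (a S ^ 2) ^ p := by
  unfold Bn
  rw [← Real.rpow_natCast, ← Real.rpow_mul (Finset.sum_nonneg fun S _ => by positivity)]
  have : (p:ℝ) ≠ 0 := by positivity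
  rw [one_div_mul_cancel this, Real.rpow_one]

lemma wn_Bn_upd (p j : ℕ) (hp : 1 ≤ p) (q ξ : Bool → ℝ) (hq0 : ∀ b, 0 ≤ q b)
    (hq1 : ∑ b, q b = 1) (hmean : ∑ b, q b * ξ b = 0) (hξ : ∀ b, |ξ b| ≤ 2) (i : ι)
    (a : Finset ι → ℝ) :
    wn p q (fun b => Bn p j (upd i (ξ b) a)) ≤ Bn p j a + 4 * 9 ^ p * Bn p (j + 1) a := by
  have hp0 : (0:ℝ) < p := by exact_mod_cast hp
  set K : ℝ := 4 * 9 ^ p with hK
  have hK0 : 0 ≤ K := by positivity
  set F : Finset (Finset ι) := (powersetCard j univ).filter (fun S => i ∉ S) with hF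
  have h1 : wn p q (fun b => Bn p j (upd i (ξ b) a)) ≤
      (∑ S ∈ F, (a S ^ 2 + K * a (insert i S) ^ 2) ^ (p:ℝ)) ^ ((1:ℝ) / p) := by
    unfold wn
    apply Real.rpow_le_rpow
    · exact Finset.sum_nonneg fun b _ => mul_nonneg (hq0 b) (pow_nonneg (Bn_nonneg _ _ _) _)
    · simp only [Bn_pow p j hp, Finset.mul_sum]
      rw [Finset.sum_comm, ← Finset.sum_filter_add_sum_filter_not _ (fun S => i ∉ S)]
      have h0 : ∑ S ∈ (powersetCard j univ).filter (fun S => ¬ i ∉ S),
          ∑ b, q b * (upd i (ξ b) a S ^ 2) ^ p = 0 := by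
        apply Finset.sum_eq_zero
        intro S hS
        simp only [mem_filter, not_not] at hS
        apply Finset.sum_eq_zero
        intro b _
        have hp' : p ≠ 0 := by omega
        simp [upd, hS.2, hp']
      rw [h0, add_zero]
      apply Finset.sum_le_sum
      intro S hS
      simp only [mem_filter] at hS
      have h2 := two_point p hp q ξ hq0 hq1 hmean hξ (a S) (a (insert i S))
      rw [Real.rpow_natCast]
      calc ∑ b, q b * (upd i (ξ b) a S ^ 2) ^ p
          = ∑ b, q b * (a S + ξ b * a (insert i S)) ^ (2 * p) := by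
            apply Finset.sum_congr rfl
            intro b _
            simp only [upd, hS.2, if_false]
            rw [pow_mul]
        _ ≤ _ := h2
    · positivity
  have h2 := Real.Lp_add_le_of_nonneg (s := F) (f := fun S => a S ^ 2)
    (g := fun S => K * a (insert i S) ^ 2) (p := (p:ℝ)) (by exact_mod_cast hp)
    (fun S _ => by positivity) (fun S _ => by positivity)
  have h3 : (∑ S ∈ F, (a S ^ 2) ^ (p:ℝ)) ^ ((1:ℝ) / p) ≤ Bn p j a := by
    unfold Bn
    apply Real.rpow_le_rpow
    · exact Finset.sum_nonneg fun S _ => by positivity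
    · simp only [Real.rpow_natCast]
      apply Finset.sum_le_sum_of_subset_of_nonneg (Finset.filter_subset _ _)
      intro S _ _; positivity
    · positivity
  have h4 : (∑ S ∈ F, (K * a (insert i S) ^ 2) ^ (p:ℝ)) ^ ((1:ℝ) / p) ≤ K * Bn p (j + 1) a := by
    have h5 : ∑ S ∈ F, (K * a (insert i S) ^ 2) ^ (p:ℝ) = K ^ p * ∑ S ∈ F, (a (insert i S) ^ 2) ^ p := by
      rw [Finset.mul_sum]
      apply Finset.sum_congr rfl
      intro S _
      rw [Real.rpow_natCast, mul_pow]
    rw [h5, Real.mul_rpow (by positivity) (Finset.sum_nonneg fun S _ => by positivity)]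
    have h6 : (K ^ p) ^ ((1:ℝ) / p) = K := by
      rw [← Real.rpow_natCast, ← Real.rpow_mul hK0, mul_one_div_cancel hp0.ne', Real.rpow_one]
    rw [h6]
    apply mul_le_mul_of_nonneg_left _ hK0
    unfold Bn
    apply Real.rpow_le_rpow
    · exact Finset.sum_nonneg fun S _ => by positivity
    · have h7 : ∑ S ∈ F, (a (insert i S) ^ 2) ^ p = ∑ T ∈ F.image (fun S => insert i S), (a T ^ 2) ^ p := by
        rw [Finset.sum_image]
        intro S hS T hT h
        simp only [hF, mem_coe, mem_filter] at hS hT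
        have := congrArg (fun U => U.erase i) h
        simpa [Finset.erase_insert hS.2, Finset.erase_insert hT.2] using this
      rw [h7]
      apply Finset.sum_le_sum_of_subset_of_nonneg
      · intro T hT
        simp only [hF, mem_image, mem_filter, mem_powersetCard] at hT ⊢
        obtain ⟨S, ⟨⟨_, hS⟩, hiS⟩, rfl⟩ := hT
        refine ⟨Finset.subset_univ _, ?_⟩
        rw [Finset.card_insert_of_notMem hiS, hS]
      · intro S _ _; positivity
    · positivity
  linarith

/-- the potential -/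
noncomputable def Gp (p d : ℕ) (a : Finset ι → ℝ) : ℝ :=
  ∑ j ∈ range (d + 1), ((d.choose j : ℝ) * (4 * 9 ^ p) ^ j) * Bn p j a

omit [DecidableEq ι] in
lemma Gp_nonneg (p d : ℕ) (a : Finset ι → ℝ) : 0 ≤ Gp p d a :=
  Finset.sum_nonneg fun j _ => mul_nonneg (by positivity) (Bn_nonneg _ _ _)

omit [DecidableEq ι] in
lemma Bn_zero (p : ℕ) (hp : 1 ≤ p) (a : Finset ι → ℝ) : Bn p 0 a = a ∅ ^ 2 := by
  unfold Bn
  simp only [powersetCard_zero, sum_singleton]
  have : (p:ℝ) ≠ 0 := by positivity
  rw [← Real.rpow_natCast, ← Real.rpow_mul (by positivity), mul_one_div_cancel this, Real.rpow_one]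

omit [DecidableEq ι] in
lemma Bn_zero_le_Gp (p d : ℕ) (a : Finset ι → ℝ) : Bn p 0 a ≤ Gp p d a := by
  unfold Gp
  rw [Finset.sum_range_succ']
  simp only [Nat.choose_zero_right, Nat.cast_one, pow_zero, mul_one, one_mul]
  have : 0 ≤ ∑ k ∈ range d, ((d.choose (k+1) : ℝ) * (4 * 9 ^ p) ^ (k+1)) * Bn p (k+1) a :=
    Finset.sum_nonneg fun j _ => mul_nonneg (by positivity) (Bn_nonneg _ _ _)
  linarith

omit [DecidableEq ι] in
lemma Gp_succ (p d : ℕ) (a : Finset ι → ℝ) :
    ∑ j ∈ range (d + 1), ((d.choose j : ℝ) * (4 * 9 ^ p) ^ j) * (Bn p j a + 4 * 9 ^ p * Bn p (j + 1) a)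
      = Gp p (d + 1) a := by
  unfold Gp
  set K : ℝ := 4 * 9 ^ p
  have h1 : ∑ j ∈ range (d + 1), ((d.choose j : ℝ) * K ^ j) * (Bn p j a + K * Bn p (j + 1) a)
      = ∑ j ∈ range (d + 1), ((d.choose j : ℝ) * K ^ j) * Bn p j a
        + ∑ j ∈ range (d + 1), ((d.choose j : ℝ) * K ^ (j+1)) * Bn p (j + 1) a := by
    rw [← Finset.sum_add_distrib]
    apply Finset.sum_congr rfl; intro j _; ring
  rw [h1]
  have h2 : ∑ j ∈ range (d + 1), ((d.choose j : ℝ) * K ^ j) * Bn p j a
      = ∑ j ∈ range (d + 1), ((d.choose (j+1) : ℝ) * K ^ (j+1)) * Bn p (j+1) a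
        + Bn p 0 a := by
    have h3 : ∑ j ∈ range (d + 1), ((d.choose j : ℝ) * K ^ j) * Bn p j a
      = ∑ j ∈ range (d + 2), ((d.choose j : ℝ) * K ^ j) * Bn p j a := by
      rw [Finset.sum_range_succ _ (d+1)]
      simp
    rw [h3, Finset.sum_range_succ']
    simp
  rw [h2, Finset.sum_range_succ' _ (d+1)]
  simp only [Nat.choose_zero_right, Nat.cast_one, pow_zero, mul_one, one_mul]
  have h4 : ∀ j, (((d+1).choose (j+1) : ℝ) * K ^ (j+1)) * Bn p (j+1) a
      = ((d.choose (j+1) : ℝ) * K ^ (j+1)) * Bn p (j+1) a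
        + ((d.choose j : ℝ) * K ^ (j+1)) * Bn p (j + 1) a := by
    intro j
    rw [Nat.choose_succ_succ]; push_cast; ring
  simp only [h4, Finset.sum_add_distrib]
  ring

lemma dmext_const (S : Finset ι) (c : ℝ) (z : ι → ℝ) :
    dmext S (fun _ => c) z = if S = ∅ then c else 0 := by
  unfold dmext
  rw [← Finset.mul_sum]
  have h := Finset.prod_univ_sum (fun _ : ι => (univ : Finset Bool))
    (fun i b => if i ∈ S then sg b / 2 else qw (z i) b)
  have h' : ∑ x : ι → Bool, ∏ i, (if i ∈ S then sg (x i) / 2 else qw (z i) (x i))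
      = ∏ i, ∑ b, (if i ∈ S then sg b / 2 else qw (z i) b) := by
    rw [h, Fintype.piFinset_univ]
  rw [h']
  by_cases hS : S = ∅
  · subst hS
    have h1 : ∏ i : ι, ∑ b, (if i ∈ (∅ : Finset ι) then sg b / 2 else qw (z i) b) = 1 := by
      apply Finset.prod_eq_one
      intro i _
      simp only [Finset.notMem_empty, if_false]
      exact sum_qw _
    rw [h1]; simp
  · obtain ⟨i, hi⟩ := Finset.nonempty_iff_ne_empty.2 hS
    rw [Finset.prod_eq_zero (Finset.mem_univ i)]
    · simp [hS]
    · simp only [hi, if_true, Fintype.sum_bool, sg_true, sg_false]; norm_num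

/-- **Level bound for decision trees at biased points.** -/
theorem Lam_sq_le (p : ℕ) (hp : 1 ≤ p) (z : ι → ℝ) (hz : ∀ i, |z i| ≤ 1/2) (d : ℕ) :
    ∀ (f : (ι → Bool) → ℝ), DTF d f → ∀ a : Finset ι → ℝ, (Lam z a f) ^ 2 ≤ Gp p d a := by
  have hconst : ∀ (d : ℕ) (c : ℝ) (hc : |c| ≤ 1) (a : Finset ι → ℝ),
      (Lam z a (fun _ => c)) ^ 2 ≤ Gp p d a := by
    intro d c hc a
    have h1 : Lam z a (fun _ => c) = a ∅ * c := by
      unfold Lam
      simp [dmext_const]
    rw [h1]
    calc (a ∅ * c) ^ 2 = a ∅ ^ 2 * c ^ 2 := by ring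
      _ ≤ a ∅ ^ 2 * 1 := by
          apply mul_le_mul_of_nonneg_left _ (sq_nonneg _)
          rw [← sq_abs]; nlinarith [abs_nonneg c]
      _ = Bn p 0 a := by rw [Bn_zero p hp, mul_one]
      _ ≤ Gp p d a := Bn_zero_le_Gp p d a
  induction d with
  | zero =>
    intro f hf a
    cases hf with
    | const c hc => exact hconst 0 c hc a
  | succ d ih =>
    intro f hf a
    cases hf with
    | const c hc => exact hconst (d+1) c hc a
    | node i g hg =>
      set g' : Bool → (ι → Bool) → ℝ := fun b x => g b (Function.update x i b) with hg'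
      have hg'1 : ∀ b b' x, g' b (Function.update x i b') = g' b x := by
        intro b b' x; simp [hg']
      have hf' : ∀ x, (fun x => g (x i) x) x = g' (x i) x := by
        intro x; simp [hg']
      have hDTF : ∀ b, DTF d (g' b) := fun b => (hg b).restrict i b
      set q := qw (z i)
      set ξ : Bool → ℝ := fun b => sg b / (1 + sg b * z i) with hξdef
      have hzi := abs_le.1 (hz i)
      have hq0 : ∀ b, 0 ≤ q b := by
        intro b; cases b
        · simp [q, qw]; linarith
        · simp [q, qw]; linarith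
      have hq1 : ∑ b, q b = 1 := sum_qw _
      have hmean : ∑ b, q b * ξ b = 0 := by
        have : ∀ b, q b * ξ b = sg b / 2 := fun b => qw_mul_xi _ (hz i) b
        simp only [this, Fintype.sum_bool, sg_true, sg_false]; norm_num
      have hξ : ∀ b, |ξ b| ≤ 2 := by
        intro b
        cases b
        · simp only [hξdef, sg_false, one_mul]
          rw [abs_div, abs_one, abs_of_pos (by linarith), div_le_iff₀ (by linarith)]
          linarith
        · simp only [hξdef, sg_true]
          rw [abs_div, abs_neg, abs_one, abs_of_pos (by linarith), div_le_iff₀ (by linarith)]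
          linarith
      have hL := Lam_node z i (hz i) a (fun x => g (x i) x) g' hg'1 hf'
      have h1 : |Lam z a (fun x => g (x i) x)| ≤ ∑ b, q b * |Lam z (upd i (ξ b) a) (g' b)| := by
        rw [hL]
        apply (Finset.abs_sum_le_sum_abs _ _).trans
        apply Finset.sum_le_sum
        intro b _
        rw [abs_mul, abs_of_nonneg (hq0 b)]
      have h2 : (∑ b, q b * |Lam z (upd i (ξ b) a) (g' b)|) ^ (2 * p) ≤
          ∑ b, q b * |Lam z (upd i (ξ b) a) (g' b)| ^ (2 * p) :=
        Real.pow_arith_mean_le_arith_mean_pow univ q _ (fun b _ => hq0 b) hq1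
          (fun b _ => abs_nonneg _) (2 * p)
      have h3 : ∀ b, |Lam z (upd i (ξ b) a) (g' b)| ^ (2 * p) ≤ (Gp p d (upd i (ξ b) a)) ^ p := by
        intro b
        rw [pow_mul]
        apply pow_le_pow_left₀ (sq_nonneg _)
        rw [sq_abs]
        exact ih (g' b) (hDTF b) _
      have h4 : (∑ b, q b * (Gp p d (upd i (ξ b) a)) ^ p) =
          (wn p q (fun b => Gp p d (upd i (ξ b) a))) ^ p := by
        unfold wn
        rw [← Real.rpow_natCast ((_ : ℝ) ^ _), ← Real.rpow_mul
          (Finset.sum_nonneg fun b _ => mul_nonneg (hq0 b) (pow_nonneg (Gp_nonneg _ _ _) _))]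
        have : (p:ℝ) ≠ 0 := by positivity
        rw [one_div_mul_cancel this, Real.rpow_one]
      have h5 : wn p q (fun b => Gp p d (upd i (ξ b) a)) ≤ Gp p (d + 1) a := by
        unfold Gp
        calc wn p q (fun b => ∑ j ∈ range (d + 1), ((d.choose j : ℝ) * (4 * 9 ^ p) ^ j) * Bn p j (upd i (ξ b) a))
            ≤ ∑ j ∈ range (d + 1), ((d.choose j : ℝ) * (4 * 9 ^ p) ^ j) *
                wn p q (fun b => Bn p j (upd i (ξ b) a)) :=
              wn_sum p hp q hq0 (range (d+1)) (fun j => (d.choose j : ℝ) * (4 * 9 ^ p) ^ j)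
                (fun j => by positivity) (fun j b => Bn p j (upd i (ξ b) a))
                (fun j b => Bn_nonneg _ _ _)
          _ ≤ ∑ j ∈ range (d + 1), ((d.choose j : ℝ) * (4 * 9 ^ p) ^ j) *
                (Bn p j a + 4 * 9 ^ p * Bn p (j + 1) a) := by
              apply Finset.sum_le_sum
              intro j _
              exact mul_le_mul_of_nonneg_left
                (wn_Bn_upd p j hp q ξ hq0 hq1 hmean hξ i a) (by positivity)
          _ = _ := Gp_succ p d a
      have h6 : (|Lam z a (fun x => g (x i) x)| ^ 2) ^ p ≤ (Gp p (d + 1) a) ^ p := by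
        rw [← pow_mul]
        calc |Lam z a (fun x => g (x i) x)| ^ (2 * p)
            ≤ (∑ b, q b * |Lam z (upd i (ξ b) a) (g' b)|) ^ (2 * p) :=
              pow_le_pow_left₀ (abs_nonneg _) h1 _
          _ ≤ _ := h2
          _ ≤ ∑ b, q b * (Gp p d (upd i (ξ b) a)) ^ p := by
              apply Finset.sum_le_sum; intro b _
              exact mul_le_mul_of_nonneg_left (h3 b) (hq0 b)
          _ = _ := h4
          _ ≤ _ := pow_le_pow_left₀ (wn_nonneg _ _ _ hq0 (fun b => Gp_nonneg _ _ _)) h5 _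
      rw [sq_abs] at h6
      exact le_of_pow_le_pow_left₀ (by omega) (Gp_nonneg _ _ _) h6

end Crest.Agent.R350
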