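import Crest.Agent.R350.Defs

/-! Row 350, T7 (part 1): the FFT tableau over `ℤ`. -/

set_option autoImplicit false

namespace Crest.Agent.R350

open Finset

/-- integer sign of a bit -/
def sgZ (b : Bool) : ℤ := if b then -1 else 1

/-- integer Walsh sign -/
def walZ {t : ℕ} (x y : NN t) : ℤ := ∏ i, (if (x i && y i) then (-1 : ℤ) else 1)

theorem sgZ_cast (b : Bool) : ((sgZ b : ℤ) : ℝ) = sg b := by
  cases b <;> simp [sgZ, sg]

theorem walZ_cast {t : ℕ} (x y : NN t) : ((walZ x y : ℤ) : ℝ) = wal x y := by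
  unfold walZ wal
  rw [Int.cast_prod]
  refine Finset.prod_congr rfl fun i _ => ?_
  split_ifs <;> simp

/-- partial Walsh kernel on the first `l` coordinates -/
def WK {t : ℕ} (l : ℕ) (i p : NN t) : ℤ :=
  ∏ c : Fin t, (if c.val < l then (if (i c && p c) then (-1 : ℤ) else 1)
    else (if i c = p c then 1 else 0))

/-- partial Walsh transform on the first `l` coordinates -/
def TR {t : ℕ} (l : ℕ) (g : NN t → ℤ) (i : NN t) : ℤ := ∑ p, WK l i p * g p

theorem TR_zero {t : ℕ} (g : NN t → ℤ) (i : NN t) : TR 0 g i = g i := by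
  unfold TR
  rw [Finset.sum_eq_single i]
  · simp [WK]
  · intro p _ hp
    have : ∃ c, i c ≠ p c := by
      by_contra h
      push Not at h
      exact hp (funext fun c => (h c).symm)
    obtain ⟨c, hc⟩ := this
    have : WK 0 i p = 0 := by
      unfold WK
      apply Finset.prod_eq_zero (Finset.mem_univ c)
      simp [hc]
    rw [this, zero_mul]
  · simp

theorem TR_top {t : ℕ} (g : NN t → ℤ) (i : NN t) : TR t g i = ∑ p, walZ p i * g p := by
  unfold TR
  refine Finset.sum_congr rfl fun p _ => ?_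
  congr 1
  unfold WK walZ
  refine Finset.prod_congr rfl fun c _ => ?_
  rw [if_pos c.isLt, Bool.and_comm]

theorem WK_succ {t : ℕ} (l : Fin t) (i p : NN t) :
    WK (l.val + 1) i p = WK l.val (Function.update i l false) p +
      sgZ (i l) * WK l.val (Function.update i l true) p := by
  unfold WK
  rw [← Finset.mul_prod_erase univ _ (Finset.mem_univ l),
    ← Finset.mul_prod_erase univ (fun c : Fin t =>
      if c.val < l.val then (if ((Function.update i l false) c && p c) then (-1 : ℤ) else 1)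
      else (if (Function.update i l false) c = p c then 1 else 0)) (Finset.mem_univ l),
    ← Finset.mul_prod_erase univ (fun c : Fin t =>
      if c.val < l.val then (if ((Function.update i l true) c && p c) then (-1 : ℤ) else 1)
      else (if (Function.update i l true) c = p c then 1 else 0)) (Finset.mem_univ l)]
  have h1 : ∀ b : Bool, (∏ c ∈ univ.erase l,
      (if c.val < l.val then (if ((Function.update i l b) c && p c) then (-1 : ℤ) else 1)
      else (if (Function.update i l b) c = p c then 1 else 0))) =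
      ∏ c ∈ univ.erase l, (if c.val < l.val + 1 then (if (i c && p c) then (-1 : ℤ) else 1)
        else (if i c = p c then 1 else 0)) := by
    intro b
    refine Finset.prod_congr rfl fun c hc => ?_
    have hcl : c ≠ l := (Finset.mem_erase.1 hc).1
    have hcl' : c.val ≠ l.val := fun h => hcl (Fin.ext h)
    rw [Function.update_of_ne hcl]
    by_cases hlt : c.val < l.val
    · have h2 : c.val < l.val + 1 := by omega
      simp only [hlt, h2, if_true]
    · have h2 : ¬ c.val < l.val + 1 := by omega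
      simp only [hlt, h2, if_false]
  rw [h1 false, h1 true]
  simp only [Function.update_self, lt_irrefl, if_false, Nat.lt_succ_self, if_true]
  unfold sgZ
  cases hi : i l <;> cases hp : p l <;> simp

theorem TR_succ {t : ℕ} (l : Fin t) (g : NN t → ℤ) (i : NN t) :
    TR (l.val + 1) g i = TR l.val g (Function.update i l false) +
      sgZ (i l) * TR l.val g (Function.update i l true) := by
  unfold TR
  rw [Finset.mul_sum, ← Finset.sum_add_distrib]
  refine Finset.sum_congr rfl fun p _ => ?_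
  rw [WK_succ]
  ring

theorem abs_sgZ (b : Bool) : |sgZ b| = 1 := by cases b <;> simp [sgZ]

theorem TR_bound {t : ℕ} (g : NN t → ℤ) (M : ℤ) (hg : ∀ i, |g i| ≤ M) (l : ℕ) (hl : l ≤ t) :
    ∀ i, |TR l g i| ≤ 2 ^ l * M := by
  induction l with
  | zero => intro i; rw [TR_zero]; simpa using hg i
  | succ l ih =>
    intro i
    have hlt : l < t := hl
    have := TR_succ (⟨l, hlt⟩ : Fin t) g i
    simp only at this
    rw [this]
    have h1 := ih hlt.le (Function.update i ⟨l, hlt⟩ false)
    have h2 := ih hlt.le (Function.update i ⟨l, hlt⟩ true)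
    calc _ ≤ |TR l g (Function.update i ⟨l, hlt⟩ false)| +
          |sgZ (i ⟨l, hlt⟩) * TR l g (Function.update i ⟨l, hlt⟩ true)| := abs_add_le _ _
      _ ≤ 2 ^ l * M + 2 ^ l * M := by
        rw [abs_mul, abs_sgZ, one_mul]; exact add_le_add h1 h2
      _ = 2 ^ (l + 1) * M := by ring

/-- level-0 values of block `a` -/
def RV {t : ℕ} (x : ℕ → NN t → ℤ) : ℕ → NN t → ℤ
  | 0, i => x 0 i
  | a + 1, i => x (a + 1) i * TR t (RV x a) i

/-- the tableau value -/
def TV {t : ℕ} (x : ℕ → NN t → ℤ) (a l : ℕ) (i : NN t) : ℤ := TR l (RV x a) i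

theorem RV_bound {t : ℕ} (x : ℕ → NN t → ℤ) (hx : ∀ a i, |x a i| ≤ 1) (a : ℕ) :
    ∀ i, |RV x a i| ≤ 2 ^ (t * a) := by
  induction a with
  | zero => intro i; simpa [RV] using hx 0 i
  | succ a ih =>
    intro i
    show |x (a + 1) i * TR t (RV x a) i| ≤ _
    rw [abs_mul]
    have h1 := TR_bound (RV x a) _ ih t le_rfl i
    calc _ ≤ 1 * (2 ^ t * 2 ^ (t * a)) :=
          mul_le_mul (hx _ _) h1 (abs_nonneg _) (by norm_num)
      _ = 2 ^ (t * (a + 1)) := by rw [one_mul, ← pow_add]; ring_nf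

theorem TV_bound {t : ℕ} (x : ℕ → NN t → ℤ) (hx : ∀ a i, |x a i| ≤ 1) (k a l : ℕ)
    (ha : a ≤ k) (hl : l ≤ t) (i : NN t) : |TV x a l i| ≤ 2 ^ (t * (k + 1)) := by
  have h1 := TR_bound (RV x a) _ (RV_bound x hx a) l hl i
  refine h1.trans ?_
  rw [← pow_add]
  apply pow_le_pow_right₀ (by norm_num)
  have : t * a ≤ t * k := Nat.mul_le_mul_left t ha
  nlinarith

/-- numerator path sums -/
def GP {t : ℕ} (k : ℕ) (x : Fin (k + 1) → NN t → ℤ) (i : NN t) : ℤ :=
  ∑ p : Fin (k + 1) → NN t, (∏ a, x a (p a)) * (∏ a : Fin k, walZ (p a.castSucc) (p a.succ)) *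
    walZ (p (Fin.last k)) i

theorem GP_zero {t : ℕ} (x : Fin 1 → NN t → ℤ) (i : NN t) :
    GP 0 x i = ∑ q, walZ q i * x 0 q := by
  unfold GP
  rw [← (Equiv.funUnique (Fin 1) (NN t)).symm.sum_comp]
  refine Finset.sum_congr rfl fun q _ => ?_
  simp [mul_comm]

theorem GP_succ {t : ℕ} (k : ℕ) (x : Fin (k + 2) → NN t → ℤ) (i : NN t) :
    GP (k + 1) x i = ∑ q, walZ q i * (x (Fin.last (k + 1)) q *
      GP k (fun a => x a.castSucc) q) := by
  unfold GP
  rw [← (Fin.snocEquiv (fun _ : Fin (k + 2) => NN t)).sum_comp]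
  rw [Fintype.sum_prod_type]
  refine Finset.sum_congr rfl fun q _ => ?_
  rw [Finset.mul_sum, Finset.mul_sum]
  refine Finset.sum_congr rfl fun p _ => ?_
  have e1 : (∏ a : Fin (k + 1 + 1), x a ((Fin.snocEquiv (fun _ : Fin (k + 2) => NN t)) (q, p) a)) =
      (∏ a : Fin (k + 1), x a.castSucc (p a)) * x (Fin.last (k + 1)) q := by
    rw [Fin.prod_univ_castSucc]
    simp only [Fin.snocEquiv, Equiv.coe_fn_mk, Fin.snoc_castSucc, Fin.snoc_last]
  have e2 : (∏ a : Fin (k + 1), walZ ((Fin.snocEquiv (fun _ : Fin (k + 2) => NN t)) (q, p)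
      a.castSucc) ((Fin.snocEquiv (fun _ : Fin (k + 2) => NN t)) (q, p) a.succ)) =
      (∏ a : Fin k, walZ (p a.castSucc) (p a.succ)) * walZ (p (Fin.last k)) q := by
    rw [Fin.prod_univ_castSucc]
    simp only [Fin.snocEquiv, Equiv.coe_fn_mk, Fin.snoc_castSucc, Fin.snoc_last, Fin.succ_last,
      Fin.succ_castSucc]
  rw [e1, e2]
  simp only [Fin.snocEquiv, Equiv.coe_fn_mk, Fin.snoc_last]
  ring

theorem RV_GP {t : ℕ} (x : ℕ → NN t → ℤ) (k : ℕ) : ∀ i,
    TR t (RV x k) i = GP k (fun a => x a) i := by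
  induction k with
  | zero =>
    intro i
    rw [TR_top, GP_zero]
    rfl
  | succ k ih =>
    intro i
    rw [TR_top, GP_succ]
    refine Finset.sum_congr rfl fun q _ => ?_
    show walZ q i * (x (k + 1) q * TR t (RV x k) q) = _
    rw [ih q]
    rfl

/-- uniqueness of the tableau -/
theorem tableau_unique {t k : ℕ} (x : ℕ → NN t → ℤ) (v : ℕ → ℕ → NN t → ℤ)
    (h0 : ∀ i, v 0 0 i = x 0 i)
    (ha : ∀ a, a + 1 ≤ k → ∀ i, v (a + 1) 0 i = x (a + 1) i * v a t i)
    (hl : ∀ a, a ≤ k → ∀ (l : Fin t) i, v a (l.val + 1) i =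
      v a l.val (Function.update i l false) + sgZ (i l) * v a l.val (Function.update i l true)) :
    ∀ a, a ≤ k → ∀ l, l ≤ t → ∀ i, v a l i = TV x a l i := by
  have key : ∀ a, a ≤ k → (∀ i, v a 0 i = RV x a i) → ∀ l, l ≤ t → ∀ i, v a l i = TV x a l i := by
    intro a hak hv l
    induction l with
    | zero => intro _ i; rw [hv, TV, TR_zero]
    | succ l ih =>
      intro hlt i
      have h1 := hl a hak ⟨l, hlt⟩ i
      simp only at h1
      rw [h1, ih (Nat.le_of_succ_le hlt), ih (Nat.le_of_succ_le hlt)]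
      exact (TR_succ (⟨l, hlt⟩ : Fin t) (RV x a) i).symm
  intro a
  induction a with
  | zero => intro hak; exact key 0 hak h0
  | succ a ih =>
    intro hak
    refine key (a + 1) hak ?_
    intro i
    rw [ha a hak i, ih (Nat.le_of_succ_le hak) t le_rfl i]
    rfl

/-- `phi` through the tableau -/
theorem phi_eq_TV (k t : ℕ) (x : Fin (k + 1) → NN t → Bool) (y : ℕ → NN t → ℤ)
    (hy : ∀ a : Fin (k + 1), ∀ i, y a i = sgZ (x a i)) :
    phi k t x = ((TV y k t (fun _ => false) : ℤ) : ℝ) / Real.sqrt (2 ^ t) ^ (k + 2) := by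
  unfold phi TV
  rw [RV_GP]
  congr 1
  unfold GP
  push_cast
  refine Finset.sum_congr rfl fun p _ => ?_
  have h1 : walZ (p (Fin.last k)) (fun _ => false) = 1 := by
    simp [walZ]
  rw [h1]
  simp only [hy, sgZ_cast, walZ_cast]
  push_cast
  ring

end Crest.Agent.R350
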