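import Crest.Agent.R350.Defs2
import Crest.Agent.R350.FuncFFT

/-! Row 350, T7 (part 2): sheets, contents, local checks and refutation predicates. -/

set_option autoImplicit false

namespace Crest.Agent.R350

open Finset

/-! ### decision tree toolbox -/

theorem DTE.mono' {ι Ω : Type} {d : ℕ} {f : (ι → Bool) → Ω} (h : DTE d f) :
    ∀ {d' : ℕ}, d ≤ d' → DTE d' f := by
  induction h with
  | const d c => intro d' _; exact DTE.const d' c
  | ask d i f g _ _ hf hg =>
    intro d' hd
    obtain ⟨e, rfl⟩ : ∃ e, d' = e + 1 := ⟨d' - 1, by omega⟩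
    exact DTE.ask e i f g (hf (by omega)) (hg (by omega))

theorem DTE_bind {ι Ω Ω' : Type} {d1 d2 : ℕ} {f : (ι → Bool) → Ω} {g : Ω → (ι → Bool) → Ω'}
    (h : DTE d1 f) (hg : ∀ ω, DTE d2 (g ω)) : DTE (d1 + d2) (fun x => g (f x) x) := by
  induction h with
  | const d c => exact (hg c).mono' (by omega)
  | ask d i f f' _ _ hf hf' =>
    have : (fun x : ι → Bool => g (if x i then f' x else f x) x) =
        fun x => if x i then g (f' x) x else g (f x) x := by
      funext x
      split_ifs <;> rfl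
    rw [this, show d + 1 + d2 = (d + d2) + 1 by omega]
    exact DTE.ask _ i _ _ hf hf'

theorem DTE_map {ι Ω Ω' : Type} {d : ℕ} {f : (ι → Bool) → Ω} (g : Ω → Ω')
    (h : DTE d f) : DTE d (fun x => g (f x)) :=
  DTE_bind (d2 := 0) (g := fun ω _ => g ω) h (fun ω => DTE.const 0 (g ω))

theorem DTE_map2 {ι Ω₁ Ω₂ Ω' : Type} {d1 d2 : ℕ} {f : (ι → Bool) → Ω₁} {f' : (ι → Bool) → Ω₂}
    (g : Ω₁ → Ω₂ → Ω') (h : DTE d1 f) (h' : DTE d2 f') :
    DTE (d1 + d2) (fun x => g (f x) (f' x)) :=
  DTE_bind (g := fun ω x => g ω (f' x)) h (fun ω => DTE_map (g ω) h')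

theorem DTE_of_dep {ι Ω : Type} (s : Finset ι) : ∀ (f : (ι → Bool) → Ω),
    (∀ x y, (∀ i ∈ s, x i = y i) → f x = f y) → DTE s.card f := by
  classical
  induction s using Finset.induction_on with
  | empty =>
    intro f hf
    have : f = fun _ => f (fun _ => false) := funext fun x => hf _ _ (by simp)
    rw [this]
    exact DTE.const _ _
  | insert a s ha ih =>
    intro f hf
    rw [Finset.card_insert_of_notMem ha]
    have : f = fun x => if x a then f (Function.update x a true)
        else f (Function.update x a false) := by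
      funext x
      cases hx : x a
      · simp only [Bool.false_eq_true, if_false]
        congr 1
        rw [← hx, Function.update_eq_self]
      · simp only [if_true]
        congr 1
        rw [← hx, Function.update_eq_self]
    rw [this]
    refine DTE.ask _ a (fun x => f (Function.update x a false))
      (fun x => f (Function.update x a true)) (ih _ ?_) (ih _ ?_)
    all_goals
      intro x y hxy
      apply hf
      intro i hi
      by_cases h : i = a
      · subst h; simp
      · rw [Function.update_of_ne h, Function.update_of_ne h]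
        exact hxy i ((Finset.mem_insert.1 hi).resolve_left h)

theorem DTE_bits {ι Ω A : Type} [Fintype A] (c : A → ι) (h : (A → Bool) → Ω) (d : ℕ)
    (hd : Fintype.card A ≤ d) : DTE d (fun x : ι → Bool => h (fun a => x (c a))) := by
  classical
  refine (DTE_of_dep (univ.image c) _ ?_).mono' ?_
  · intro x y hxy
    congr 1
    funext a
    exact hxy _ (Finset.mem_image_of_mem _ (Finset.mem_univ _))
  · exact Finset.card_image_le.trans (by rw [Finset.card_univ]; exact hd)

theorem DTE_bit {ι : Type} (i : ι) : DTE 1 (fun x : ι → Bool => x i) :=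
  DTE_bits (A := Unit) (fun _ => i) (fun w => w ()) 1 (by simp)

/-! ### coding of integers -/

theorem exists_code (m : ℕ) : ∃ (enc : ℤ → Fin (m + 2) → Bool) (dec : (Fin (m + 2) → Bool) → ℤ),
    ∀ v : ℤ, |v| ≤ 2 ^ m → dec (enc v) = v := by
  classical
  have hcard : Fintype.card (Finset.Icc (-(2 : ℤ) ^ m) (2 ^ m)) ≤
      Fintype.card (Fin (m + 2) → Bool) := by
    rw [Fintype.card_coe, Int.card_Icc, Fintype.card_fun, Fintype.card_bool, Fintype.card_fin]
    have h1 : (2 : ℤ) ^ m + 1 - -(2 : ℤ) ^ m = ((2 * 2 ^ m + 1 : ℕ) : ℤ) := by push_cast; ring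
    rw [h1, Int.toNat_natCast]
    have : 1 ≤ 2 ^ m := Nat.one_le_two_pow
    rw [pow_add]
    omega
  obtain ⟨f⟩ := Function.Embedding.nonempty_of_card_le hcard
  have : Nonempty (Finset.Icc (-(2 : ℤ) ^ m) (2 ^ m)) :=
    ⟨⟨0, by simp⟩⟩
  refine ⟨fun v => if h : v ∈ Finset.Icc (-(2 : ℤ) ^ m) (2 ^ m) then f ⟨v, h⟩ else fun _ => false,
    fun w => ((Function.invFun (fun v => f v) w : Finset.Icc (-(2 : ℤ) ^ m) (2 ^ m)) : ℤ), ?_⟩
  intro v hv
  have hmem : v ∈ Finset.Icc (-(2 : ℤ) ^ m) (2 ^ m) := by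
    rw [Finset.mem_Icc]; exact abs_le.1 hv
  simp only [dif_pos hmem]
  rw [Function.leftInverse_invFun (f := fun v => f v) f.injective]

/-! ### the tableau relation -/

/-- right-hand side of the local relation of a tableau -/
def Rel {t : ℕ} (y : ℕ → NN t → ℤ) (V : ℕ → ℕ → NN t → ℤ) : ℕ → ℕ → NN t → ℤ
  | 0, 0, i => y 0 i
  | a + 1, 0, i => y (a + 1) i * V a t i
  | a, l + 1, i => if h : l < t then V a l (Function.update i ⟨l, h⟩ false) +
      sgZ (i ⟨l, h⟩) * V a l (Function.update i ⟨l, h⟩ true) else 0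

theorem TV_rel {t : ℕ} (y : ℕ → NN t → ℤ) (a l : ℕ) (hl : l ≤ t) (i : NN t) :
    TV y a l i = Rel y (TV y) a l i := by
  cases l with
  | zero =>
    cases a with
    | zero => show TR 0 (RV y 0) i = y 0 i; rw [TR_zero]; rfl
    | succ a =>
      show TR 0 (RV y (a + 1)) i = y (a + 1) i * TR t (RV y a) i
      rw [TR_zero]; rfl
  | succ l =>
    have h : l < t := hl
    have h2 : Rel y (TV y) a (l + 1) i = if h : l < t then
        TV y a l (Function.update i ⟨l, h⟩ false) +
        sgZ (i ⟨l, h⟩) * TV y a l (Function.update i ⟨l, h⟩ true) else 0 := by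
      cases a <;> rfl
    rw [h2, dif_pos h]
    exact TR_succ (⟨l, h⟩ : Fin t) (RV y a) i

theorem Rel_congr {t : ℕ} (y : ℕ → NN t → ℤ) (V V' : ℕ → ℕ → NN t → ℤ) (a l : ℕ) (hl : l ≤ t)
    (h : ∀ a', a' ≤ a → ∀ l', l' ≤ t → ∀ i, V a' l' i = V' a' l' i) (i : NN t) :
    Rel y V a l i = Rel y V' a l i := by
  cases l with
  | zero =>
    cases a with
    | zero => rfl
    | succ a =>
      show y (a + 1) i * V a t i = y (a + 1) i * V' a t i
      rw [h a (Nat.le_succ a) t le_rfl]
  | succ l =>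
    have h2 : ∀ W : ℕ → ℕ → NN t → ℤ, Rel y W a (l + 1) i = if h : l < t then
        W a l (Function.update i ⟨l, h⟩ false) +
        sgZ (i ⟨l, h⟩) * W a l (Function.update i ⟨l, h⟩ true) else 0 := by
      intro W
      cases a <;> rfl
    have h3 : l < t := hl
    rw [h2 V, h2 V', dif_pos h3, dif_pos h3, h a le_rfl l h3.le, h a le_rfl l h3.le]

theorem eq_TV_of_rel {t k : ℕ} (y : ℕ → NN t → ℤ) (V : ℕ → ℕ → NN t → ℤ)
    (h : ∀ a, a ≤ k → ∀ l, l ≤ t → ∀ i, V a l i = Rel y V a l i) :
    ∀ a, a ≤ k → ∀ l, l ≤ t → ∀ i, V a l i = TV y a l i := by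
  refine tableau_unique y V (fun i => h 0 (Nat.zero_le _) 0 (Nat.zero_le _) i)
    (fun a ha i => h (a + 1) ha 0 (Nat.zero_le _) i) ?_
  intro a ha l i
  rw [h a ha (l.val + 1) l.isLt i]
  have h2 : Rel y V a (l.val + 1) i = if h : l.val < t then
      V a l (Function.update i ⟨l, h⟩ false) +
      sgZ (i ⟨l, h⟩) * V a l (Function.update i ⟨l, h⟩ true) else 0 := by
    cases a <;> rfl
  rw [h2, dif_pos l.isLt]

/-! ### the construction -/

/-- cells of the tableaux -/
abbrev TabIx (k t τ S : ℕ) : Type := (Fin τ × Fin S) × (Fin (k + 1) × (Fin (t + 1) × NN t))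

/-- index set of a sheet -/
abbrev Eta (k t τ S : ℕ) : Type := (NN t × Fin t) ⊕ (TabIx k t τ S × Fin (t * (k + 1) + 2))

/-- local checks -/
abbrev Chk (k t τ S : ℕ) : Type := (NN t ⊕ NN t) ⊕ (TabIx k t τ S ⊕ Fin τ)

/-- positions of the input -/
abbrev Pos (k t τ S : ℕ) : Type :=
  (NN t × NN t) ⊕ (NN t × ZI k t τ S) ⊕ (NN t × (Fin τ → Bool) × Eta k t τ S)

/-- the pointer of sheet `(b, κ)` into column `j` -/
def ptr {k t τ S : ℕ} (b : NN t) (κ : Fin τ → Bool) (j : NN t) (x : Pos k t τ S → Bool) : NN t :=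
  fun i => x (Sum.inr (Sum.inr (b, κ, Sum.inl (j, i))))

/-- refutation predicate -/
def refF (k t τ S : ℕ) (b : NN t) (κ : Fin τ → Bool) (j : NN t) (x : Pos k t τ S → Bool) : Bool :=
  !(x (Sum.inl (ptr b κ j x, j)))

/-- integer value of a tableau cell -/
def valF {k t τ S : ℕ} (dec : (Fin (t * (k + 1) + 2) → Bool) → ℤ) (b : NN t) (κ : Fin τ → Bool)
    (us : Fin τ × Fin S) (x : Pos k t τ S → Bool) (a l : ℕ) (i : NN t) : ℤ :=
  dec (fun β => x (Sum.inr (Sum.inr (b, κ, Sum.inr
    ((us, (Fin.ofNat (k + 1) a, (Fin.ofNat (t + 1) l, i))), β)))))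

/-- signs of the instance `(u, s)` of column `b` -/
def yF {k t τ S : ℕ} (b : NN t) (us : Fin τ × Fin S) (x : Pos k t τ S → Bool) (a : ℕ)
    (i : NN t) : ℤ :=
  sgZ (x (Sum.inr (Sum.inl (b, (us, (Fin.ofNat (k + 1) a, i))))))

/-- the threshold test -/
def ThrP (k t S : ℕ) (θ0 θ1 : ℝ) (bit : Bool) (v : Fin S → ℤ) : Prop :=
  (bit = true → θ1 ≤ (∑ s, ((v s : ℤ) : ℝ) / Real.sqrt (2 ^ t) ^ (k + 2)) / S) ∧
  (bit = false → (∑ s, ((v s : ℤ) : ℝ) / Real.sqrt (2 ^ t) ^ (k + 2)) / S ≤ θ0)

open Classical in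
/-- the local checks -/
noncomputable def chkF (k t τ S : ℕ) (θ0 θ1 : ℝ) (dec : (Fin (t * (k + 1) + 2) → Bool) → ℤ)
    (b : NN t) (κ : Fin τ → Bool) : Chk k t τ S → (Pos k t τ S → Bool) → Bool
  | .inl (.inl r), x => x (Sum.inl (r, b))
  | .inl (.inr j), x => if j = b then true else refF k t τ S b κ j x
  | .inr (.inl (us, (a, (l, i)))), x =>
      decide (valF dec b κ us x a l i = Rel (yF b us x) (valF dec b κ us x) a l i)
  | .inr (.inr u), x =>
      decide (ThrP k t S θ0 θ1 (κ u) (fun s => valF dec b κ (u, s) x k t (fun _ => false)))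

/-- the honest content of a sheet -/
def contentF (k t τ S : ℕ) (enc : ℤ → Fin (t * (k + 1) + 2) → Bool)
    (_b : NN t) (_κ : Fin τ → Bool) (e : NN t → NN t) (z : ZI k t τ S → Bool) :
    Eta k t τ S → Bool
  | .inl (j, i) => e j i
  | .inr ((us, (a, (l, i))), β) =>
      enc (TV (fun a' i' => sgZ (z (us, (Fin.ofNat (k + 1) a', i')))) a l i) β

theorem refF_DTE (k t τ S : ℕ) (b : NN t) (κ : Fin τ → Bool) (j : NN t) :
    DTE (t + 1) (refF k t τ S b κ j) := by
  have h1 : DTE t (ptr (k := k) (S := S) b κ j) :=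
    DTE_bits (fun i : Fin t => (Sum.inr (Sum.inr (b, κ, Sum.inl (j, i))) : Pos k t τ S))
      (fun w => w) t (by simp)
  exact DTE_bind (g := fun p (x : Pos k t τ S → Bool) => !(x (Sum.inl (p, j)))) h1
    (fun p => DTE_map (fun c : Bool => !c) (DTE_bit (ι := Pos k t τ S) (Sum.inl (p, j))))

theorem valF_DTE {k t τ S : ℕ} (dec : (Fin (t * (k + 1) + 2) → Bool) → ℤ) (b : NN t)
    (κ : Fin τ → Bool) (us : Fin τ × Fin S) (a l : ℕ) (i : NN t) :
    DTE (t * (k + 1) + 2) (fun x : Pos k t τ S → Bool => valF dec b κ us x a l i) :=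
  DTE_bits (fun β : Fin (t * (k + 1) + 2) => (Sum.inr (Sum.inr (b, κ, Sum.inr
    ((us, (Fin.ofNat (k + 1) a, (Fin.ofNat (t + 1) l, i))), β))) : Pos k t τ S)) dec _ (by simp)

theorem yF_DTE {k t τ S : ℕ} (b : NN t) (us : Fin τ × Fin S) (a : ℕ) (i : NN t) :
    DTE 1 (fun x : Pos k t τ S → Bool => yF b us x a i) :=
  DTE_map sgZ (DTE_bit (ι := Pos k t τ S) _)

theorem Rel_DTE {k t τ S : ℕ} (dec : (Fin (t * (k + 1) + 2) → Bool) → ℤ) (b : NN t)
    (κ : Fin τ → Bool) (us : Fin τ × Fin S) (a l : ℕ) (i : NN t) :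
    DTE (2 * (t * (k + 1) + 2) + 1) (fun x : Pos k t τ S → Bool =>
      Rel (yF b us x) (valF dec b κ us x) a l i) := by
  have hs : ∀ (a l : ℕ), DTE (2 * (t * (k + 1) + 2) + 1) (fun x : Pos k t τ S → Bool =>
      if h : l < t then valF dec b κ us x a l (Function.update i ⟨l, h⟩ false) +
      sgZ (i ⟨l, h⟩) * valF dec b κ us x a l (Function.update i ⟨l, h⟩ true) else 0) := by
    intro a l
    by_cases h : l < t
    · simp only [h, dif_pos]
      exact (DTE_map2 (fun p q : ℤ => p + sgZ (i ⟨l, h⟩) * q) (valF_DTE dec b κ us a l _)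
        (valF_DTE dec b κ us a l _)).mono' (by omega)
    · simp only [h, dif_neg, not_false_iff]
      exact DTE.const _ _
  cases l with
  | zero =>
    cases a with
    | zero => exact (yF_DTE b us 0 i).mono' (by omega)
    | succ a =>
      exact (DTE_map2 (fun p q : ℤ => p * q) (yF_DTE b us (a + 1) i)
        (valF_DTE dec b κ us a t i)).mono' (by omega)
  | succ l =>
    cases a with
    | zero => exact hs 0 l
    | succ a => exact hs (a + 1) l

theorem chkF_DTE (k t τ S : ℕ) (θ0 θ1 : ℝ) (dec : (Fin (t * (k + 1) + 2) → Bool) → ℤ)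
    (b : NN t) (κ : Fin τ → Bool) (c : Chk k t τ S) :
    DTE ((S + 3) * (t * (k + 1) + 3) + t + 2) (chkF k t τ S θ0 θ1 dec b κ c) := by
  classical
  rcases c with (r | j) | (⟨us, a, l, i⟩ | u)
  · exact (DTE_bit (ι := Pos k t τ S) (Sum.inl (r, b))).mono' (by omega)
  · have : chkF k t τ S θ0 θ1 dec b κ (.inl (.inr j)) =
        fun x => if j = b then true else refF k t τ S b κ j x := rfl
    rw [this]
    by_cases h : j = b
    · simp only [h, if_true]; exact DTE.const _ _
    · simp only [h, if_false]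
      exact (refF_DTE k t τ S b κ j).mono' (by omega)
  · have h := (DTE_map2 (fun p q : ℤ => decide (p = q)) (valF_DTE dec b κ us a l i)
      (Rel_DTE dec b κ us a l i)).mono' (d' := (S + 3) * (t * (k + 1) + 3) + t + 2) (by
        nlinarith [Nat.zero_le (S * (t * (k + 1) + 3))])
    convert h using 1
    funext x
    simp only [chkF]
  · have h := DTE_bits (fun q : Fin S × Fin (t * (k + 1) + 2) =>
      (Sum.inr (Sum.inr (b, κ, Sum.inr (((u, q.1), (Fin.ofNat (k + 1) k, (Fin.ofNat (t + 1) t,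
        (fun _ => false)))), q.2))) : Pos k t τ S))
      (fun w => decide (ThrP k t S θ0 θ1 (κ u) (fun s => dec (fun β => w (s, β)))))
      ((S + 3) * (t * (k + 1) + 3) + t + 2) (by
        rw [Fintype.card_prod, Fintype.card_fin, Fintype.card_fin]
        nlinarith)
    exact h

theorem chk_card (k t τ S : ℕ) :
    Fintype.card (Chk k t τ S) ≤ 2 ^ t * (2 + τ * S * (k + 1) * (t + 1) + τ) := by
  simp only [Fintype.card_sum, Fintype.card_prod, Fintype.card_fin, Fintype.card_fun,
    Fintype.card_bool]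
  have : 1 ≤ 2 ^ t := Nat.one_le_two_pow
  nlinarith [Nat.mul_le_mul_right τ this]

theorem ofNat_val (n : ℕ) (a : Fin (n + 1)) : Fin.ofNat (n + 1) a.val = a := by
  apply Fin.ext
  simp [Fin.ofNat, Nat.mod_eq_of_lt a.isLt]

/-- T7: existence of sheets, contents, local checks and refutation predicates. -/
theorem func_exists (k t τ S : ℕ) (_hS : 1 ≤ S) (θ0 θ1 : ℝ) :
    ∃ (η C : Type) (_ : Fintype η) (_ : DecidableEq η) (_ : Fintype C) (_ : DecidableEq C)
      (_ : Nonempty C)
      (content : NN t → (Fin τ → Bool) → (NN t → NN t) → (ZI k t τ S → Bool) → η → Bool)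
      (ref : NN t → (Fin τ → Bool) → NN t →
        ((NN t × NN t) ⊕ (NN t × ZI k t τ S) ⊕ (NN t × (Fin τ → Bool) × η) → Bool) → Bool)
      (chk : NN t → (Fin τ → Bool) → C →
        ((NN t × NN t) ⊕ (NN t × ZI k t τ S) ⊕ (NN t × (Fin τ → Bool) × η) → Bool) → Bool),
      (∀ b κ j, DTE (t + 1) (ref b κ j)) ∧
      (∀ b κ c, DTE ((S + 3) * (t * (k + 1) + 3) + t + 2) (chk b κ c)) ∧
      Fintype.card C ≤ 2 ^ t * (2 + τ * S * (k + 1) * (t + 1) + τ) ∧
      (∀ x b κ, (∀ c, chk b κ c x = true) →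
        Good k t τ S θ0 θ1 κ (fun w => x (Sum.inr (Sum.inl (b, w))))) ∧
      (∀ x b κ, (∀ c, chk b κ c x = true) → ∀ j, j ≠ b → ref b κ j x = true) ∧
      (∀ x b κ, (∀ c, chk b κ c x = true) → ∀ b' κ', ref b' κ' b x = false) ∧
      (∀ b κ e z, Good k t τ S θ0 θ1 κ (z b) →
        ∀ c, chk b κ c (build content b κ e z) = true) ∧
      (∀ x, (∀ c, ∃ r, x (Sum.inl (r, c)) = false) → ∀ b κ, ∃ c, chk b κ c x = false) := by
  classical
  obtain ⟨enc, dec, hcode⟩ := exists_code (t * (k + 1))
  refine ⟨Eta k t τ S, Chk k t τ S, inferInstance, inferInstance, inferInstance, inferInstance,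
    ⟨.inl (.inl (fun _ => false))⟩, contentF k t τ S enc, refF k t τ S,
    chkF k t τ S θ0 θ1 dec, refF_DTE k t τ S, chkF_DTE k t τ S θ0 θ1 dec, chk_card k t τ S,
    ?_, ?_, ?_, ?_, ?_⟩
  · -- soundness of the tableau + threshold
    intro x b κ hc u
    have hV : ∀ s : Fin S, valF dec b κ (u, s) x k t (fun _ => false) =
        TV (yF b (u, s) x) k t (fun _ => false) := by
      intro s
      refine eq_TV_of_rel (k := k) (yF b (u, s) x) (valF dec b κ (u, s) x) ?_ k le_rfl t le_rfl _
      intro a ha l hl i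
      have := hc (.inr (.inl ((u, s), (⟨a, Nat.lt_succ_of_le ha⟩, (⟨l, Nat.lt_succ_of_le hl⟩, i)))))
      simpa only [chkF, decide_eq_true_eq] using this
    have hphi : ∀ s : Fin S, phi k t (fun a i => x (Sum.inr (Sum.inl (b, ((u, s), (a, i)))))) =
        ((valF dec b κ (u, s) x k t (fun _ => false) : ℤ) : ℝ) / Real.sqrt (2 ^ t) ^ (k + 2) := by
      intro s
      rw [hV s]
      apply phi_eq_TV
      intro a i
      show sgZ _ = _
      rw [ofNat_val]
    have hT := hc (.inr (.inr u))
    simp only [chkF, decide_eq_true_eq] at hT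
    unfold avgphi
    simp only [hphi]
    exact hT
  · intro x b κ hc j hj
    have := hc (.inl (.inr j))
    simpa only [chkF, if_neg hj] using this
  · intro x b κ hc b' κ'
    have := hc (.inl (.inl (ptr b' κ' b x)))
    simp only [chkF] at this
    simp only [refF, this, Bool.not_true]
  · -- completeness
    intro b κ e z hG c
    have hsheet : ∀ h : Eta k t τ S, build (contentF k t τ S enc) b κ e z
        (Sum.inr (Sum.inr (b, κ, h))) = contentF k t τ S enc b κ e (z b) h := by
      intro h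
      simp [build]
    have hz : ∀ w, build (contentF k t τ S enc) b κ e z (Sum.inr (Sum.inl (b, w))) = z b w := by
      intro w; simp [build]
    have hval : ∀ us : Fin τ × Fin S, ∀ a, a ≤ k → ∀ l, l ≤ t → ∀ i,
        valF dec b κ us (build (contentF k t τ S enc) b κ e z) a l i =
          TV (yF b us (build (contentF k t τ S enc) b κ e z)) a l i := by
      intro us a ha l hl i
      have hy : yF b us (build (contentF k t τ S enc) b κ e z) =
          fun a' i' => sgZ (z b (us, (Fin.ofNat (k + 1) a', i'))) := by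
        funext a' i'
        simp only [yF, hz]
      unfold valF
      simp only [hsheet, contentF]
      rw [hy]
      have h1 : (Fin.ofNat (k + 1) a).val = a := by
        simp [Fin.ofNat, Nat.mod_eq_of_lt (Nat.lt_succ_of_le ha)]
      have h2 : (Fin.ofNat (t + 1) l).val = l := by
        simp [Fin.ofNat, Nat.mod_eq_of_lt (Nat.lt_succ_of_le hl)]
      rw [h1, h2]
      apply hcode
      exact TV_bound _ (fun a i => (abs_sgZ _).le) k a l ha hl i
    rcases c with (r | j) | (⟨us, a, l, i⟩ | u)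
    · simp [chkF, build]
    · by_cases h : j = b
      · simp [chkF, h]
      · simp only [chkF, if_neg h, refF]
        have hp : ptr b κ j (build (contentF k t τ S enc) b κ e z) = e j := by
          funext i
          simp only [ptr, hsheet, contentF]
        rw [hp]
        simp [build, h]
    · simp only [chkF, decide_eq_true_eq]
      have ha : a.val ≤ k := Nat.le_of_lt_succ a.isLt
      have hl : l.val ≤ t := Nat.le_of_lt_succ l.isLt
      rw [hval us a ha l hl i, TV_rel _ a l hl i]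
      -- the relation only reads cells in range
      refine Rel_congr _ _ _ _ _ hl ?_ i
      intro a' ha' l' hl' i'
      exact (hval us a' (ha'.trans ha) l' hl' i').symm
    · simp only [chkF, decide_eq_true_eq]
      have hG' := hG u
      unfold avgphi at hG'
      have hphi : ∀ s : Fin S, phi k t (fun a i => z b ((u, s), (a, i))) =
          ((valF dec b κ (u, s) (build (contentF k t τ S enc) b κ e z) k t
            (fun _ => false) : ℤ) : ℝ) / Real.sqrt (2 ^ t) ^ (k + 2) := by
        intro s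
        rw [hval (u, s) k le_rfl t le_rfl]
        apply phi_eq_TV
        intro a i
        show sgZ _ = _
        rw [ofNat_val, hz]
      simp only [hphi] at hG'
      exact hG'
  · intro x hx b κ
    obtain ⟨r, hr⟩ := hx b
    exact ⟨.inl (.inl r), hr⟩

end Crest.Agent.R350
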