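import Crest.Agent.R350.Defs

/-! Row 350, T6 (part): `hybrid_copies` and `rcomp_of`. -/

set_option autoImplicit false

namespace Crest.Agent.R350

open Finset Crest.MathPhysics.Query

theorem DTC.mono' {ι : Type} {d d' : ℕ} {f : (ι → Bool) → ℝ} (h : DTC d f) (hd : d ≤ d') :
    DTC d' f := by
  induction h generalizing d' with
  | const d c h0 h1 => exact DTC.const d' c h0 h1
  | ask d i f g hf hg ihf ihg =>
    obtain ⟨e, rfl⟩ : ∃ e, d' = e + 1 := ⟨d' - 1, by omega⟩
    exact DTC.ask e i f g (ihf (by omega)) (ihg (by omega))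

/-- Substituting variables or constants for the variables of a decision tree. -/
theorem DTC.subst {ι ι' : Type} {d : ℕ} {f : (ι → Bool) → ℝ} (h : DTC d f)
    (σ : ι → ι' ⊕ Bool) :
    DTC d (fun x' : ι' → Bool => f (fun i => Sum.elim (fun j => x' j) (fun b => b) (σ i))) := by
  induction h with
  | const d c h0 h1 => exact DTC.const d c h0 h1
  | ask d i f g hf hg ihf ihg =>
    rcases hσ : σ i with j | b
    · have := DTC.ask d j _ _ ihf ihg
      convert this using 2 with x'
      simp only [hσ, Sum.elim_inl]
    · cases b with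
      | false =>
        convert (ihf.mono' (Nat.le_succ d)) using 2 with x'
        simp [hσ]
      | true =>
        convert (ihg.mono' (Nat.le_succ d)) using 2 with x'
        simp [hσ]

theorem DTC_of_tree {ι : Type} {n : ℕ} (e : ι ≃ Fin n) (T : DTree n) (r : ℕ) (h : T.depth ≤ r) :
    DTC r (fun x : ι → Bool => if T.eval (fun i => x (e.symm i)) then (1 : ℝ) else 0) := by
  induction T generalizing r with
  | answer b =>
    cases b with
    | false => simpa [DTree.eval] using DTC.const (ι := ι) r 0 le_rfl zero_le_one
    | true => simpa [DTree.eval] using DTC.const (ι := ι) r 1 zero_le_one le_rfl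
  | read i t0 t1 ih0 ih1 =>
    simp only [DTree.depth] at h
    obtain ⟨r', rfl⟩ : ∃ r', r = r' + 1 := ⟨r - 1, by omega⟩
    have h0 := ih0 r' (by omega)
    have h1 := ih1 r' (by omega)
    have := DTC.ask r' (e.symm i) _ _ h0 h1
    convert this using 2 with x
    simp only [DTree.eval]
    split_ifs <;> rfl

/-- T6'': randomized computation in the frozen sense gives `RComp`. -/
theorem rcomp_of {n : ℕ} {ι : Type} (e : ι ≃ Fin n) (F : (ι → Bool) → Bool) (r : ℕ)
    (h : RandomizedComputes (fun y : Fin n → Bool => F (fun i => y (e i))) r) : RComp F r := by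
  obtain ⟨s, p, T, hp0, hp1, hdep, hcorr⟩ := h
  refine ⟨s, p, fun j x => if (T j).eval (fun i => x (e.symm i)) then 1 else 0, hp0, hp1,
    fun j => DTC_of_tree e (T j) r (hdep j), ?_, ?_⟩
  · intro x hx
    have := hcorr (fun i => x (e.symm i))
    simp only [Equiv.symm_apply_apply, hx] at this
    refine le_trans this (le_of_eq ?_)
    apply Finset.sum_congr rfl
    intro j _
    by_cases hT : (T j).eval (fun i => x (e.symm i)) = true <;> simp [hT]
  · intro x hx
    have := hcorr (fun i => x (e.symm i))
    simp only [Equiv.symm_apply_apply, hx] at this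
    have h2 : (∑ j, p j * (if (T j).eval (fun i => x (e.symm i)) then (1 : ℝ) else 0)) +
        ∑ j, (if (T j).eval (fun i => x (e.symm i)) = false then p j else 0) = 1 := by
      rw [← Finset.sum_add_distrib]
      refine Eq.trans ?_ hp1
      apply Finset.sum_congr rfl
      intro j _
      by_cases hT : (T j).eval (fun i => x (e.symm i)) = true <;> simp [hT]
    linarith

section hybrid

variable {L X : Type} [Fintype L] [DecidableEq L] [Fintype X]

theorem sum_prod_split (l : L) (q : L → X → ℝ) (G : (L → X) → ℝ) :
    ∑ z : L → X, (∏ l', q l' (z l')) * G z =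
      ∑ z' : {j // j ≠ l} → X, (∏ j : {j // j ≠ l}, q j.1 (z' j)) *
        ∑ x, q l x * G ((Equiv.funSplitAt l X).symm (x, z')) := by
  rw [← (Equiv.funSplitAt l X).symm.sum_comp, Fintype.sum_prod_type, Finset.sum_comm]
  apply Finset.sum_congr rfl
  intro z' _
  rw [Finset.mul_sum]
  apply Finset.sum_congr rfl
  intro x _
  rw [Fintype.prod_eq_mul_prod_subtype_ne _ l]
  have h1 : (Equiv.funSplitAt l X).symm (x, z') l = x := by simp [Equiv.funSplitAt]
  have h2 : ∀ j : {j // j ≠ l}, (Equiv.funSplitAt l X).symm (x, z') j.1 = z' j := by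
    intro j
    simp [Equiv.funSplitAt, j.2]
  rw [h1, Finset.prod_congr rfl (fun j _ => by rw [h2 j])]
  ring

theorem sum_prod_one {L' : Type} [Fintype L'] [DecidableEq L'] (q : L' → X → ℝ)
    (hq : ∀ l, ∑ x, q l x = 1) :
    ∑ z : L' → X, ∏ l, q l (z l) = 1 := by
  classical
  have := Finset.prod_univ_sum (fun _ : L' => (Finset.univ : Finset X)) (fun l x => q l x)
  rw [Fintype.piFinset_univ] at this
  rw [← this]
  simp [hq]

end hybrid

/-- T6': hybrid over independent copies: product of `L` distributions each `α`-close to uniform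
for depth-`d` trees. `w l = true` uses `μ`, otherwise uniform. -/
theorem hybrid_copies {ξ L : Type} [Fintype ξ] [DecidableEq ξ] [Fintype L] [DecidableEq L]
    (μ : (ξ → Bool) → ℝ) (h0 : ∀ x, 0 ≤ μ x) (h1 : ∑ x, μ x = 1) (d : ℕ) (α : ℝ)
    (hα : ∀ f : (ξ → Bool) → ℝ, DTC d f →
      |∑ x, μ x * f x - (∑ x, f x) / Fintype.card (ξ → Bool)| ≤ α)
    (w : L → Bool) (f : (L × ξ → Bool) → ℝ) (hf : DTC d f) :
    |∑ z : L × ξ → Bool, (∏ l, (if w l then μ (fun i => z (l, i))
        else 1 / (Fintype.card (ξ → Bool) : ℝ))) * f z
      - (∑ z, f z) / Fintype.card (L × ξ → Bool)| ≤ Fintype.card L * α := by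
  classical
  have hα0 : 0 ≤ α := le_trans (abs_nonneg _) (hα (fun _ => 0) (DTC.const d 0 le_rfl zero_le_one))
  set N : ℝ := (Fintype.card (ξ → Bool) : ℝ) with hN
  have hNpos : 0 < N := by rw [hN]; exact_mod_cast Fintype.card_pos
  set G : (L → ξ → Bool) → ℝ := fun z => f (fun p => z p.1 p.2) with hG
  set q : Finset L → L → (ξ → Bool) → ℝ := fun S l x => if l ∈ S ∧ w l = true then μ x else 1 / N
    with hq
  have hq1 : ∀ S l, ∑ x, q S l x = 1 := by
    intro S l
    by_cases h : l ∈ S ∧ w l = true
    · simp only [hq, if_pos h]; exact h1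
    · simp only [hq, if_neg h]
      rw [Finset.sum_const, Finset.card_univ, nsmul_eq_mul, ← hN]
      field_simp
  have hq0 : ∀ S l x, 0 ≤ q S l x := by
    intro S l x
    simp only [hq]
    split_ifs
    · exact h0 x
    · positivity
  have hstep : ∀ (S : Finset L) (l : L), l ∉ S →
      |∑ z : L → ξ → Bool, (∏ l', q (insert l S) l' (z l')) * G z -
        ∑ z : L → ξ → Bool, (∏ l', q S l' (z l')) * G z| ≤ α := by
    intro S l hl
    rw [sum_prod_split l (q (insert l S)) G, sum_prod_split l (q S) G]
    have hsame : ∀ z' : {j // j ≠ l} → ξ → Bool,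
        (∏ j : {j // j ≠ l}, q (insert l S) j.1 (z' j)) = ∏ j : {j // j ≠ l}, q S j.1 (z' j) := by
      intro z'
      apply Finset.prod_congr rfl
      intro j _
      simp only [hq, Finset.mem_insert, j.2, false_or]
    rw [Finset.sum_congr rfl (fun z' _ => by rw [hsame z']), ← Finset.sum_sub_distrib]
    refine le_trans (Finset.abs_sum_le_sum_abs _ _) ?_
    have hone : ∑ z' : {j // j ≠ l} → ξ → Bool, ∏ j : {j // j ≠ l}, q S j.1 (z' j) = 1 :=
      sum_prod_one (fun j : {j // j ≠ l} => q S j.1) (fun j => hq1 S j.1)
    calc _ ≤ ∑ z' : {j // j ≠ l} → ξ → Bool, (∏ j : {j // j ≠ l}, q S j.1 (z' j)) * α := by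
          apply Finset.sum_le_sum
          intro z' _
          have hpn : 0 ≤ ∏ j : {j // j ≠ l}, q S j.1 (z' j) :=
            Finset.prod_nonneg (fun j _ => hq0 S j.1 _)
          rw [← mul_sub, abs_mul, abs_of_nonneg hpn]
          apply mul_le_mul_of_nonneg_left _ hpn
          by_cases hw : w l = true
          · have e1 : ∀ x, q (insert l S) l x = μ x := by
              intro x; simp [hq, hw]
            have e2 : ∀ x, q S l x = 1 / N := by
              intro x; simp [hq, hl]
            simp only [e1, e2]
            have hD : DTC d (fun x : ξ → Bool => G ((Equiv.funSplitAt l (ξ → Bool)).symm (x, z'))) := by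
              have := hf.subst (fun p : L × ξ => if h : p.1 = l then
                (Sum.inl p.2 : ξ ⊕ Bool) else Sum.inr (z' ⟨p.1, h⟩ p.2))
              convert this using 2 with x
              simp only [hG]
              congr 1
              funext p
              by_cases hp : p.1 = l
              · simp [Equiv.funSplitAt, Equiv.piSplitAt, hp]
              · simp [Equiv.funSplitAt, Equiv.piSplitAt, hp]
            have := hα _ hD
            rw [Finset.sum_div] at this
            refine le_trans (le_of_eq ?_) this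
            congr 2
            apply Finset.sum_congr rfl
            intro x _
            ring
          · have e1 : ∀ x, q (insert l S) l x = q S l x := by
              intro x; simp [hq, hw]
            simp only [e1, sub_self, abs_zero]
            exact hα0
      _ = α := by rw [← Finset.sum_mul, hone, one_mul]
  have hall : ∀ S : Finset L,
      |∑ z : L → ξ → Bool, (∏ l', q S l' (z l')) * G z -
        ∑ z : L → ξ → Bool, (∏ l', q ∅ l' (z l')) * G z| ≤ S.card * α := by
    intro S
    induction S using Finset.induction_on with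
    | empty => simp
    | insert l S hl ih =>
      rw [Finset.card_insert_of_notMem hl]
      have := hstep S l hl
      push_cast
      calc _ ≤ |∑ z : L → ξ → Bool, (∏ l', q (insert l S) l' (z l')) * G z -
            ∑ z : L → ξ → Bool, (∏ l', q S l' (z l')) * G z| +
            |∑ z : L → ξ → Bool, (∏ l', q S l' (z l')) * G z -
            ∑ z : L → ξ → Bool, (∏ l', q ∅ l' (z l')) * G z| := abs_sub_le _ _ _
        _ ≤ α + S.card * α := add_le_add this ih
        _ = _ := by ring
  have hfin := hall Finset.univ
  rw [Finset.card_univ] at hfin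
  refine le_trans (le_of_eq ?_) hfin
  congr 2
  · rw [← (Equiv.curry L ξ Bool).symm.sum_comp]
    apply Finset.sum_congr rfl
    intro z _
    simp only [hG, hq, Finset.mem_univ, true_and]
    rfl
  · rw [← (Equiv.curry L ξ Bool).symm.sum_comp, Finset.sum_div]
    apply Finset.sum_congr rfl
    intro z _
    simp only [hG, hq, Finset.notMem_empty, false_and, if_false, Finset.prod_const,
      Finset.card_univ]
    have hc : (Fintype.card (L × ξ → Bool) : ℝ) = N ^ Fintype.card L := by
      rw [hN, ← Nat.cast_pow, ← Fintype.card_fun, Fintype.card_congr (Equiv.curry L ξ Bool)]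
    rw [hc, one_div, inv_pow, div_eq_inv_mul]
    rfl

end Crest.Agent.R350
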