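import Crest.Agent.R350.Stein

/-!
Row 350, part B: interpolation identity.
-/

set_option autoImplicit false

namespace Crest.Agent.R350

open Finset MeasureTheory ProbabilityTheory

section calc1

variable {ι : Type*} [Fintype ι] [DecidableEq ι]

lemma prod_insert_eq (S : Finset ι) (c : ι) (x : ι → Bool) (z : ι → ℝ) :
    ∏ i, (if i ∈ insert c S then sg (x i) / 2 else qw (z i) (x i)) =
      sg (x c) / 2 * ∏ j ∈ univ.erase c, (if j ∈ S then sg (x j) / 2 else qw (z j) (x j)) := by
  rw [← Finset.mul_prod_erase univ _ (Finset.mem_univ c)]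
  simp only [Finset.mem_insert_self, if_true]
  congr 1
  apply Finset.prod_congr rfl
  intro j hj
  have := Finset.ne_of_mem_erase hj
  simp [this]

lemma hasDerivAt_dmext (S : Finset ι) (f : (ι → Bool) → ℝ) (z : ℝ → ι → ℝ) (z' : ι → ℝ) (t : ℝ)
    (hz : ∀ c, HasDerivAt (fun t => z t c) (z' c) t) :
    HasDerivAt (fun t => dmext S f (z t))
      (∑ c ∈ univ.filter (fun c => c ∉ S), z' c * dmext (insert c S) f (z t)) t := by
  have h1 : ∀ x : ι → Bool, HasDerivAt
      (fun t => f x * ∏ i, (if i ∈ S then sg (x i) / 2 else qw (z t i) (x i)))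
      (f x * ∑ i, (∏ j ∈ univ.erase i, (if j ∈ S then sg (x j) / 2 else qw (z t j) (x j))) •
        (if i ∈ S then 0 else sg (x i) / 2 * z' i)) t := by
    intro x
    apply HasDerivAt.const_mul
    apply HasDerivAt.fun_finsetProd
    intro i _
    by_cases hi : i ∈ S
    · simp only [hi, if_true]; exact hasDerivAt_const t _
    · simp only [hi, if_false]
      unfold qw
      have h := (((hz i).const_mul (sg (x i))).const_add 1).div_const 2
      have h' : sg (x i) * z' i / 2 = sg (x i) / 2 * z' i := by ring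
      rw [h'] at h
      exact h
  have h2 := HasDerivAt.fun_sum (fun x (_ : x ∈ (univ : Finset (ι → Bool))) => h1 x)
  have h3 : (∑ c ∈ univ.filter (fun c => c ∉ S), z' c * dmext (insert c S) f (z t)) =
      ∑ x : ι → Bool, f x * ∑ i, (∏ j ∈ univ.erase i, (if j ∈ S then sg (x j) / 2 else qw (z t j) (x j))) •
        (if i ∈ S then 0 else sg (x i) / 2 * z' i) := by
    simp only [Finset.mul_sum]
    rw [Finset.sum_comm]
    rw [Finset.sum_filter]
    apply Finset.sum_congr rfl
    intro c _
    by_cases hc : c ∈ S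
    · simp [hc]
    · simp only [hc, not_false_eq_true, if_true, if_false]
      unfold dmext
      rw [Finset.mul_sum]
      apply Finset.sum_congr rfl
      intro x _
      rw [prod_insert_eq S c, smul_eq_mul]
      ring
  rw [h3]
  exact h2

lemma polyFn_dmext {κ : Type*} (S : Finset ι) (f : (ι → Bool) → ℝ)
    (Z : (κ → ℝ) → ι → ℝ) (hZ : ∀ c, PolyFn (fun v => Z v c)) :
    PolyFn (fun v => dmext S f (Z v)) := by
  unfold dmext
  apply PolyFn.sum
  intro x _
  apply PolyFn.mul (PolyFn.const _)
  apply PolyFn.prod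
  intro i _
  by_cases hi : i ∈ S
  · simp only [hi, if_true]; exact PolyFn.const _
  · simp only [hi, if_false]
    unfold qw
    have : (fun v => (1 + sg (x i) * Z v i) / 2) = fun v => (1/2 : ℝ) * (1 + sg (x i) * Z v i) := by
      funext v; ring
    rw [this]
    exact PolyFn.mul (PolyFn.const _) (PolyFn.add (PolyFn.const _) (PolyFn.mul (PolyFn.const _) (hZ i)))

end calc1

section model

variable {k t : ℕ}

/-- scaling of the blocks: `0` below `b`, `s` at `b`, `1` above `b`. -/
noncomputable def scl (b : ℕ) (s : ℝ) (a : Fin (k + 1)) : ℝ :=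
  if a.val < b then 0 else if a.val = b then s else 1

/-- scaled point -/
noncomputable def Zs (g : ℝ) (b : ℕ) (s : ℝ) (v : Fin k × NN t → ℝ) (c : Fin (k + 1) × NN t) : ℝ :=
  scl b s c.1 * Zl g v c

/-- derivative of `X_e` in the latent `(c, j)` -/
noncomputable def dXl (c : Fin k) (j : NN t) (e : Fin (k + 1) × NN t) : ℝ :=
  if e.1.val = c.val ∧ e.2 = j then 1 else 0

/-- derivative of `Y_e` in the latent `(c, j)` -/
noncomputable def dYl (c : Fin k) (j : NN t) (e : Fin (k + 1) × NN t) : ℝ :=
  if e.1.val = c.val + 1 then Wm e.2 j else 0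

lemma hasDerivAt_update (v : Fin k × NN t → ℝ) (c d : Fin k × NN t) (u : ℝ) :
    HasDerivAt (fun u => Function.update v c u d) (if d = c then 1 else 0) u := by
  by_cases h : d = c
  · subst h; simp only [Function.update_self, if_true]; exact hasDerivAt_id u
  · simp only [Function.update_of_ne h, h, if_false]; exact hasDerivAt_const u _

lemma hasDerivAt_Xl (v : Fin k × NN t → ℝ) (c : Fin k) (j : NN t) (e : Fin (k + 1) × NN t) (u : ℝ) :
    HasDerivAt (fun u => Xl (Function.update v (c, j) u) e) (dXl c j e) u := by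
  unfold Xl dXl
  by_cases h : e.1.val < k
  · simp only [h, dif_pos]
    have h2 := hasDerivAt_update v (c, j) (⟨e.1.val, h⟩, e.2) u
    have h3 : ((⟨e.1.val, h⟩, e.2) = (c, j)) ↔ (e.1.val = c.val ∧ e.2 = j) := by
      rw [Prod.mk.injEq, Fin.ext_iff]
    simp only [h3] at h2
    exact h2
  · simp only [h, dif_neg, not_false_eq_true]
    have : ¬ (e.1.val = c.val ∧ e.2 = j) := by
      rintro ⟨h1, _⟩; have := c.isLt; omega
    simp only [this, if_false]
    exact hasDerivAt_const u _

lemma hasDerivAt_Yl (v : Fin k × NN t → ℝ) (c : Fin k) (j : NN t) (e : Fin (k + 1) × NN t) (u : ℝ) :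
    HasDerivAt (fun u => Yl (Function.update v (c, j) u) e) (dYl c j e) u := by
  unfold Yl dYl
  by_cases h : e.1.val = 0
  · simp only [h, dif_pos]
    have : ¬ (0 = c.val + 1) := by omega
    simp only [this, if_false]
    exact hasDerivAt_const u _
  · simp only [h, dif_neg, not_false_eq_true]
    have hlt : e.1.val - 1 < k := by have := e.1.isLt; omega
    have h2 : ∀ j' : NN t, HasDerivAt (fun u => Wm e.2 j' * Function.update v (c, j) u (⟨e.1.val - 1, hlt⟩, j'))
        (Wm e.2 j' * (if ((⟨e.1.val - 1, hlt⟩ : Fin k), j') = (c, j) then 1 else 0)) u :=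
      fun j' => (hasDerivAt_update v (c, j) _ u).const_mul _
    have h3 := HasDerivAt.fun_sum (fun j' (_ : j' ∈ (univ : Finset (NN t))) => h2 j')
    have h4 : (∑ j' : NN t, Wm e.2 j' * (if ((⟨e.1.val - 1, hlt⟩ : Fin k), j') = (c, j) then (1:ℝ) else 0))
        = if e.1.val = c.val + 1 then Wm e.2 j else 0 := by
      by_cases hc : e.1.val = c.val + 1
      · have hc' : (⟨e.1.val - 1, hlt⟩ : Fin k) = c := by ext; simp; omega
        simp only [hc', hc, if_true, Prod.mk.injEq, true_and]
        rw [Finset.sum_eq_single j]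
        · simp
        · intro b _ hb; simp [hb]
        · intro h; exact absurd (Finset.mem_univ j) h
      · have hc' : (⟨e.1.val - 1, hlt⟩ : Fin k) ≠ c := by
          intro h'; apply hc; have := congrArg Fin.val h'; simp at this; omega
        simp [hc', hc]
    rw [h4] at h3
    exact h3

/-- derivative of `Z_e` in the latent `(c, j)` -/
noncomputable def dZl (g : ℝ) (v : Fin k × NN t → ℝ) (c : Fin k) (j : NN t)
    (e : Fin (k + 1) × NN t) : ℝ :=
  g * (dXl c j e * Yl v e + Xl v e * dYl c j e)

lemma hasDerivAt_Zl (g : ℝ) (v : Fin k × NN t → ℝ) (c : Fin k) (j : NN t) (e : Fin (k + 1) × NN t) :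
    HasDerivAt (fun u => Zl g (Function.update v (c, j) u) e) (dZl g v c j e) (v (c, j)) := by
  unfold Zl dZl
  have h1 := (hasDerivAt_Xl v c j e (v (c, j)))
  have h2 := (hasDerivAt_Yl v c j e (v (c, j)))
  have h3 := (h1.const_mul g).mul h2
  simp only [Function.update_eq_self] at h3
  have h4 : g * dXl c j e * Yl v e + g * Xl v e * dYl c j e =
      g * (dXl c j e * Yl v e + Xl v e * dYl c j e) := by ring
  rw [h4] at h3
  exact h3

lemma polyFn_Xl (e : Fin (k + 1) × NN t) : PolyFn (fun v : Fin k × NN t → ℝ => Xl v e) := by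
  unfold Xl
  by_cases h : e.1.val < k
  · simp only [h, dif_pos]; exact PolyFn.coord _
  · simp only [h, dif_neg, not_false_eq_true]; exact PolyFn.const _

lemma polyFn_Yl (e : Fin (k + 1) × NN t) : PolyFn (fun v : Fin k × NN t → ℝ => Yl v e) := by
  unfold Yl
  by_cases h : e.1.val = 0
  · simp only [h, dif_pos]; exact PolyFn.const _
  · simp only [h, dif_neg, not_false_eq_true]
    apply PolyFn.sum
    intro j _
    exact PolyFn.mul (PolyFn.const _) (PolyFn.coord _)

lemma polyFn_Zl (g : ℝ) (e : Fin (k + 1) × NN t) : PolyFn (fun v : Fin k × NN t → ℝ => Zl g v e) :=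
  PolyFn.mul (PolyFn.mul (PolyFn.const _) (polyFn_Xl e)) (polyFn_Yl e)

lemma polyFn_Zs (g : ℝ) (b : ℕ) (s : ℝ) (e : Fin (k + 1) × NN t) :
    PolyFn (fun v : Fin k × NN t → ℝ => Zs g b s v e) :=
  PolyFn.mul (PolyFn.const _) (polyFn_Zl g e)

/-- general Stein step -/
lemma stein_step (g : ℝ) (b : ℕ) (s : ℝ) (c : Fin k) (j : NN t) (S : Finset (Fin (k + 1) × NN t))
    (f : (Fin (k + 1) × NN t → Bool) → ℝ) (M : (Fin k × NN t → ℝ) → ℝ) (hM : PolyFn M)
    (hM' : ∀ v u, M (Function.update v (c, j) u) = M v) :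
    ∫ v, v (c, j) * (M v * dmext S f (Zs g b s v)) ∂(gaus (Fin k × NN t)) =
      ∫ v, M v * ∑ e ∈ univ.filter (fun e => e ∉ S), (scl b s e.1 * dZl g v c j e) *
        dmext (insert e S) f (Zs g b s v) ∂(gaus (Fin k × NN t)) := by
  apply stein (hM.mul (polyFn_dmext S f _ (polyFn_Zs g b s)))
  intro v
  simp only [hM']
  apply HasDerivAt.const_mul
  have h := hasDerivAt_dmext S f (fun u => Zs g b s (Function.update v (c, j) u))
    (fun e => scl b s e.1 * dZl g v c j e) (v (c, j))
    (fun e => (hasDerivAt_Zl g v c j e).const_mul _)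
  simpa only [Function.update_eq_self] using h

end model

section walsh

variable {t : ℕ}

lemma walI_symm (x y : NN t) : wal x y = wal y x := by
  unfold wal
  apply Finset.prod_congr rfl
  intro i _
  rw [Bool.and_comm]

lemma abs_wal (x y : NN t) : |wal x y| = 1 := by
  unfold wal
  rw [Finset.abs_prod]
  apply Finset.prod_eq_one
  intro i _
  split_ifs <;> simp

lemma walI_orth (x y : NN t) : ∑ j : NN t, wal x j * wal y j = if x = y then (2:ℝ) ^ t else 0 := by
  unfold wal
  simp only [← Finset.prod_mul_distrib]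
  have h := Finset.prod_univ_sum (fun _ : Fin t => (univ : Finset Bool))
    (fun i b => (if (x i && b) = true then (-1:ℝ) else 1) * (if (y i && b) = true then (-1:ℝ) else 1))
  rw [Fintype.piFinset_univ] at h
  rw [← h]
  by_cases hxy : x = y
  · subst hxy
    simp only [if_true]
    have : ∀ i : Fin t, ∑ b : Bool, (if (x i && b) = true then (-1:ℝ) else 1) *
        (if (x i && b) = true then (-1:ℝ) else 1) = 2 := by
      intro i
      rw [Fintype.sum_bool]
      cases x i <;> norm_num
    rw [Finset.prod_congr rfl (fun i _ => this i)]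
    simp
  · simp only [hxy, if_false]
    have : ∃ i, x i ≠ y i := by
      by_contra hcon; push Not at hcon; exact hxy (funext hcon)
    obtain ⟨i, hi⟩ := this
    apply Finset.prod_eq_zero (Finset.mem_univ i)
    rw [Fintype.sum_bool]
    cases hx : x i <;> cases hy : y i <;> simp_all

lemma sqrt_pow_sq (t : ℕ) : Real.sqrt ((2:ℝ) ^ t) * Real.sqrt ((2:ℝ) ^ t) = (2:ℝ) ^ t :=
  Real.mul_self_sqrt (by positivity)

lemma Wm_orth (x y : NN t) : ∑ j : NN t, Wm x j * Wm y j = if x = y then (1:ℝ) else 0 := by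
  unfold Wm
  have h : ∀ j : NN t, wal x j / Real.sqrt (2 ^ t) * (wal y j / Real.sqrt (2 ^ t)) =
      (wal x j * wal y j) * (1 / (2:ℝ) ^ t) := by
    intro j
    rw [div_mul_div_comm, sqrt_pow_sq]; ring
  simp only [h]
  rw [← Finset.sum_mul, walI_orth]
  split_ifs
  · have : (2:ℝ) ^ t ≠ 0 := by positivity
    field_simp
  · simp

lemma Wm_symm (x y : NN t) : Wm x y = Wm y x := by
  unfold Wm; rw [walI_symm]

lemma abs_Wm (x y : NN t) : |Wm x y| = 1 / Real.sqrt (2 ^ t) := by
  unfold Wm
  rw [abs_div, abs_wal, abs_of_nonneg (Real.sqrt_nonneg _)]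

end walsh

section deriv_s

variable {k t : ℕ}

lemma PolyFn.ofSome {κ : Type*} {F : (κ → ℝ) → ℝ} (hF : PolyFn F) :
    PolyFn (fun w : Option κ → ℝ => F (fun i => w (some i))) := by
  obtain ⟨P, hP⟩ := hF
  refine ⟨MvPolynomial.rename some P, fun w => ?_⟩
  show F (fun i => w (some i)) = _
  rw [hP, MvPolynomial.eval_rename]; rfl

lemma polyFn_scl_mul (g : ℝ) (b : ℕ) (c : Fin (k + 1) × NN t) :
    PolyFn (fun w : Option (Fin k × NN t) → ℝ => Zs g b (w none) (fun i => w (some i)) c) := by
  unfold Zs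
  apply PolyFn.mul
  · unfold scl
    by_cases h : c.1.val < b
    · simp only [h, if_true]; exact PolyFn.const _
    · simp only [h, if_false]
      by_cases h2 : c.1.val = b
      · simp only [h2, if_true]; exact PolyFn.coord _
      · simp only [h2, if_false]; exact PolyFn.const _
  · exact (polyFn_Zl g c).ofSome

lemma hasDerivAt_Zs_s (g : ℝ) (b : ℕ) (s : ℝ) (v : Fin k × NN t → ℝ) (c : Fin (k + 1) × NN t) :
    HasDerivAt (fun s => Zs g b s v c) ((if c.1.val = b then 1 else 0) * Zl g v c) s := by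
  unfold Zs
  apply HasDerivAt.mul_const
  unfold scl
  by_cases h : c.1.val < b
  · have h2 : c.1.val ≠ b := by omega
    simp only [h, if_true, h2, if_false]; exact hasDerivAt_const s _
  · simp only [h, if_false]
    by_cases h2 : c.1.val = b
    · simp only [h2, if_true]; exact hasDerivAt_id s
    · simp only [h2, if_false]; exact hasDerivAt_const s _

/-- `F_b(s)` -/
noncomputable def Fb (g : ℝ) (b : ℕ) (s : ℝ) (f : (Fin (k + 1) × NN t → Bool) → ℝ) : ℝ :=
  ∫ v, dmext ∅ f (Zs g b s v) ∂(gaus (Fin k × NN t))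

lemma hasDerivAt_Fb (g : ℝ) (β : Fin (k + 1)) (s : ℝ) (f : (Fin (k + 1) × NN t → Bool) → ℝ) :
    HasDerivAt (fun s => Fb g β.val s f)
      (∑ i : NN t, ∫ v, Zl g v (β, i) * dmext {(β, i)} f (Zs g β.val s v) ∂(gaus (Fin k × NN t))) s := by
  have hP := polyFn_dmext (κ := Option (Fin k × NN t)) ∅ f
    (fun w => Zs g β.val (w none) (fun i => w (some i))) (polyFn_scl_mul g β.val)
  obtain ⟨P, hP⟩ := hP
  have h := hasDerivAt_integral_poly (κ := Fin k × NN t)
    (G := fun s v => dmext ∅ f (Zs g β.val s v))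
    (G' := fun s v => ∑ c ∈ univ.filter (fun c => c ∉ (∅ : Finset (Fin (k+1) × NN t))),
      ((if c.1.val = β.val then 1 else 0) * Zl g v c) * dmext (insert c ∅) f (Zs g β.val s v))
    ⟨P, fun s v => by
      have := hP (fun o => o.elim s v)
      simpa using this⟩
    (fun s v => hasDerivAt_dmext ∅ f (fun s => Zs g β.val s v) _ s
      (fun c => hasDerivAt_Zs_s g β.val s v c)) s
  have h2 : (∫ v, ∑ c ∈ univ.filter (fun c => c ∉ (∅ : Finset (Fin (k+1) × NN t))),
      ((if c.1.val = β.val then 1 else 0) * Zl g v c) * dmext (insert c ∅) f (Zs g β.val s v)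
        ∂(gaus (Fin k × NN t))) =
      ∑ i : NN t, ∫ v, Zl g v (β, i) * dmext {(β, i)} f (Zs g β.val s v) ∂(gaus (Fin k × NN t)) := by
    rw [← integral_finsetSum]
    · congr 1
      funext v
      simp only [Finset.notMem_empty, not_false_eq_true, Finset.filter_true]
      rw [Fintype.sum_prod_type]
      rw [Finset.sum_eq_single β]
      · apply Finset.sum_congr rfl
        intro i _
        simp
      · intro a _ ha
        apply Finset.sum_eq_zero
        intro i _
        have : a.val ≠ β.val := fun h => ha (Fin.ext h)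
        simp [this]
      · intro h; exact absurd (Finset.mem_univ β) h
    · intro i _
      exact ((polyFn_Zl g (β, i)).mul (polyFn_dmext {(β, i)} f _ (polyFn_Zs g β.val s))).integrable
  rw [h2] at h
  exact h

end deriv_s

end Crest.Agent.R350
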