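import Crest.Agent.R350.Interp

/-!
Row 350, part B: interpolation identity, part 2 (base case and path recursion).
-/

set_option autoImplicit false

namespace Crest.Agent.R350

open Finset MeasureTheory ProbabilityTheory

variable {k t : ℕ}

lemma Yl_eq_of_pos (v : Fin k × NN t → ℝ) (β : Fin (k + 1)) (c : Fin k) (hc : β.val = c.val + 1)
    (i : NN t) : Yl v (β, i) = ∑ j, Wm i j * v (c, j) := by
  unfold Yl
  have h : ¬ (β.val = 0) := by omega
  simp only [h, dif_neg, not_false_eq_true]
  apply Finset.sum_congr rfl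
  intro j _
  have : (⟨β.val - 1, by have := c.isLt; omega⟩ : Fin k) = c := by ext; simp; omega
  rw [this]

/-- For `b ≥ 1` the derivative in the scaling parameter vanishes. -/
lemma deriv_zero_term (g s : ℝ) (β : Fin (k + 1)) (c : Fin k) (hc : β.val = c.val + 1)
    (f : (Fin (k + 1) × NN t → Bool) → ℝ) (i : NN t) :
    ∫ v, Zl g v (β, i) * dmext {(β, i)} f (Zs g β.val s v) ∂(gaus (Fin k × NN t)) = 0 := by
  have hM : PolyFn (fun v : Fin k × NN t → ℝ => Xl v (β, i)) := polyFn_Xl _
  have hM' : ∀ (j : NN t) (v : Fin k × NN t → ℝ) (u : ℝ),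
      Xl (Function.update v (c, j) u) (β, i) = Xl v (β, i) := by
    intro j v u
    unfold Xl
    by_cases h : β.val < k
    · simp only [h, dif_pos]
      rw [Function.update_of_ne]
      intro h'
      have := congrArg (fun x => x.1.val) h'
      simp at this; omega
    · simp only [h, dif_neg, not_false_eq_true]
  have h1 : ∀ v : Fin k × NN t → ℝ, Zl g v (β, i) * dmext {(β, i)} f (Zs g β.val s v) =
      ∑ j, (g * Wm i j) * (v (c, j) * (Xl v (β, i) * dmext {(β, i)} f (Zs g β.val s v))) := by
    intro v
    unfold Zl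
    rw [Yl_eq_of_pos v β c hc i, Finset.mul_sum, Finset.sum_mul]
    apply Finset.sum_congr rfl
    intro j _
    ring
  simp only [h1]
  rw [integral_finsetSum]
  · have h2 : ∀ j : NN t, ∫ v, (g * Wm i j) * (v (c, j) * (Xl v (β, i) *
        dmext {(β, i)} f (Zs g β.val s v))) ∂(gaus (Fin k × NN t)) =
        ∫ v, (g * Wm i j) * (Xl v (β, i) * ∑ e ∈ univ.filter (fun e => e ∉ ({(β, i)} : Finset (Fin (k+1) × NN t))),
          (scl β.val s e.1 * dZl g v c j e) * dmext (insert e {(β, i)}) f (Zs g β.val s v))
          ∂(gaus (Fin k × NN t)) := by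
      intro j
      rw [integral_const_mul, integral_const_mul]
      congr 1
      exact stein_step g β.val s c j {(β, i)} f (fun v => Xl v (β, i)) hM (hM' j)
    simp only [h2]
    rw [← integral_finsetSum]
    · have h3 : ∀ v : Fin k × NN t → ℝ, ∑ j, (g * Wm i j) * (Xl v (β, i) *
          ∑ e ∈ univ.filter (fun e => e ∉ ({(β, i)} : Finset (Fin (k+1) × NN t))),
          (scl β.val s e.1 * dZl g v c j e) * dmext (insert e {(β, i)}) f (Zs g β.val s v)) = 0 := by
        intro v
        have h4 : ∀ j, (g * Wm i j) * (Xl v (β, i) *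
          ∑ e ∈ univ.filter (fun e => e ∉ ({(β, i)} : Finset (Fin (k+1) × NN t))),
          (scl β.val s e.1 * dZl g v c j e) * dmext (insert e {(β, i)}) f (Zs g β.val s v)) =
          ∑ e ∈ univ.filter (fun e => e ∉ ({(β, i)} : Finset (Fin (k+1) × NN t))),
            (g * Xl v (β, i) * scl β.val s e.1 * dmext (insert e {(β, i)}) f (Zs g β.val s v)) *
              (Wm i j * dZl g v c j e) := by
          intro j
          rw [Finset.mul_sum, Finset.mul_sum]
          apply Finset.sum_congr rfl
          intro e _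
          ring
        simp only [h4]
        rw [Finset.sum_comm]
        apply Finset.sum_eq_zero
        intro e he
        rw [← Finset.mul_sum]
        simp only [mem_filter, mem_univ, true_and, mem_singleton] at he
        rcases lt_trichotomy e.1.val β.val with hlt | heq | hgt
        · have : scl β.val s e.1 = 0 := by unfold scl; simp [hlt]
          rw [this]; ring
        · have h5 : ∑ j, Wm i j * dZl g v c j e = 0 := by
            unfold dZl
            have h6 : ∀ j, dXl c j e = 0 := by
              intro j; unfold dXl; rw [if_neg]; rintro ⟨h, _⟩; omega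
            have h7 : ∀ j, dYl c j e = Wm e.2 j := by
              intro j; unfold dYl; rw [if_pos]; omega
            simp only [h6, h7]
            have h8 : ∀ j, Wm i j * (g * (0 * Yl v e + Xl v e * Wm e.2 j)) =
                (g * Xl v e) * (Wm i j * Wm e.2 j) := by intro j; ring
            simp only [h8]
            rw [← Finset.mul_sum, Wm_orth]
            have h9 : i ≠ e.2 := by
              intro h; apply he
              exact Prod.ext (Fin.ext heq) h.symm
            simp [h9]
          rw [h5, mul_zero]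
        · have h5 : ∀ j, dZl g v c j e = 0 := by
            intro j
            unfold dZl
            have h6 : dXl c j e = 0 := by
              unfold dXl; rw [if_neg]; rintro ⟨h, _⟩; omega
            have h7 : dYl c j e = 0 := by
              unfold dYl; rw [if_neg]; omega
            rw [h6, h7]; ring
          simp [h5]
      simp only [h3]
      simp
    · intro j _
      apply PolyFn.integrable
      apply PolyFn.mul (PolyFn.const _)
      apply PolyFn.mul hM
      apply PolyFn.sum
      intro e _
      apply PolyFn.mul _ (polyFn_dmext _ f _ (polyFn_Zs g β.val s))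
      apply PolyFn.mul (PolyFn.const _)
      unfold dZl
      exact PolyFn.mul (PolyFn.const _) (PolyFn.add (PolyFn.mul (PolyFn.const _) (polyFn_Yl e))
        (PolyFn.mul (polyFn_Xl e) (PolyFn.const _)))
  · intro j _
    apply PolyFn.integrable
    exact PolyFn.mul (PolyFn.const _) (PolyFn.mul (PolyFn.coord _)
      (PolyFn.mul hM (polyFn_dmext _ f _ (polyFn_Zs g β.val s))))

lemma Zs_zero_eq (g : ℝ) (b : ℕ) (v : Fin k × NN t → ℝ) : Zs g b 0 v = Zs g (b + 1) 1 v := by
  funext c
  unfold Zs scl
  rcases lt_trichotomy c.1.val b with h | h | h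
  · have h2 : c.1.val < b + 1 := by omega
    simp [h, h2]
  · have h2 : c.1.val < b + 1 := by omega
    have h3 : ¬ c.1.val < b := by omega
    simp [h]
  · have h2 : ¬ c.1.val < b := by omega
    have h3 : ¬ c.1.val = b := by omega
    have h4 : ¬ c.1.val < b + 1 := by omega
    by_cases h5 : c.1.val = b + 1
    · simp [h5]
    · simp [h2, h3, h4, h5]

lemma Fb_succ_const (g : ℝ) (c : Fin k) (f : (Fin (k + 1) × NN t → Bool) → ℝ) :
    Fb g (c.val + 1) 1 f = Fb g (c.val + 1) 0 f := by
  have hβ : c.val + 1 < k + 1 := by have := c.isLt; omega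
  set β : Fin (k + 1) := ⟨c.val + 1, hβ⟩ with hβdef
  have h1 : ∀ s, HasDerivAt (fun s => Fb g (c.val + 1) s f) 0 s := by
    intro s
    have h := hasDerivAt_Fb g β s f
    rw [Finset.sum_eq_zero (fun i _ => deriv_zero_term g s β c rfl f i)] at h
    exact h
  have h2 := is_const_of_deriv_eq_zero (fun s => (h1 s).differentiableAt) (fun s => (h1 s).deriv) 1 0
  exact h2

/-- base value -/
lemma Fb_zero_zero (g : ℝ) (f : (Fin (k + 1) × NN t → Bool) → ℝ) :
    Fb g 0 0 f = dmext ∅ f (fun _ => 0) := by
  have h1 : ∀ b, b ≤ k → Fb g b 0 f = Fb g 0 0 f := by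
    intro b
    induction b with
    | zero => intro _; rfl
    | succ b ih =>
      intro hb
      have h2 : Fb g (b + 1) 1 f = Fb g (b + 1) 0 f := Fb_succ_const g ⟨b, by omega⟩ f
      rw [← h2, ← ih (by omega)]
      unfold Fb
      simp only [Zs_zero_eq]
  rw [← h1 k le_rfl]
  unfold Fb
  have h3 : ∀ v : Fin k × NN t → ℝ, Zs g k 0 v = fun _ => 0 := by
    intro v; funext c
    unfold Zs scl
    have := c.1.isLt
    by_cases h : c.1.val < k
    · simp [h]
    · have h2 : c.1.val = k := by omega
      simp [h2]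
  simp only [h3]
  simp

/-- the path weight -/
noncomputable def wpath {a : ℕ} (p : Fin (a + 1) → NN t) : ℝ :=
  ∏ b : Fin a, Wm (p b.castSucc) (p b.succ)

/-- the set of coordinates of a path prefix -/
def spath {a : ℕ} (h : a + 1 ≤ k + 1) (p : Fin (a + 1) → NN t) : Finset (Fin (k + 1) × NN t) :=
  univ.image (fun b : Fin (a + 1) => (Fin.castLE h b, p b))

lemma wpath_snoc {a : ℕ} (p : Fin (a + 1) → NN t) (j : NN t) :
    wpath (Fin.snoc (α := fun _ => NN t) p j : Fin (a + 1 + 1) → NN t) =
      wpath p * Wm (p (Fin.last a)) j := by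
  unfold wpath
  rw [Fin.prod_univ_castSucc]
  congr 1
  · apply Finset.prod_congr rfl
    intro b _
    rw [Fin.snoc_castSucc]
    congr 1
    rw [Fin.succ_castSucc, Fin.snoc_castSucc]
  · rw [Fin.snoc_castSucc, Fin.succ_last, Fin.snoc_last]

lemma spath_snoc {a : ℕ} (h : a + 1 + 1 ≤ k + 1) (p : Fin (a + 1) → NN t) (j : NN t) :
    spath h (Fin.snoc (α := fun _ => NN t) p j : Fin (a + 1 + 1) → NN t) =
      insert (Fin.castLE h (Fin.last (a + 1)), j) (spath (by omega) p) := by
  unfold spath
  ext ⟨x, y⟩
  simp only [mem_image, mem_univ, true_and, mem_insert]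
  constructor
  · rintro ⟨b, hb⟩
    induction b using Fin.lastCases with
    | last => left; rw [← hb, Fin.snoc_last]
    | cast b => right; refine ⟨b, ?_⟩; rw [← hb, Fin.snoc_castSucc]; rfl
  · rintro (h1 | ⟨b, hb⟩)
    · exact ⟨Fin.last (a + 1), by rw [h1, Fin.snoc_last]⟩
    · refine ⟨b.castSucc, ?_⟩
      rw [← hb, Fin.snoc_castSucc]; rfl

/-- partial path sums -/
noncomputable def Tp (g s : ℝ) (f : (Fin (k + 1) × NN t → Bool) → ℝ) (a : ℕ) (h : a + 1 ≤ k + 1) : ℝ :=
  ∑ p : Fin (a + 1) → NN t, (g ^ a * wpath p) *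
    ∫ v, g * Xl v (Fin.castLE h (Fin.last a), p (Fin.last a)) * dmext (spath h p) f (Zs g 0 s v)
      ∂(gaus (Fin k × NN t))

lemma Tp_succ (g s : ℝ) (f : (Fin (k + 1) × NN t → Bool) → ℝ) (a : ℕ) (h : a + 1 + 1 ≤ k + 1) :
    Tp g s f a (by omega) = Tp g s f (a + 1) h := by
  unfold Tp
  rw [← (Fin.snocEquiv (fun _ : Fin (a + 1 + 1) => NN t)).sum_comp, Fintype.sum_prod_type,
    Finset.sum_comm]
  apply Finset.sum_congr rfl
  intro p _
  set c : Fin k := ⟨a, by omega⟩ with hc
  have hX : ∀ v : Fin k × NN t → ℝ, Xl v (Fin.castLE (by omega : a + 1 ≤ k + 1) (Fin.last a), p (Fin.last a))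
      = v (c, p (Fin.last a)) := by
    intro v
    unfold Xl
    have : (Fin.castLE (by omega : a + 1 ≤ k + 1) (Fin.last a)).val < k := by
      simp; omega
    simp only [this, dif_pos]
    congr 1
  have h1 : ∫ v, g * Xl v (Fin.castLE (by omega : a + 1 ≤ k + 1) (Fin.last a), p (Fin.last a)) *
      dmext (spath (by omega) p) f (Zs g 0 s v) ∂(gaus (Fin k × NN t)) =
      g * ∫ v, v (c, p (Fin.last a)) * ((fun _ => (1:ℝ)) v * dmext (spath (by omega) p) f (Zs g 0 s v))
        ∂(gaus (Fin k × NN t)) := by
    rw [← integral_const_mul]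
    congr 1
    funext v
    rw [hX]; ring
  rw [h1, stein_step g 0 s c (p (Fin.last a)) (spath (by omega) p) f (fun _ => 1) (PolyFn.const 1)
    (fun _ _ => rfl)]
  have h2 : ∀ v : Fin k × NN t → ℝ, (1:ℝ) * ∑ e ∈ univ.filter (fun e => e ∉ spath (by omega : a + 1 ≤ k + 1) p),
      (scl 0 s e.1 * dZl g v c (p (Fin.last a)) e) * dmext (insert e (spath (by omega) p)) f (Zs g 0 s v) =
      ∑ j : NN t, Wm (p (Fin.last a)) j * (g * Xl v (Fin.castLE h (Fin.last (a + 1)), j) *
        dmext (insert (Fin.castLE h (Fin.last (a + 1)), j) (spath (by omega) p)) f (Zs g 0 s v)) := by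
    intro v
    rw [one_mul]
    symm
    have himg : ∑ j : NN t, Wm (p (Fin.last a)) j * (g * Xl v (Fin.castLE h (Fin.last (a + 1)), j) *
        dmext (insert (Fin.castLE h (Fin.last (a + 1)), j) (spath (by omega) p)) f (Zs g 0 s v)) =
        ∑ e ∈ univ.image (fun j : NN t => (Fin.castLE h (Fin.last (a + 1)), j)),
          Wm (p (Fin.last a)) e.2 * (g * Xl v e *
            dmext (insert e (spath (by omega : a + 1 ≤ k + 1) p)) f (Zs g 0 s v)) := by
      rw [Finset.sum_image]
      intro x _ y _ hxy
      exact (Prod.mk.inj hxy).2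
    rw [himg]
    have hsub : univ.image (fun j : NN t => (Fin.castLE h (Fin.last (a + 1)), j)) ⊆
        univ.filter (fun e => e ∉ spath (by omega : a + 1 ≤ k + 1) p) := by
      intro e he
      simp only [mem_image, mem_univ, true_and] at he
      obtain ⟨j, rfl⟩ := he
      simp only [mem_filter, mem_univ, true_and, spath, mem_image, not_exists]
      intro b hb
      have := congrArg (fun x => x.1.val) hb
      simp at this
      have := b.isLt; omega
    rw [← Finset.sum_subset hsub]
    · apply Finset.sum_congr rfl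
      intro e he
      simp only [mem_image, mem_univ, true_and] at he
      obtain ⟨j, rfl⟩ := he
      have h3 : scl 0 s (Fin.castLE h (Fin.last (a + 1))) = 1 := by
        unfold scl; simp
      have h4 : dZl g v c (p (Fin.last a)) (Fin.castLE h (Fin.last (a + 1)), j) =
          g * Xl v (Fin.castLE h (Fin.last (a + 1)), j) * Wm j (p (Fin.last a)) := by
        unfold dZl
        have h5 : dXl c (p (Fin.last a)) (Fin.castLE h (Fin.last (a + 1)), j) = 0 := by
          unfold dXl; rw [if_neg]; rintro ⟨h6, _⟩; simp [hc] at h6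
        have h6 : dYl c (p (Fin.last a)) (Fin.castLE h (Fin.last (a + 1)), j) = Wm j (p (Fin.last a)) := by
          unfold dYl; rw [if_pos]; simp [hc]
        rw [h5, h6]; ring
      rw [h3, h4, Wm_symm j]
      ring
    · intro e he hne
      simp only [mem_filter, mem_univ, true_and] at he
      simp only [mem_image, mem_univ, true_and, not_exists] at hne
      have h5 : dXl c (p (Fin.last a)) e = 0 := by
        unfold dXl; rw [if_neg]
        rintro ⟨h6, h7⟩
        apply he
        simp only [spath, mem_image, mem_univ, true_and]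
        refine ⟨Fin.last a, ?_⟩
        apply Prod.ext
        · apply Fin.ext; simp [hc] at h6 ⊢; omega
        · exact h7.symm
      have h6 : dYl c (p (Fin.last a)) e = 0 := by
        unfold dYl; rw [if_neg]
        intro h7
        apply hne e.2
        apply Prod.ext
        · apply Fin.ext; simp [hc] at h7 ⊢; omega
        · rfl
      unfold dZl
      rw [h5, h6]; ring
  simp only [h2]
  rw [integral_finsetSum]
  · rw [Finset.mul_sum, Finset.mul_sum]
    apply Finset.sum_congr rfl
    intro j _
    have h3 : (Fin.snocEquiv (fun _ : Fin (a + 1 + 1) => NN t)) (j, p) =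
        (Fin.snoc (α := fun _ => NN t) p j : Fin (a + 1 + 1) → NN t) := rfl
    rw [h3, wpath_snoc, spath_snoc h p j, Fin.snoc_last, integral_const_mul]
    ring
  · intro j _
    apply PolyFn.integrable
    exact PolyFn.mul (PolyFn.const _) (PolyFn.mul (PolyFn.mul (PolyFn.const _) (polyFn_Xl _))
      (polyFn_dmext _ f _ (polyFn_Zs g 0 s)))

/-- **Interpolation identity.** -/
theorem interp_deriv (hk : 1 ≤ k) (g s : ℝ) (f : (Fin (k + 1) × NN t → Bool) → ℝ) :
    HasDerivAt (fun s => Fb g 0 s f)
      (∑ p : Fin (k + 1) → NN t, (g ^ (k + 1) * wpath p) *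
        ∫ v, dmext (spath le_rfl p) f (Zs g 0 s v) ∂(gaus (Fin k × NN t))) s := by
  have h0 : Tp g s f 0 (by omega) = Tp g s f k le_rfl := by
    have : ∀ a (h : a + 1 ≤ k + 1), Tp g s f 0 (by omega) = Tp g s f a h := by
      intro a
      induction a with
      | zero => intro h; rfl
      | succ a ih => intro h; rw [ih (by omega), Tp_succ g s f a h]
    exact this k le_rfl
  have h1 := hasDerivAt_Fb g (0 : Fin (k + 1)) s f
  have h2 : (∑ i : NN t, ∫ v, Zl g v ((0 : Fin (k + 1)), i) * dmext {((0 : Fin (k + 1)), i)} f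
      (Zs g (0 : Fin (k + 1)).val s v) ∂(gaus (Fin k × NN t))) = Tp g s f 0 (by omega) := by
    unfold Tp
    rw [← (Equiv.funUnique (Fin 1) (NN t)).symm.sum_comp]
    apply Finset.sum_congr rfl
    intro i _
    have e1 : wpath ((Equiv.funUnique (Fin 1) (NN t)).symm i) = 1 := by
      unfold wpath; simp
    have e2 : spath (k := k) (a := 0) (by omega) ((Equiv.funUnique (Fin 1) (NN t)).symm i)
        = {((0 : Fin (k + 1)), i)} := by
      unfold spath
      ext ⟨x, y⟩
      simp only [mem_image, mem_univ, true_and, mem_singleton]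
      constructor
      · rintro ⟨b, hb⟩
        have : b = 0 := by apply Fin.ext; have := b.isLt; simp
        subst this
        exact hb.symm
      · intro hxy
        refine ⟨0, hxy.symm⟩
    rw [e1, e2, pow_zero, one_mul, one_mul]
    congr 1
    funext v
    have e3 : Zl g v ((0 : Fin (k + 1)), i) = g * Xl v ((0 : Fin (k + 1)), i) := by
      unfold Zl Yl; simp
    rw [e3]
    rfl
  rw [h2, h0] at h1
  have h3 : Tp g s f k le_rfl = ∑ p : Fin (k + 1) → NN t, (g ^ (k + 1) * wpath p) *
        ∫ v, dmext (spath le_rfl p) f (Zs g 0 s v) ∂(gaus (Fin k × NN t)) := by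
    unfold Tp
    apply Finset.sum_congr rfl
    intro p _
    have e4 : ∀ v : Fin k × NN t → ℝ, g * Xl v (Fin.castLE le_rfl (Fin.last k), p (Fin.last k)) *
        dmext (spath le_rfl p) f (Zs g 0 s v) = g * dmext (spath le_rfl p) f (Zs g 0 s v) := by
      intro v
      have : Xl v (Fin.castLE le_rfl (Fin.last k), p (Fin.last k)) = 1 := by
        unfold Xl; simp
      rw [this]; ring
    simp only [e4]
    rw [integral_const_mul, pow_succ]; ring
  rw [h3] at h1
  exact h1

end Crest.Agent.R350
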