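import Crest.Agent.R350.Defs2

/-! Row 350: INTERFACE statements of the classical part. -/

set_option autoImplicit false

namespace Crest.Agent.R350.SpecC

open Finset Crest.Agent.R350 Crest.MathPhysics.Query

/-- T5 (Forrelation lower bound; helper963): for every number `k + 1 ≥ 2` of blocks and `δ > 0`. -/
theorem forr_hard (k : ℕ) (hk : 1 ≤ k) (δ : ℝ) (hδ : 0 < δ) (hδ1 : δ ≤ 1 / 100) :
    ∃ t₀ : ℕ, ∀ t : ℕ, t₀ ≤ t → ∃ μ : (Fin (k + 1) × NN t → Bool) → ℝ,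
      (∀ x, 0 ≤ μ x) ∧ ∑ x, μ x = 1 ∧
      ((2 : ℝ) ^ t) ^ (-δ) ≤ ∑ x, μ x * phi k t (fun a i => x (a, i)) ∧
      ∀ d : ℕ, (d : ℝ) ≤ ((2 : ℝ) ^ t) ^ (1 - 1 / ((k : ℝ) + 1) - 8 * δ) →
        ∀ f : (Fin (k + 1) × NN t → Bool) → ℝ, DTC d f →
          |∑ x, μ x * f x - (∑ x, f x) / Fintype.card (Fin (k + 1) × NN t → Bool)|
            ≤ ((2 : ℝ) ^ t) ^ (-(4 * δ)) := by sorry

/-- the uniform average of `phi` is `0` (part of T5) -/
theorem phi_avg (k t : ℕ) : ∑ x : Fin (k + 1) × NN t → Bool, phi k t (fun a i => x (a, i)) = 0 := by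
  sorry

/-- `|phi| ≤ 1` (part of T3 or T5) -/
theorem phi_abs_le (k t : ℕ) (x : Fin (k + 1) → NN t → Bool) : |phi k t x| ≤ 1 := by sorry

/-- T6 (Lower): abstract randomized lower bound. Null distribution: every column `c` has exactly
one `false`, at a random row; all `z` uniform; all sheets blank. Planted: `build` with random
`b, κ, e`, with `z b ∼ ν κ`. `inl (r,c)` = cell in row `r`, column `c`. -/
theorem lower_abstract {N ζ Kp η : Type} [Fintype N] [DecidableEq N] [Nonempty N] [Fintype ζ]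
    [DecidableEq ζ] [Fintype Kp] [DecidableEq Kp] [Nonempty Kp] [Fintype η] [DecidableEq η]
    (F : ((N × N) ⊕ (N × ζ) ⊕ (N × Kp × η) → Bool) → Bool) (d r : ℕ) (hd : 1 ≤ d) (α β : ℝ)
    (ν : Kp → (ζ → Bool) → ℝ) (hν0 : ∀ κ z, 0 ≤ ν κ z) (hν1 : ∀ κ, ∑ z, ν κ z = 1)
    (hadv : ∀ κ, ∀ f : (ζ → Bool) → ℝ, DTC d f →
      |∑ z, ν κ z * f z - (∑ z, f z) / Fintype.card (ζ → Bool)| ≤ α)
    (hF0 : ∀ x, (∀ c, ∃ r, x (Sum.inl (r, c)) = false) → F x = false)
    (content : N → Kp → (N → N) → (ζ → Bool) → η → Bool)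
    (Good : Kp → (ζ → Bool) → Prop) [∀ κ, DecidablePred (Good κ)]
    (hGood : ∀ κ, 1 - β ≤ ∑ z, if Good κ z then ν κ z else 0)
    (hF1 : ∀ (b : N) (κ : Kp) (e : N → N) (z : N → ζ → Bool), Good κ (z b) →
      F (build content b κ e z) = true)
    (hcomp : RComp F r) :
    1 / 3 - β ≤ (r : ℝ) / (d * Fintype.card N) + (d : ℝ) / Fintype.card N
      + (d : ℝ) / Fintype.card Kp + 2 * α := by sorry

/-- T6': hybrid over independent copies: product of `L` distributions each `α`-close to uniform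
for depth-`d` trees. `w l = true` uses `μ`, otherwise uniform. -/
theorem hybrid_copies {ξ L : Type} [Fintype ξ] [DecidableEq ξ] [Fintype L] [DecidableEq L]
    (μ : (ξ → Bool) → ℝ) (h0 : ∀ x, 0 ≤ μ x) (h1 : ∑ x, μ x = 1) (d : ℕ) (α : ℝ)
    (hα : ∀ f : (ξ → Bool) → ℝ, DTC d f →
      |∑ x, μ x * f x - (∑ x, f x) / Fintype.card (ξ → Bool)| ≤ α)
    (w : L → Bool) (f : (L × ξ → Bool) → ℝ) (hf : DTC d f) :
    |∑ z : L × ξ → Bool, (∏ l, (if w l then μ (fun i => z (l, i))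
        else 1 / (Fintype.card (ξ → Bool) : ℝ))) * f z
      - (∑ z, f z) / Fintype.card (L × ξ → Bool)| ≤ Fintype.card L * α := by sorry

/-- T6'': randomized computation in the frozen sense gives `RComp`. -/
theorem rcomp_of {n : ℕ} {ι : Type} (e : ι ≃ Fin n) (F : (ι → Bool) → Bool) (r : ℕ)
    (h : RandomizedComputes (fun y : Fin n → Bool => F (fun i => y (e i))) r) : RComp F r := by
  sorry

end Crest.Agent.R350.SpecC
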