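import Crest.Agent.R350.Defs

/-! Row 350: INTERFACE statements of the quantum framework (all `sorry` here; real proofs go to
QCore.lean / Amp.lean / HTest.lean under the same names without the prime/`spec` suffix). Work
against these statements; the final assembly imports the proved versions. -/

set_option autoImplicit false

namespace Crest.Agent.R350.SpecQ

open Finset Matrix Crest.Agent.R350 Crest.MathPhysics.Query

variable {ι : Type} [Fintype ι] [DecidableEq ι]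

/-- T1 (QCore) -/
theorem QSamp_nonneg {Ω : Type} [DecidableEq Ω] {q : ℕ} {μ : (ι → Bool) → Ω → ℝ}
    (h : QSamp Ω q μ) (x : ι → Bool) (ω : Ω) : 0 ≤ μ x ω := by sorry

/-- T1 -/
theorem QSamp_sum_one {Ω : Type} [Fintype Ω] [DecidableEq Ω] {q : ℕ} {μ : (ι → Bool) → Ω → ℝ}
    (h : QSamp Ω q μ) (x : ι → Bool) : ∑ ω, μ x ω = 1 := by sorry

/-- T1: a fixed probability vector, no queries. -/
theorem QSamp_const [Nonempty ι] {Ω : Type} [Fintype Ω] [DecidableEq Ω] (p : Ω → ℝ)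
    (h0 : ∀ ω, 0 ≤ p ω) (h1 : ∑ ω, p ω = 1) : QSamp (ι := ι) Ω 0 (fun _ => p) := by sorry

/-- T1: read a bit. -/
theorem QSamp_read (i : ι) : QSamp (ι := ι) Bool 1 (fun x b => if x i = b then 1 else 0) := by
  sorry

/-- T1: sequential composition (deferred measurement). -/
theorem QSamp_bind {Ω Ω' : Type} [Fintype Ω] [DecidableEq Ω] [Fintype Ω'] [DecidableEq Ω']
    {q q' : ℕ} {μ : (ι → Bool) → Ω → ℝ} {ν : Ω → (ι → Bool) → Ω' → ℝ}
    (hμ : QSamp Ω q μ) (hν : ∀ ω, QSamp Ω' q' (ν ω)) :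
    QSamp Ω' (q + q') (fun x ω' => ∑ ω, μ x ω * ν ω x ω') := by sorry

/-- T1: wasting queries. -/
theorem QSamp_mono [Nonempty ι] {Ω : Type} [Fintype Ω] [DecidableEq Ω] {q q' : ℕ}
    {μ : (ι → Bool) → Ω → ℝ} (h : QSamp Ω q μ) (hq : q ≤ q') : QSamp Ω q' μ := by sorry

/-- T1: push-forward of outcomes. -/
theorem QSamp_map {Ω Ω' : Type} [Fintype Ω] [DecidableEq Ω] [Fintype Ω'] [DecidableEq Ω'] {q : ℕ}
    {μ : (ι → Bool) → Ω → ℝ} (h : QSamp Ω q μ) (F : Ω → Ω') :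
    QSamp Ω' q (fun x ω' => ∑ ω, if F ω = ω' then μ x ω else 0) := by sorry

/-- T1: deterministic decision trees. -/
theorem QSamp_ofDTE [Nonempty ι] {Ω : Type} [Fintype Ω] [DecidableEq Ω] {d : ℕ}
    {f : (ι → Bool) → Ω} (h : DTE d f) :
    QSamp Ω d (fun x ω => if f x = ω then 1 else 0) := by sorry

/-- T1: change of the index type. -/
theorem QSamp_reindex {ι' : Type} [Fintype ι'] [DecidableEq ι'] (e : ι ≃ ι') {Ω : Type}
    [DecidableEq Ω] {q : ℕ} {μ : (ι → Bool) → Ω → ℝ} (h : QSamp Ω q μ) :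
    QSamp (ι := ι') Ω q (fun x' => μ (fun i => x' (e i))) := by sorry

/-- T1: back to the frozen definition. -/
theorem QSamp_computes {n q : ℕ} {f : (Fin n → Bool) → Bool} {μ : (Fin n → Bool) → Bool → ℝ}
    (h : QSamp Bool q μ) (hf : ∀ x, 2 / 3 ≤ μ x (f x)) : QuantumComputes f q := by sorry

/-- T2 (Amp): amplitude amplification with a random number `< T` of iterations. The good set `G`
is a fixed set of outcomes. Within `G` (and within its complement) relative weights are kept. -/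
theorem QSamp_amplify [Nonempty ι] {Ω : Type} [Fintype Ω] [DecidableEq Ω] {q : ℕ}
    {μ : (ι → Bool) → Ω → ℝ} (h : QSamp Ω q μ) (G : Ω → Prop) [DecidablePred G] (T : ℕ)
    (hT : 1 ≤ T) :
    ∃ ν : (ι → Bool) → Ω → ℝ, QSamp Ω ((2 * T + 1) * q) ν ∧ ∀ x, ∃ c c' : ℝ, 0 ≤ c ∧ 0 ≤ c' ∧
      (∀ ω, G ω → ν x ω = c * μ x ω) ∧ (∀ ω, ¬ G ω → ν x ω = c' * μ x ω) ∧
      ((1 : ℝ) / (T : ℝ) ^ 2 ≤ ∑ ω, (if G ω then μ x ω else 0) →
        (1 : ℝ) / 8 ≤ ∑ ω, (if G ω then ν x ω else 0)) := by sorry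

/-- T3 (HTest): Hadamard test for `phi` on the blocks at addresses `adr a i`. -/
theorem QSamp_htest (k t : ℕ) (adr : Fin (k + 1) → NN t → ι) :
    QSamp (ι := ι) Bool (k + 1)
      (fun x b => (1 + (if b then 1 else -1) * phi k t (fun a i => x (adr a i))) / 2) := by sorry

/-- number of queries of the abstract search -/
def Qbound (T T' R s g g' qd : ℕ) : ℕ :=
  40 * (R * (s * ((2 * T + 1) * (R * g)) + (2 * T + 1) * (qd + s * g)) + (2 * T + 1) * (R * g)
    + qd + 40 * ((2 * T' + 1) * g'))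

/-- T4 (Search): abstract pointer search by halving. `chk b κ c` are the local checks of the
certificate `(b, κ)`; `ref b κ j` says that the sheet of `(b, κ)` refutes `j`. -/
theorem abstract_search [Nonempty ι] (N Kp C : Type) [Fintype N] [DecidableEq N] [Fintype Kp]
    [DecidableEq Kp] [Fintype C] [DecidableEq C] [Nonempty N] [Nonempty Kp] [Nonempty C]
    (g g' qd : ℕ)
    (ref : N → Kp → N → (ι → Bool) → Bool) (href : ∀ b κ j, DTE g (ref b κ j))
    (chk : N → Kp → C → (ι → Bool) → Bool) (hchk : ∀ b κ c, DTE g' (chk b κ c))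
    (dec : N → (ι → Bool) → Kp → ℝ) (hdec : ∀ b, QSamp Kp qd (dec b))
    (h1 : ∀ x b κ, (∀ c, chk b κ c x = true) → 1 / 2 ≤ dec b x κ)
    (h2 : ∀ x b κ, (∀ c, chk b κ c x = true) → ∀ j, j ≠ b → ref b κ j x = true)
    (h3 : ∀ x b κ, (∀ c, chk b κ c x = true) → ∀ b' κ', ref b' κ' b x = false)
    (T T' R s : ℕ) (hT : 2 * Fintype.card N ≤ T ^ 2) (hT' : Fintype.card C ≤ T' ^ 2)
    (hR : (Fintype.card N : ℝ) * (47 / 48) ^ R ≤ 1 / 2)
    (hs : (Fintype.card N : ℝ) * Fintype.card Kp * (23 / 24) ^ s ≤ 1 / 2) :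
    ∃ μ : (ι → Bool) → Bool → ℝ, QSamp Bool (Qbound T T' R s g g' qd) μ ∧
      ∀ (x : ι → Bool) (v : Bool), (v = true ↔ ∃ b κ, ∀ c, chk b κ c x = true) →
        2 / 3 ≤ μ x v := by sorry

end Crest.Agent.R350.SpecQ
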