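import Crest.Agent.R350.Defs2
import Crest.Agent.R350.SpecC
import Crest.Agent.R350.SpecQ

/-! Row 350: INTERFACE statements: the concrete function (tableau/FFT), the decoder, the planted
probability, and the final assembly. -/

set_option autoImplicit false

namespace Crest.Agent.R350.SpecF

open Finset Crest.Agent.R350 Crest.MathPhysics.Query

/-- T7 (Func): existence of sheets, contents, local checks and refutation predicates.
Sheet index `η` = pointer bits `NN t × Fin t` ⊕ tableau bits; checks `C` = (rows of column `b` all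
`true`) ⊕ (pointer `j ≠ b` hits a `false` cell of column `j`) ⊕ (tableau cell is consistent; FFT
butterflies, integers of absolute value `≤ 2^(t(k+1))` coded on `t(k+1)+2` bits) ⊕ (for each `u`
the final values `val(k,t,0)` of the `S` copies satisfy the threshold test). -/
theorem func_exists (k t τ S : ℕ) (hS : 1 ≤ S) (θ0 θ1 : ℝ) :
    ∃ (η C : Type) (_ : Fintype η) (_ : DecidableEq η) (_ : Fintype C) (_ : DecidableEq C)
      (_ : Nonempty C)
      (content : NN t → (Fin τ → Bool) → (NN t → NN t) → (ZI k t τ S → Bool) → η → Bool)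
      (ref : NN t → (Fin τ → Bool) → NN t →
        ((NN t × NN t) ⊕ (NN t × ZI k t τ S) ⊕ (NN t × (Fin τ → Bool) × η) → Bool) → Bool)
      (chk : NN t → (Fin τ → Bool) → C →
        ((NN t × NN t) ⊕ (NN t × ZI k t τ S) ⊕ (NN t × (Fin τ → Bool) × η) → Bool) → Bool),
      (∀ b κ j, DTE (t + 1) (ref b κ j)) ∧
      (∀ b κ c, DTE ((S + 3) * (t * (k + 1) + 3) + t + 2) (chk b κ c)) ∧
      Fintype.card C ≤ 2 ^ t * (2 + τ * S * (k + 1) * (t + 1) + τ) ∧
      (∀ x b κ, (∀ c, chk b κ c x = true) →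
        Good k t τ S θ0 θ1 κ (fun w => x (Sum.inr (Sum.inl (b, w))))) ∧
      (∀ x b κ, (∀ c, chk b κ c x = true) → ∀ j, j ≠ b → ref b κ j x = true) ∧
      (∀ x b κ, (∀ c, chk b κ c x = true) → ∀ b' κ', ref b' κ' b x = false) ∧
      (∀ b κ e z, Good k t τ S θ0 θ1 κ (z b) →
        ∀ c, chk b κ c (build content b κ e z) = true) ∧
      (∀ x, (∀ c, ∃ r, x (Sum.inl (r, c)) = false) → ∀ b κ, ∃ c, chk b κ c x = false) := by
  sorry

/-- T8 (Decode): quantum decoder of the secret. -/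
theorem decode_exists {ι : Type} [Fintype ι] [DecidableEq ι] [Nonempty ι] (k t τ S T0 : ℕ)
    (hS : 1 ≤ S) (hτ : 1 ≤ τ) (θ0 θ1 : ℝ) (hθ : θ0 < θ1)
    (hT0 : 8 * (τ : ℝ) / (θ1 - θ0) ^ 2 ≤ T0) (adr : ZI k t τ S → ι) :
    ∃ dec : (ι → Bool) → (Fin τ → Bool) → ℝ, QSamp (Fin τ → Bool) (τ * (T0 * (k + 1))) dec ∧
      ∀ x κ, Good k t τ S θ0 θ1 κ (fun w => x (adr w)) → 1 / 2 ≤ dec x κ := by sorry

/-- T8b (Good): planted secrets are good with high probability (Chebyshev). -/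
theorem good_prob (k t τ S : ℕ) (hS : 1 ≤ S) (β θ : ℝ) (hβ : 0 < β) (hθ : 0 < θ)
    (hSβ : 16 * (τ : ℝ) / (β * θ ^ 2) ≤ S)
    (μ : (Fin (k + 1) × NN t → Bool) → ℝ) (h0 : ∀ x, 0 ≤ μ x) (h1 : ∑ x, μ x = 1)
    (hμ : θ ≤ ∑ x, μ x * phi k t (fun a i => x (a, i))) (κ : Fin τ → Bool)
    [DecidablePred (Good k t τ S (θ / 4) (3 * θ / 4) κ)] :
    1 - β ≤ ∑ z : ZI k t τ S → Bool, if Good k t τ S (θ / 4) (3 * θ / 4) κ z then
      ∏ l : Fin τ × Fin S, (if κ l.1 then μ (fun i => z (l, i))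
        else 1 / (Fintype.card (Fin (k + 1) × NN t → Bool) : ℝ)) else 0 := by sorry

end Crest.Agent.R350.SpecF
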