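import Crest.Agent.R350.Interp2

/-! Interface statements inside T5 (Forrelation lower bound). Prove them under the same names in
namespace `Crest.Agent.R350` in the files indicated. -/

set_option autoImplicit false

namespace Crest.Agent.R350.SpecT5

open Finset MeasureTheory ProbabilityTheory Crest.Agent.R350

/-- T5b (Tail), file R350/Tail.lean (helper116): off-cube contribution is smaller than any power of
`n = 2^t`. (`gam k t` is by definition the same as `gaus (Fin k × NN t)`.) -/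
theorem tail_bound (k : ℕ) (δ C : ℝ) (hδ : 0 < δ) :
    ∃ t₀ : ℕ, ∀ t : ℕ, t₀ ≤ t → ∀ g : ℝ, 0 ≤ g → g ≤ ((2 : ℝ) ^ t) ^ (-δ) →
      Integrable (Rmax (k := k) (t := t) g) (gam k t) ∧ MeasurableSet (badSet k t g) ∧
      ∫ v in badSet k t g, Rmax g v ∂(gam k t) ≤ ((2 : ℝ) ^ t) ^ (-C) := by sorry

/-- T5c (Level), file R350/Level.lean: consequence of `Lam_sq_le`. (`dmext` with the coefficient
vector `a S = ∑_{p : spath p = S} g^(k+1) * wpath p`; `spath` is injective, `|spath p| = k+1`.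
DTC functions are DTF functions.) `n = 2^t`. -/
theorem level_bound (k t d q : ℕ) (hq : 1 ≤ q) (g : ℝ) (hg : 0 ≤ g)
    (f : (Fin (k + 1) × NN t → Bool) → ℝ) (hf : DTC d f) (z : Fin (k + 1) × NN t → ℝ)
    (hz : ∀ c, |z c| ≤ 1 / 2) :
    (∑ p : Fin (k + 1) → NN t, (g ^ (k + 1) * wpath p) * dmext (spath le_rfl p) f z) ^ 2 ≤
      (d * (4 * 9 ^ q)) ^ (k + 1) * (g ^ (k + 1)) ^ 2 * ((2 : ℝ) ^ t) ^ (-(k : ℝ)) *
        ((2 : ℝ) ^ t) ^ (((k : ℝ) + 1) / q) := by sorry

/-- T5d (PhiDeriv), file R350/PhiDeriv.lean: the `(k+1)`-fold derivative of `phi`. -/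
theorem phi_deriv (k t : ℕ) (g : ℝ) (z : Fin (k + 1) × NN t → ℝ) :
    ∑ p : Fin (k + 1) → NN t, (g ^ (k + 1) * wpath p) *
      dmext (spath le_rfl p) (fun x => phi k t (fun a i => x (a, i))) z = g ^ (k + 1) := by sorry

/-- T5e, file R350/PhiDeriv.lean: values off the cube. -/
theorem abs_dmext_le {ι : Type*} [Fintype ι] [DecidableEq ι] (S : Finset ι)
    (f : (ι → Bool) → ℝ) (hf : ∀ x, |f x| ≤ 1) (z : ι → ℝ) :
    |dmext S f z| ≤ ∏ i, max 1 |z i| := by sorry

end Crest.Agent.R350.SpecT5
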