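import Crest.Agent.R350.ForrDefs

/-!
Row 350, part B: Gaussian moments, Stein's lemma for polynomial functions of iid Gaussians.
-/

set_option autoImplicit false

namespace Crest.Agent.R350

open Finset MeasureTheory ProbabilityTheory

section oneD

lemma integrable_pow_gauss (m : ℕ) : Integrable (fun x : ℝ => x ^ m) (gaussianReal 0 1) := by
  have h := (memLp_id_gaussianReal (μ := 0) (v := 1) (m : NNReal))
  have h' : MemLp id ((m : ℕ) : ENNReal) (gaussianReal 0 1) := by simpa using h
  have h2 := h'.integrable_norm_pow'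
  refine h2.mono (by fun_prop) ?_
  filter_upwards with x
  simp

lemma integrable_pow_mul_pdf (m : ℕ) :
    Integrable (fun x : ℝ => gaussianPDFReal 0 1 x * x ^ m) := by
  have h := integrable_pow_gauss m
  rw [gaussianReal_of_var_ne_zero _ (by norm_num : (1 : NNReal) ≠ 0)] at h
  rw [integrable_withDensity_iff_integrable_smul' (measurable_gaussianPDF _ _)
    (ae_of_all _ fun _ => gaussianPDF_lt_top)] at h
  simpa [toReal_gaussianPDF] using h

lemma hasDerivAt_pdf (x : ℝ) :
    HasDerivAt (gaussianPDFReal 0 1) (-(x * gaussianPDFReal 0 1 x)) x := by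
  have : gaussianPDFReal 0 1 = fun x => (Real.sqrt (2 * Real.pi * 1))⁻¹ * Real.exp (-(x - 0) ^ 2 / (2 * 1)) := by
    ext x; simp [gaussianPDFReal]
  rw [this]
  have h1 : HasDerivAt (fun x : ℝ => -(x - 0) ^ 2 / (2 * 1)) (-x) x := by
    have h2 : HasDerivAt (fun x : ℝ => x ^ 2) (2 * x) x := by
      simpa using hasDerivAt_pow 2 x
    have h3 : (fun x : ℝ => -(x - 0) ^ 2 / (2 * 1)) = fun x : ℝ => (-1/2) * x ^ 2 := by
      ext y; ring
    rw [h3]
    have h4 := h2.const_mul (-1/2 : ℝ)
    have h6 : (-1/2 : ℝ) * (2 * x) = -x := by ring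
    rw [h6] at h4
    exact h4
  have h5 := (h1.exp).const_mul ((Real.sqrt (2 * Real.pi * 1))⁻¹)
  have h7 : (Real.sqrt (2 * Real.pi * 1))⁻¹ * (Real.exp (-(x - 0) ^ 2 / (2 * 1)) * -x) =
      -(x * ((Real.sqrt (2 * Real.pi * 1))⁻¹ * Real.exp (-(x - 0) ^ 2 / (2 * 1)))) := by ring
  rw [h7] at h5
  exact h5

/-- one-dimensional Stein identity for monomials. -/
lemma stein_monomial (m : ℕ) :
    ∫ x, x ^ (m + 1) ∂(gaussianReal 0 1) = m * ∫ x, x ^ (m - 1) ∂(gaussianReal 0 1) := by
  rw [integral_gaussianReal_eq_integral_smul (by norm_num),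
    integral_gaussianReal_eq_integral_smul (by norm_num)]
  have h := integral_mul_deriv_eq_deriv_mul_of_integrable (A := ℝ)
    (u := fun x : ℝ => x ^ m) (v := gaussianPDFReal 0 1)
    (u' := fun x : ℝ => m * x ^ (m - 1)) (v' := fun x => -(x * gaussianPDFReal 0 1 x))
    (fun x _ => by simpa using hasDerivAt_pow m x) (fun x _ => hasDerivAt_pdf x)
    (by
      have := (integrable_pow_mul_pdf (m + 1)).neg
      refine this.congr (ae_of_all _ fun x => ?_)
      simp only [Pi.neg_apply, Pi.mul_apply]; ring)
    (by
      have := (integrable_pow_mul_pdf (m - 1)).const_mul (m : ℝ)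
      refine this.congr (ae_of_all _ fun x => ?_)
      simp only [Pi.mul_apply]; ring)
    (by
      refine (integrable_pow_mul_pdf m).congr (ae_of_all _ fun x => ?_)
      simp only [Pi.mul_apply]; ring)
  have h1 : ∫ x, gaussianPDFReal 0 1 x • x ^ (m + 1) = - ∫ x, x ^ m * -(x * gaussianPDFReal 0 1 x) := by
    rw [← integral_neg]; congr 1; ext x; simp only [smul_eq_mul]; ring
  have h2 : (m : ℝ) * ∫ x, gaussianPDFReal 0 1 x • x ^ (m - 1) =
      ∫ x, (m : ℝ) * x ^ (m - 1) * gaussianPDFReal 0 1 x := by
    rw [← integral_const_mul]; congr 1; ext x; simp only [smul_eq_mul]; ring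
  rw [h1, h2, h, neg_neg]

end oneD

section multi

variable {κ : Type*} [Fintype κ] [DecidableEq κ]

/-- product Gaussian measure -/
noncomputable def gaus (κ : Type*) [Fintype κ] : Measure (κ → ℝ) :=
  Measure.pi (fun _ => gaussianReal 0 1)

noncomputable instance : IsProbabilityMeasure (gaus κ) := by
  unfold gaus; infer_instance

omit [DecidableEq κ] in
lemma integrable_monomial (m : κ → ℕ) : Integrable (fun v : κ → ℝ => ∏ i, v i ^ m i) (gaus κ) :=
  Integrable.fintype_prod (f := fun i x => x ^ m i) (fun i => integrable_pow_gauss (m i))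

omit [DecidableEq κ] in
lemma integral_monomial (m : κ → ℕ) :
    ∫ v, ∏ i, v i ^ m i ∂(gaus κ) = ∏ i, ∫ x, x ^ m i ∂(gaussianReal 0 1) :=
  integral_fintype_prod_eq_prod (f := fun i x => x ^ m i)

omit [DecidableEq κ] in
lemma eval_monomial_eq (m : κ →₀ ℕ) (a : ℝ) (v : κ → ℝ) :
    MvPolynomial.eval v (MvPolynomial.monomial m a) = a * ∏ i, v i ^ m i := by
  rw [MvPolynomial.eval_monomial, Finsupp.prod_fintype]
  intro i; simp

omit [DecidableEq κ] in
lemma integrable_eval (P : MvPolynomial κ ℝ) :
    Integrable (fun v : κ → ℝ => MvPolynomial.eval v P) (gaus κ) := by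
  induction P using MvPolynomial.induction_on' with
  | monomial m a =>
    simp only [eval_monomial_eq]
    exact (integrable_monomial _).const_mul a
  | add p q hp hq =>
    simp only [map_add]
    exact hp.add hq

/-- Stein's lemma for polynomials in iid Gaussians. -/
lemma stein_poly (P : MvPolynomial κ ℝ) (i : κ) :
    ∫ v, v i * MvPolynomial.eval v P ∂(gaus κ) =
      ∫ v, MvPolynomial.eval v (MvPolynomial.pderiv i P) ∂(gaus κ) := by
  induction P using MvPolynomial.induction_on' with
  | monomial m a =>
    have h1 : ∀ v : κ → ℝ, v i * MvPolynomial.eval v (MvPolynomial.monomial m a) =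
        a * ∏ j, v j ^ (Function.update (m : κ → ℕ) i (m i + 1) j) := by
      intro v
      rw [eval_monomial_eq]
      rw [← Finset.mul_prod_erase univ _ (Finset.mem_univ i),
        ← Finset.mul_prod_erase univ (fun j => v j ^ (Function.update (m : κ → ℕ) i (m i + 1) j))
          (Finset.mem_univ i)]
      simp only [Function.update_self]
      have : ∏ j ∈ univ.erase i, v j ^ (Function.update (m : κ → ℕ) i (m i + 1) j)
          = ∏ j ∈ univ.erase i, v j ^ m j := by
        apply Finset.prod_congr rfl
        intro j hj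
        rw [Function.update_of_ne (Finset.ne_of_mem_erase hj)]
      rw [this]; ring
    have h2 : ∀ v : κ → ℝ, MvPolynomial.eval v (MvPolynomial.pderiv i (MvPolynomial.monomial m a)) =
        a * m i * ∏ j, v j ^ (Function.update (m : κ → ℕ) i (m i - 1) j) := by
      intro v
      rw [MvPolynomial.pderiv_monomial, eval_monomial_eq]
      congr 1
      apply Finset.prod_congr rfl
      intro j _
      congr 1
      by_cases hj : j = i
      · subst hj; simp
      · simp [Function.update_of_ne hj, Ne.symm hj]
    simp only [h1, h2]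
    rw [integral_const_mul, integral_const_mul, integral_monomial, integral_monomial]
    rw [← Finset.mul_prod_erase univ _ (Finset.mem_univ i),
        ← Finset.mul_prod_erase univ (fun j => ∫ x, x ^ (Function.update (m : κ → ℕ) i (m i - 1) j)
          ∂(gaussianReal 0 1)) (Finset.mem_univ i)]
    simp only [Function.update_self]
    have h3 : ∏ j ∈ univ.erase i, ∫ x, x ^ (Function.update (m : κ → ℕ) i (m i + 1) j) ∂(gaussianReal 0 1)
        = ∏ j ∈ univ.erase i, ∫ x, x ^ (Function.update (m : κ → ℕ) i (m i - 1) j) ∂(gaussianReal 0 1) := by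
      apply Finset.prod_congr rfl
      intro j hj
      rw [Function.update_of_ne (Finset.ne_of_mem_erase hj),
        Function.update_of_ne (Finset.ne_of_mem_erase hj)]
    rw [h3, stein_monomial]
    ring
  | add p q hp hq =>
    simp only [map_add, mul_add]
    have hi : ∀ P : MvPolynomial κ ℝ, Integrable (fun v : κ → ℝ => v i * MvPolynomial.eval v P) (gaus κ) := by
      intro P
      have := integrable_eval (MvPolynomial.X i * P)
      simpa using this
    rw [integral_add (hi p) (hi q), hp, hq, integral_add (integrable_eval _) (integrable_eval _)]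

omit [Fintype κ] in
/-- the derivative of the evaluation in one coordinate is the evaluation of `pderiv`. -/
lemma hasDerivAt_eval (P : MvPolynomial κ ℝ) (i : κ) (v : κ → ℝ) (t : ℝ) :
    HasDerivAt (fun t => MvPolynomial.eval (Function.update v i t) P)
      (MvPolynomial.eval (Function.update v i t) (MvPolynomial.pderiv i P)) t := by
  induction P using MvPolynomial.induction_on with
  | C a => simp only [MvPolynomial.eval_C, MvPolynomial.pderiv_C, map_zero]; exact hasDerivAt_const t a
  | add p q hp hq => simp only [map_add]; exact hp.add hq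
  | mul_X p j hp =>
    simp only [map_mul, MvPolynomial.eval_X, Derivation.leibniz, map_add, smul_eq_mul]
    have hj : HasDerivAt (fun t => Function.update v i t j)
        (MvPolynomial.eval (Function.update v i t) (MvPolynomial.pderiv i (MvPolynomial.X j))) t := by
      by_cases h : j = i
      · subst h
        simp only [Function.update_self, MvPolynomial.pderiv_X_self, map_one]
        exact hasDerivAt_id t
      · simp only [Function.update_of_ne h]
        rw [MvPolynomial.pderiv_X_of_ne h, map_zero]
        exact hasDerivAt_const t _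
    have h := hp.mul hj
    rw [add_comm, mul_comm (Function.update v i t j)]
    rw [add_comm] at h
    rw [add_comm]
    exact h

/-- functions given by a polynomial -/
def PolyFn (F : (κ → ℝ) → ℝ) : Prop := ∃ P : MvPolynomial κ ℝ, ∀ v, F v = MvPolynomial.eval v P

omit [Fintype κ] [DecidableEq κ] in
lemma PolyFn.const (c : ℝ) : PolyFn (fun _ : κ → ℝ => c) := ⟨MvPolynomial.C c, by simp⟩

omit [Fintype κ] [DecidableEq κ] in
lemma PolyFn.coord (i : κ) : PolyFn (fun v : κ → ℝ => v i) := ⟨MvPolynomial.X i, by simp⟩

omit [Fintype κ] [DecidableEq κ] in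
lemma PolyFn.add {F G : (κ → ℝ) → ℝ} (hF : PolyFn F) (hG : PolyFn G) :
    PolyFn (fun v => F v + G v) := by
  obtain ⟨P, hP⟩ := hF; obtain ⟨Q, hQ⟩ := hG
  exact ⟨P + Q, by simp [hP, hQ]⟩

omit [Fintype κ] [DecidableEq κ] in
lemma PolyFn.mul {F G : (κ → ℝ) → ℝ} (hF : PolyFn F) (hG : PolyFn G) :
    PolyFn (fun v => F v * G v) := by
  obtain ⟨P, hP⟩ := hF; obtain ⟨Q, hQ⟩ := hG
  exact ⟨P * Q, by simp [hP, hQ]⟩

omit [Fintype κ] [DecidableEq κ] in
lemma PolyFn.pow {F : (κ → ℝ) → ℝ} (hF : PolyFn F) (m : ℕ) :
    PolyFn (fun v => F v ^ m) := by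
  obtain ⟨P, hP⟩ := hF
  exact ⟨P ^ m, by simp [hP]⟩

omit [Fintype κ] [DecidableEq κ] in
lemma PolyFn.sum {α : Type*} (s : Finset α) {F : α → (κ → ℝ) → ℝ} (hF : ∀ a ∈ s, PolyFn (F a)) :
    PolyFn (fun v => ∑ a ∈ s, F a v) := by
  classical
  induction s using Finset.induction_on with
  | empty => simpa using PolyFn.const (κ := κ) 0
  | insert a s ha ih =>
    simp only [Finset.sum_insert ha]
    exact (hF a (by simp)).add (ih fun b hb => hF b (by simp [hb]))

omit [Fintype κ] [DecidableEq κ] in
lemma PolyFn.prod {α : Type*} (s : Finset α) {F : α → (κ → ℝ) → ℝ} (hF : ∀ a ∈ s, PolyFn (F a)) :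
    PolyFn (fun v => ∏ a ∈ s, F a v) := by
  classical
  induction s using Finset.induction_on with
  | empty => simpa using PolyFn.const (κ := κ) 1
  | insert a s ha ih =>
    simp only [Finset.prod_insert ha]
    exact (hF a (by simp)).mul (ih fun b hb => hF b (by simp [hb]))

omit [DecidableEq κ] in
lemma PolyFn.integrable {F : (κ → ℝ) → ℝ} (hF : PolyFn F) : Integrable F (gaus κ) := by
  obtain ⟨P, hP⟩ := hF
  have : F = fun v => MvPolynomial.eval v P := funext hP
  rw [this]; exact integrable_eval P

/-- Stein's lemma for polynomial functions. -/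
lemma stein {F F' : (κ → ℝ) → ℝ} (hF : PolyFn F) (i : κ)
    (hd : ∀ v, HasDerivAt (fun t => F (Function.update v i t)) (F' v) (v i)) :
    ∫ v, v i * F v ∂(gaus κ) = ∫ v, F' v ∂(gaus κ) := by
  obtain ⟨P, hP⟩ := hF
  have h1 : ∀ v, F' v = MvPolynomial.eval v (MvPolynomial.pderiv i P) := by
    intro v
    have h2 := hasDerivAt_eval P i v (v i)
    rw [Function.update_eq_self] at h2
    have h3 := hd v
    simp only [hP] at h3
    exact h3.unique h2
  simp only [h1, hP]
  exact stein_poly P i

/-- differentiating in a parameter under the Gaussian integral, jointly polynomial case. -/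
lemma hasDerivAt_integral_poly {G G' : ℝ → (κ → ℝ) → ℝ}
    (hG : ∃ P : MvPolynomial (Option κ) ℝ, ∀ s v, G s v = MvPolynomial.eval (fun o => o.elim s v) P)
    (hd : ∀ s v, HasDerivAt (fun s => G s v) (G' s v) s) (s : ℝ) :
    HasDerivAt (fun s => ∫ v, G s v ∂(gaus κ)) (∫ v, G' s v ∂(gaus κ)) s := by
  obtain ⟨P, hP⟩ := hG
  have hupd : ∀ (s : ℝ) (v : κ → ℝ), (fun o : Option κ => o.elim s v) =
      Function.update (fun o : Option κ => o.elim 0 v) none s := by
    intro s v; funext o; cases o <;> simp
  have h1 : ∀ s v, G' s v = MvPolynomial.eval (fun o => o.elim s v) (MvPolynomial.pderiv none P) := by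
    intro s v
    have h2 := hasDerivAt_eval P none (fun o => o.elim 0 v) s
    rw [← hupd] at h2
    have h3 := hd s v
    have h6 : (fun s => G s v) = fun t => MvPolynomial.eval
        (Function.update (fun o : Option κ => o.elim 0 v) none t) P := by
      funext t; rw [hP t v, hupd t v]
    rw [h6] at h3
    exact h3.unique h2
  have h4 : (fun s => ∫ v, G s v ∂(gaus κ)) =
      fun s => ∫ v, MvPolynomial.eval (fun o : Option κ => o.elim s v) P ∂(gaus κ) := by
    funext s; congr 1; funext v; exact hP s v
  have h5 : (∫ v, G' s v ∂(gaus κ)) =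
      ∫ v, MvPolynomial.eval (fun o : Option κ => o.elim s v) (MvPolynomial.pderiv none P) ∂(gaus κ) := by
    congr 1; funext v; exact h1 s v
  rw [h4, h5]
  clear hP h1 hd h4 h5
  have hint : ∀ (s : ℝ) (P : MvPolynomial (Option κ) ℝ),
      Integrable (fun v : κ → ℝ => MvPolynomial.eval (fun o => o.elim s v) P) (gaus κ) := by
    intro s P
    have : (fun v : κ → ℝ => MvPolynomial.eval (fun o : Option κ => o.elim s v) P) =
      fun v => MvPolynomial.eval v (MvPolynomial.aeval (fun o : Option κ => o.elim (MvPolynomial.C s)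
        MvPolynomial.X) P) := by
      funext v
      induction P using MvPolynomial.induction_on with
      | C a => simp
      | add p q hp hq => rw [map_add, map_add, map_add, hp, hq]
      | mul_X p j hp =>
        rw [map_mul, map_mul, map_mul, hp]
        congr 1
        cases j <;> simp
    rw [this]; exact integrable_eval _
  induction P using MvPolynomial.induction_on' with
  | monomial m a =>
    have e1 : ∀ (s : ℝ) (v : κ → ℝ), MvPolynomial.eval (fun o : Option κ => o.elim s v) (MvPolynomial.monomial m a)
        = s ^ (m none) * (a * ∏ i, v i ^ m (some i)) := by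
      intro s v
      rw [MvPolynomial.eval_monomial, Finsupp.prod_fintype _ _ (by intro i; simp), Fintype.prod_option]
      simp; ring
    have e2 : ∀ (s : ℝ) (v : κ → ℝ), MvPolynomial.eval (fun o : Option κ => o.elim s v)
        (MvPolynomial.pderiv none (MvPolynomial.monomial m a))
        = ((m none : ℝ) * s ^ (m none - 1)) * (a * ∏ i, v i ^ m (some i)) := by
      intro s v
      rw [MvPolynomial.pderiv_monomial, MvPolynomial.eval_monomial,
        Finsupp.prod_fintype _ _ (by intro i; simp), Fintype.prod_option]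
      simp; ring
    simp only [e1, e2, integral_const_mul]
    exact (hasDerivAt_pow (m none) s).mul_const _
  | add p q hp hq =>
    simp only [map_add]
    have : (fun s => ∫ v, (MvPolynomial.eval (fun o : Option κ => o.elim s v) p +
        MvPolynomial.eval (fun o : Option κ => o.elim s v) q) ∂(gaus κ)) =
        fun s => (∫ v, MvPolynomial.eval (fun o : Option κ => o.elim s v) p ∂(gaus κ)) +
          ∫ v, MvPolynomial.eval (fun o : Option κ => o.elim s v) q ∂(gaus κ) := by
      funext s; exact integral_add (hint s p) (hint s q)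
    rw [this, integral_add (hint s _) (hint s _)]
    exact hp.add hq

end multi

end Crest.Agent.R350
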