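import Crest.Agent.R350.TailA

/-! Row 350, T5b (Tail): the off-cube contribution is smaller than any power of `n = 2^t`. -/

set_option autoImplicit false

namespace Crest.Agent.R350

open Finset MeasureTheory ProbabilityTheory

variable {k t : ℕ}

lemma tl_factor (p : ℕ) (hp : 1 ≤ p) (g : ℝ) (hg : 0 ≤ g) (x : ℝ) :
    max 1 (Real.sqrt g * |x|) ≤ 1 + g ^ p * x ^ (2 * p) := by
  have h0 : 0 ≤ Real.sqrt g * |x| := by positivity
  have h1 : g ^ p * x ^ (2 * p) = (Real.sqrt g * |x|) ^ (2 * p) := by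
    rw [mul_pow, pow_mul, pow_mul, pow_mul, Real.sq_sqrt hg, sq_abs]
  rw [h1]
  have h2 : 0 ≤ (Real.sqrt g * |x|) ^ (2 * p) := by positivity
  apply max_le
  · linarith
  · by_cases h : Real.sqrt g * |x| ≤ 1
    · linarith
    · push Not at h
      have := le_self_pow₀ h.le (n := 2 * p) (by omega)
      linarith

lemma tl_max_mul {a b : ℝ} (hb : 0 ≤ b) : max 1 (a * b) ≤ max 1 a * max 1 b := by
  apply max_le
  · exact one_le_mul_of_one_le_of_one_le (le_max_left _ _) (le_max_left _ _)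
  · exact mul_le_mul (le_max_right _ _) (le_max_right _ _) hb
      (le_trans zero_le_one (le_max_left _ _))

lemma Xl_castSucc (v : Fin k × NN t → ℝ) (a : Fin k) (i : NN t) :
    Xl v (a.castSucc, i) = v (a, i) := by
  unfold Xl
  simp

lemma Xl_last (v : Fin k × NN t → ℝ) (i : NN t) : Xl v (Fin.last k, i) = 1 := by
  unfold Xl
  simp

lemma Yl_zero (v : Fin k × NN t → ℝ) (i : NN t) : Yl v (0, i) = 1 := by
  unfold Yl
  simp

lemma Yl_succ (v : Fin k × NN t → ℝ) (a : Fin k) (i : NN t) :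
    Yl v (a.succ, i) = Tw v (a, i) := by
  unfold Yl Tw
  simp

lemma tl_Rmax_le (p : ℕ) (hp : 1 ≤ p) (g : ℝ) (hg : 0 ≤ g) (hg1 : g ≤ 1)
    (v : Fin k × NN t → ℝ) : Rmax g v ≤ Pw p g v * Pw p g (Tw v) := by
  have hs1 : Real.sqrt g ≤ 1 := Real.sqrt_le_one.2 hg1
  have h1 : Rmax g v ≤ (∏ c : Fin (k + 1) × NN t, max 1 (Real.sqrt g * |Xl v c|)) *
      ∏ c : Fin (k + 1) × NN t, max 1 (Real.sqrt g * |Yl v c|) := by
    unfold Rmax
    rw [← prod_mul_distrib]
    apply prod_le_prod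
    · intro c _; positivity
    · intro c _
      have : |Zl g v c| = (Real.sqrt g * |Xl v c|) * (Real.sqrt g * |Yl v c|) := by
        unfold Zl
        rw [abs_mul, abs_mul, abs_of_nonneg hg]
        calc g * |Xl v c| * |Yl v c| = (Real.sqrt g * Real.sqrt g) * |Xl v c| * |Yl v c| := by
              rw [Real.mul_self_sqrt hg]
          _ = _ := by ring
      rw [this]
      exact tl_max_mul (by positivity)
  refine h1.trans ?_
  have hX : (∏ c : Fin (k + 1) × NN t, max 1 (Real.sqrt g * |Xl v c|)) ≤ Pw p g v := by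
    rw [Fintype.prod_prod_type, Fin.prod_univ_castSucc]
    have hl : ∏ i : NN t, max 1 (Real.sqrt g * |Xl v (Fin.last k, i)|) = 1 := by
      apply prod_eq_one
      intro i _
      rw [Xl_last]
      simp [hs1]
    rw [hl, mul_one]
    unfold Pw
    rw [Fintype.prod_prod_type]
    apply prod_le_prod
    · intro a _
      exact prod_nonneg fun i _ => by positivity
    · intro a _
      apply prod_le_prod
      · intro i _; positivity
      · intro i _
        rw [Xl_castSucc]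
        exact tl_factor p hp g hg _
  have hY : (∏ c : Fin (k + 1) × NN t, max 1 (Real.sqrt g * |Yl v c|)) ≤ Pw p g (Tw v) := by
    rw [Fintype.prod_prod_type, Fin.prod_univ_succ]
    have hl : ∏ i : NN t, max 1 (Real.sqrt g * |Yl v (0, i)|) = 1 := by
      apply prod_eq_one
      intro i _
      rw [Yl_zero]
      simp [hs1]
    rw [hl, one_mul]
    unfold Pw
    rw [Fintype.prod_prod_type]
    apply prod_le_prod
    · intro a _
      exact prod_nonneg fun i _ => by positivity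
    · intro a _
      apply prod_le_prod
      · intro i _; positivity
      · intro i _
        rw [Yl_succ]
        exact tl_factor p hp g hg _
  have hX0 : 0 ≤ ∏ c : Fin (k + 1) × NN t, max 1 (Real.sqrt g * |Yl v c|) :=
    prod_nonneg fun i _ => by positivity
  refine mul_le_mul hX hY hX0 ?_
  exact prod_nonneg fun c _ => by rw [pow_mul]; positivity

lemma tl_Uw_ge (m : ℕ) (g : ℝ) (hg : 0 ≤ g) (w : Fin k × NN t → ℝ) (c : Fin k × NN t)
    (h : 1 / 2 < g * w c ^ 2) : 1 ≤ Uw m g w := by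
  unfold Uw
  have h1 : (1 : ℝ) ≤ (2 * g * w c ^ 2) ^ m := one_le_pow₀ (by linarith)
  refine h1.trans ?_
  exact single_le_sum (f := fun c => (2 * g * w c ^ 2) ^ m) (fun c _ => by positivity)
    (mem_univ c)

lemma Uw_nonneg (m : ℕ) (g : ℝ) (hg : 0 ≤ g) (w : Fin k × NN t → ℝ) : 0 ≤ Uw m g w :=
  sum_nonneg fun c _ => by positivity

lemma Pw_nonneg (m : ℕ) (g : ℝ) (hg : 0 ≤ g) (w : Fin k × NN t → ℝ) : 0 ≤ Pw m g w :=
  prod_nonneg fun c _ => by rw [pow_mul]; positivity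

lemma tl_bad (m : ℕ) (g : ℝ) (hg : 0 ≤ g) (hg1 : g ≤ 1 / 2) (v : Fin k × NN t → ℝ)
    (hv : v ∈ badSet k t g) : 1 ≤ Uw m g v + Uw m g (Tw v) := by
  obtain ⟨⟨a, i⟩, hc⟩ := hv
  have hz : |Zl g v (a, i)| = g * (|Xl v (a, i)| * |Yl v (a, i)|) := by
    unfold Zl
    rw [abs_mul, abs_mul, abs_of_nonneg hg]; ring
  have hcase : 1 / 2 < g * Xl v (a, i) ^ 2 ∨ 1 / 2 < g * Yl v (a, i) ^ 2 := by
    by_contra hcon
    push Not at hcon
    obtain ⟨h1, h2⟩ := hcon
    have h3 : |Xl v (a, i)| * |Yl v (a, i)| ≤ (Xl v (a, i) ^ 2 + Yl v (a, i) ^ 2) / 2 := by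
      have := sq_nonneg (|Xl v (a, i)| - |Yl v (a, i)|)
      have e1 := sq_abs (Xl v (a, i))
      have e2 := sq_abs (Yl v (a, i))
      nlinarith
    have h4 := mul_le_mul_of_nonneg_left h3 hg
    rw [hz] at hc
    linarith
  have hU1 := Uw_nonneg m g hg v
  have hU2 := Uw_nonneg m g hg (Tw v)
  rcases hcase with h | h
  · rcases Fin.eq_castSucc_or_eq_last a with ⟨b, rfl⟩ | rfl
    · rw [Xl_castSucc] at h
      have := tl_Uw_ge m g hg v (b, i) h
      linarith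
    · rw [Xl_last] at h
      norm_num at h
      linarith
  · rcases Fin.eq_zero_or_eq_succ a with rfl | ⟨b, rfl⟩
    · rw [Yl_zero] at h
      norm_num at h
      linarith
    · rw [Yl_succ] at h
      have := tl_Uw_ge m g hg (Tw v) (b, i) h
      linarith

lemma continuous_Xl (c : Fin (k + 1) × NN t) :
    Continuous (fun v : Fin k × NN t → ℝ => Xl v c) := by
  unfold Xl
  split_ifs <;> fun_prop

lemma continuous_Yl (c : Fin (k + 1) × NN t) :
    Continuous (fun v : Fin k × NN t → ℝ => Yl v c) := by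
  unfold Yl
  split_ifs <;> fun_prop

lemma continuous_Zl (g : ℝ) (c : Fin (k + 1) × NN t) :
    Continuous (fun v : Fin k × NN t → ℝ => Zl g v c) := by
  unfold Zl
  exact (continuous_const.mul (continuous_Xl c)).mul (continuous_Yl c)

lemma continuous_Rmax (g : ℝ) : Continuous (fun v : Fin k × NN t → ℝ => Rmax g v) := by
  unfold Rmax
  exact continuous_finset_prod _ fun c _ => continuous_const.max (continuous_Zl g c).abs

lemma measurableSet_badSet (g : ℝ) : MeasurableSet (badSet k t g) := by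
  unfold badSet
  rw [Set.setOf_exists]
  exact MeasurableSet.iUnion fun c =>
    measurableSet_lt measurable_const (continuous_Zl g c).abs.measurable

lemma polyFn_Tw (c : Fin k × NN t) : PolyFn (fun v : Fin k × NN t → ℝ => Tw v c) := by
  unfold Tw
  exact PolyFn.sum _ fun j _ => (PolyFn.const _).mul (PolyFn.coord _)

lemma polyFn_Pw_Tw (p : ℕ) (g : ℝ) :
    PolyFn (fun v : Fin k × NN t → ℝ => Pw p g (Tw v)) := by
  unfold Pw
  refine PolyFn.prod _ fun c _ => ?_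
  exact (PolyFn.const 1).add ((PolyFn.const (g ^ p)).mul ((polyFn_Tw c).pow (2 * p)))

lemma polyFn_Uw_Tw (m : ℕ) (g : ℝ) :
    PolyFn (fun v : Fin k × NN t → ℝ => Uw m g (Tw v)) := by
  unfold Uw
  refine PolyFn.sum _ fun c _ => ?_
  exact ((PolyFn.const (2 * g)).mul ((polyFn_Tw c).pow 2)).pow m

lemma tl_integrable_Rmax (g : ℝ) (hg : 0 ≤ g) (hg1 : g ≤ 1) :
    Integrable (Rmax (k := k) (t := t) g) (gam k t) := by
  have hi : Integrable (fun v : Fin k × NN t → ℝ => Pw 1 g v * Pw 1 g (Tw v)) (gam k t) :=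
    ((polyFn_Pw 1 g).mul (polyFn_Pw_Tw 1 g)).integrable
  refine hi.mono' (continuous_Rmax g).aestronglyMeasurable ?_
  refine Filter.Eventually.of_forall fun v => ?_
  have h0 : 0 ≤ Rmax g v := prod_nonneg fun c _ => by positivity
  rw [Real.norm_of_nonneg h0]
  exact tl_Rmax_le 1 le_rfl g hg hg1 v

lemma tl_integral_Tw {F : (Fin k × NN t → ℝ) → ℝ} (hF : Integrable F (gam k t)) :
    Integrable (fun v => F (Tw v)) (gam k t) ∧
      ∫ v, F (Tw v) ∂(gam k t) = ∫ v, F v ∂(gam k t) := by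
  have hmp := measurePreserving_Tw k t
  refine ⟨hmp.integrable_comp_of_integrable hF, ?_⟩
  have h := integral_map (μ := gam k t) (φ := Tw (k := k) (t := t)) hmp.measurable.aemeasurable
    (f := F) (by rw [hmp.map_eq]; exact hF.aestronglyMeasurable)
  rw [hmp.map_eq] at h
  exact h.symm

/-- the main inequality with a free weight `lam` -/
lemma tl_main (p m : ℕ) (hp : 1 ≤ p) (g : ℝ) (hg : 0 ≤ g) (hg1 : g ≤ 1 / 2) (lam : ℝ)
    (hl : 0 < lam) :
    ∫ v in badSet k t g, Rmax g v ∂(gam k t) ≤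
      lam * ∫ v : Fin k × NN t → ℝ, Uw m g v ^ 2 * Pw p g v ^ 2 ∂(gam k t) +
        lam⁻¹ * ∫ v : Fin k × NN t → ℝ, Pw p g v ^ 2 ∂(gam k t) := by
  set F1 : (Fin k × NN t → ℝ) → ℝ := fun v => Uw m g v ^ 2 * Pw p g v ^ 2 with hF1
  set F2 : (Fin k × NN t → ℝ) → ℝ := fun v => Pw p g v ^ 2 with hF2
  have i1 : Integrable F1 (gam k t) :=
    (((polyFn_Uw m g).pow 2).mul ((polyFn_Pw p g).pow 2)).integrable
  have i2 : Integrable F2 (gam k t) := ((polyFn_Pw p g).pow 2).integrable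
  obtain ⟨j1, e1⟩ := tl_integral_Tw i1
  obtain ⟨j2, e2⟩ := tl_integral_Tw i2
  set G : (Fin k × NN t → ℝ) → ℝ := fun v =>
    lam / 2 * (F1 v + F1 (Tw v)) + lam⁻¹ / 2 * (F2 v + F2 (Tw v)) with hG
  have iG : Integrable G (gam k t) := ((i1.add j1).const_mul _).add ((i2.add j2).const_mul _)
  have hG0 : ∀ v, 0 ≤ G v := fun v => by
    simp only [hG, hF1, hF2]
    positivity
  have hle : ∀ v ∈ badSet k t g, Rmax g v ≤ G v := by
    intro v hv
    have hR := tl_Rmax_le p hp g hg (by linarith) v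
    have hb := tl_bad m g hg hg1 v hv
    have hP := Pw_nonneg p g hg v
    have hP' := Pw_nonneg p g hg (Tw v)
    have hU := Uw_nonneg m g hg v
    have hU' := Uw_nonneg m g hg (Tw v)
    set a := Uw m g v
    set b := Uw m g (Tw v)
    set x := Pw p g v
    set y := Pw p g (Tw v)
    have h1 : x * y ≤ (a + b) * (x * y) := by
      have := mul_nonneg hP hP'
      nlinarith
    have key : ∀ u w : ℝ, u * w ≤ lam / 2 * u ^ 2 + lam⁻¹ / 2 * w ^ 2 := by
      intro u w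
      have h := sq_nonneg (lam * u - w)
      have h' : 0 ≤ lam⁻¹ / 2 * (lam * u - w) ^ 2 := by positivity
      have h'' : lam⁻¹ / 2 * (lam * u - w) ^ 2 =
          lam / 2 * u ^ 2 + lam⁻¹ / 2 * w ^ 2 - u * w := by
        field_simp
        ring
      linarith
    have k1 := key (a * x) y
    have k2 := key (b * y) x
    simp only [hG, hF1, hF2]
    calc Rmax g v ≤ (a + b) * (x * y) := hR.trans h1
      _ = a * x * y + b * y * x := by ring
      _ ≤ (lam / 2 * (a * x) ^ 2 + lam⁻¹ / 2 * y ^ 2) +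
          (lam / 2 * (b * y) ^ 2 + lam⁻¹ / 2 * x ^ 2) := add_le_add k1 k2
      _ = _ := by ring
  calc ∫ v in badSet k t g, Rmax g v ∂(gam k t)
      ≤ ∫ v in badSet k t g, G v ∂(gam k t) := by
        apply setIntegral_mono_on (tl_integrable_Rmax g hg (by linarith)).integrableOn
          iG.integrableOn (measurableSet_badSet g) hle
    _ ≤ ∫ v, G v ∂(gam k t) := setIntegral_le_integral iG (Filter.Eventually.of_forall hG0)
    _ = _ := by
        have s1 : ∫ v, (F1 v + F1 (Tw v)) ∂(gam k t) =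
            ∫ v, F1 v ∂(gam k t) + ∫ v, F1 v ∂(gam k t) := by
          rw [integral_add i1 j1, e1]
        have s2 : ∫ v, (F2 v + F2 (Tw v)) ∂(gam k t) =
            ∫ v, F2 v ∂(gam k t) + ∫ v, F2 v ∂(gam k t) := by
          rw [integral_add i2 j2, e2]
        have s3 : ∫ v, G v ∂(gam k t) = ∫ v, lam / 2 * (F1 v + F1 (Tw v)) ∂(gam k t) +
            ∫ v, lam⁻¹ / 2 * (F2 v + F2 (Tw v)) ∂(gam k t) :=
          integral_add ((i1.add j1).const_mul _) ((i2.add j2).const_mul _)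
        rw [s3, integral_const_mul, integral_const_mul, s1, s2]
        ring

theorem tail_bound (k : ℕ) (δ C : ℝ) (hδ : 0 < δ) :
    ∃ t₀ : ℕ, ∀ t : ℕ, t₀ ≤ t → ∀ g : ℝ, 0 ≤ g → g ≤ ((2 : ℝ) ^ t) ^ (-δ) →
      Integrable (Rmax (k := k) (t := t) g) (gam k t) ∧ MeasurableSet (badSet k t g) ∧
      ∫ v in badSet k t g, Rmax g v ∂(gam k t) ≤ ((2 : ℝ) ^ t) ^ (-C) := by
  set p : ℕ := ⌈1 / δ⌉₊ + 1 with hp
  set m : ℕ := ⌈(2 * C + 5) / (2 * δ)⌉₊ with hm
  have hpδ : 1 ≤ p * δ := by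
    have h1 : 1 / δ ≤ ⌈1 / δ⌉₊ := Nat.le_ceil _
    have h2 : 1 / δ ≤ p := by rw [hp]; push_cast; linarith
    rwa [div_le_iff₀ hδ] at h2
  have hmδ : 2 * C + 5 ≤ 2 * m * δ := by
    have h1 : (2 * C + 5) / (2 * δ) ≤ m := Nat.le_ceil _
    rw [div_le_iff₀ (by positivity)] at h1
    linarith
  obtain ⟨K1, hK1, h1⟩ := int_P k p
  obtain ⟨K2, hK2, h2⟩ := int_UP k p m
  refine ⟨max ⌈1 / δ⌉₊ ⌈K1 + K2⌉₊, fun t ht g hg0 hg => ?_⟩
  set n : ℝ := (2 : ℝ) ^ t with hn
  have hn1 : 1 ≤ n := one_le_pow₀ (by norm_num)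
  have hn0 : 0 < n := by linarith
  have ht1 : 1 ≤ t * δ := by
    have h3 : 1 / δ ≤ ⌈1 / δ⌉₊ := Nat.le_ceil _
    have h4 : (⌈1 / δ⌉₊ : ℝ) ≤ t := by exact_mod_cast (le_max_left _ _).trans ht
    have h5 := h3.trans h4
    rwa [div_le_iff₀ hδ] at h5
  have ht2 : K1 + K2 ≤ n := by
    have h3 : K1 + K2 ≤ ⌈K1 + K2⌉₊ := Nat.le_ceil _
    have h4 : (⌈K1 + K2⌉₊ : ℝ) ≤ t := by exact_mod_cast (le_max_right _ _).trans ht
    have h5 : (t : ℝ) ≤ n := by
      rw [hn]
      exact_mod_cast (Nat.lt_two_pow_self (n := t)).le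
    linarith
  have hg2 : g ≤ 1 / 2 := by
    refine hg.trans ?_
    rw [hn, ← Real.rpow_natCast, ← Real.rpow_mul (by norm_num)]
    calc (2 : ℝ) ^ ((t : ℝ) * -δ) ≤ (2 : ℝ) ^ (-1 : ℝ) :=
          Real.rpow_le_rpow_of_exponent_le (by norm_num) (by linarith)
      _ = 1 / 2 := by rw [Real.rpow_neg_one]; norm_num
  have hgp : g ^ p * n ≤ 1 := by
    have h3 : g ^ p ≤ (n ^ (-δ)) ^ p := pow_le_pow_left₀ hg0 hg p
    have h4 : (n ^ (-δ)) ^ p ≤ n ^ (-1 : ℝ) := by
      rw [← Real.rpow_natCast (n ^ (-δ)), ← Real.rpow_mul hn0.le]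
      exact Real.rpow_le_rpow_of_exponent_le hn1 (by linarith)
    rw [Real.rpow_neg_one] at h4
    calc g ^ p * n ≤ n⁻¹ * n := mul_le_mul_of_nonneg_right (h3.trans h4) hn0.le
      _ = 1 := inv_mul_cancel₀ hn0.ne'
  refine ⟨tl_integrable_Rmax g hg0 (by linarith), measurableSet_badSet g, ?_⟩
  obtain ⟨-, hi1⟩ := h1 t g hg0 (by linarith) hgp
  obtain ⟨-, hi2⟩ := h2 t g hg0 (by linarith) hgp
  have hlam : 0 < n ^ (C + 1) := Real.rpow_pos_of_pos hn0 _
  refine (tl_main p m (by omega) g hg0 hg2 (n ^ (C + 1)) hlam).trans ?_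
  have hgm : g ^ (2 * m) ≤ n ^ (-(2 * C + 5)) := by
    have h3 : g ^ (2 * m) ≤ (n ^ (-δ)) ^ (2 * m) := pow_le_pow_left₀ hg0 hg _
    refine h3.trans ?_
    rw [← Real.rpow_natCast (n ^ (-δ)), ← Real.rpow_mul hn0.le]
    apply Real.rpow_le_rpow_of_exponent_le hn1
    push_cast
    linarith
  have hA : n ^ (C + 1) * (K2 * n ^ 2 * g ^ (2 * m)) ≤ K2 * n ^ (-C - 1) := by
    have e1 : n ^ (C + 1) * (K2 * n ^ 2 * n ^ (-(2 * C + 5))) = K2 * n ^ (-C - 2) := by
      rw [← Real.rpow_natCast n 2]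
      calc n ^ (C + 1) * (K2 * n ^ ((2 : ℕ) : ℝ) * n ^ (-(2 * C + 5)))
          = K2 * (n ^ (C + 1) * n ^ ((2 : ℕ) : ℝ) * n ^ (-(2 * C + 5))) := by ring
        _ = K2 * n ^ (-C - 2) := by
            rw [← Real.rpow_add hn0, ← Real.rpow_add hn0]
            congr 2
            push_cast
            ring
    have e2 : n ^ (-C - 2) ≤ n ^ (-C - 1) :=
      Real.rpow_le_rpow_of_exponent_le hn1 (by linarith)
    calc n ^ (C + 1) * (K2 * n ^ 2 * g ^ (2 * m))
        ≤ n ^ (C + 1) * (K2 * n ^ 2 * n ^ (-(2 * C + 5))) := by gcongr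
      _ = K2 * n ^ (-C - 2) := e1
      _ ≤ K2 * n ^ (-C - 1) := mul_le_mul_of_nonneg_left e2 hK2
  have hB : (n ^ (C + 1))⁻¹ * K1 = K1 * n ^ (-C - 1) := by
    rw [← Real.rpow_neg hn0.le, mul_comm]
    congr 2
    ring
  calc n ^ (C + 1) * ∫ v : Fin k × NN t → ℝ, Uw m g v ^ 2 * Pw p g v ^ 2 ∂(gam k t) +
        (n ^ (C + 1))⁻¹ * ∫ v : Fin k × NN t → ℝ, Pw p g v ^ 2 ∂(gam k t)
      ≤ n ^ (C + 1) * (K2 * n ^ 2 * g ^ (2 * m)) + (n ^ (C + 1))⁻¹ * K1 := by
        gcongr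
    _ ≤ K2 * n ^ (-C - 1) + K1 * n ^ (-C - 1) := by
        rw [hB]; linarith
    _ = (K1 + K2) * n ^ (-C - 1) := by ring
    _ ≤ n * n ^ (-C - 1) := mul_le_mul_of_nonneg_right ht2 (Real.rpow_nonneg hn0.le _)
    _ = n ^ (-C) := by
        rw [show n * n ^ (-C - 1) = n ^ (1 : ℝ) * n ^ (-C - 1) by rw [Real.rpow_one],
          ← Real.rpow_add hn0]
        congr 1
        ring

end Crest.Agent.R350
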