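import Crest.Agent.R350.Interp2

/-! Row 350, T5b (Tail), part A: invariance of `gam` under the blockwise Walsh transform and
Gaussian integrals of the majorants `Pw`, `Uw`. -/

set_option autoImplicit false

namespace Crest.Agent.R350

open Finset MeasureTheory ProbabilityTheory

variable {k t : ℕ}

/-- blockwise Walsh transform -/
noncomputable def Tw (v : Fin k × NN t → ℝ) : Fin k × NN t → ℝ :=
  fun c => ∑ j, Wm c.2 j * v (c.1, j)

lemma Tw_Tw (v : Fin k × NN t → ℝ) : Tw (Tw v) = v := by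
  funext c
  unfold Tw
  simp only [mul_sum]
  rw [sum_comm]
  have h : ∀ j' : NN t, ∑ j : NN t, Wm c.2 j * (Wm j j' * v (c.1, j')) =
      (if c.2 = j' then (1 : ℝ) else 0) * v (c.1, j') := by
    intro j'
    rw [← Wm_orth c.2 j', sum_mul]
    refine sum_congr rfl fun j _ => ?_
    rw [Wm_symm j j']; ring
  rw [sum_congr rfl fun j' _ => h j']
  simp

lemma Tw_adj (v w : Fin k × NN t → ℝ) : ∑ c, Tw v c * w c = ∑ c, v c * Tw w c := by
  rw [Fintype.sum_prod_type, Fintype.sum_prod_type]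
  refine sum_congr rfl fun a _ => ?_
  unfold Tw
  simp only [sum_mul, mul_sum]
  rw [sum_comm]
  refine sum_congr rfl fun i _ => sum_congr rfl fun j _ => ?_
  rw [Wm_symm j i]; ring

lemma Tw_sq (v : Fin k × NN t → ℝ) : ∑ c, Tw v c ^ 2 = ∑ c, v c ^ 2 := by
  have h := Tw_adj v (Tw v)
  rw [Tw_Tw] at h
  simp only [← sq] at h
  exact h

/-- `Tw` as a linear equivalence -/
noncomputable def TwL (k t : ℕ) : (Fin k × NN t → ℝ) ≃ₗ[ℝ] (Fin k × NN t → ℝ) where
  toFun := Tw
  invFun := Tw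
  map_add' := by
    intro v w
    funext c
    simp [Tw, mul_add, sum_add_distrib]
  map_smul' := by
    intro r v
    funext c
    simp only [Tw, Pi.smul_apply, smul_eq_mul, RingHom.id_apply, mul_sum]
    exact sum_congr rfl fun j _ => by ring
  left_inv := Tw_Tw
  right_inv := Tw_Tw

/-- `Tw` as a linear isometry equivalence of Euclidean space -/
noncomputable def TwI (k t : ℕ) :
    EuclideanSpace ℝ (Fin k × NN t) ≃ₗᵢ[ℝ] EuclideanSpace ℝ (Fin k × NN t) where
  toLinearEquiv := (WithLp.linearEquiv 2 ℝ (Fin k × NN t → ℝ)).trans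
    ((TwL k t).trans (WithLp.linearEquiv 2 ℝ (Fin k × NN t → ℝ)).symm)
  norm_map' := by
    intro x
    have h1 := EuclideanSpace.real_norm_sq_eq x
    have h2 := EuclideanSpace.real_norm_sq_eq (((WithLp.linearEquiv 2 ℝ (Fin k × NN t → ℝ)).trans
      ((TwL k t).trans (WithLp.linearEquiv 2 ℝ (Fin k × NN t → ℝ)).symm)) x)
    have h3 : ∑ c, ((((WithLp.linearEquiv 2 ℝ (Fin k × NN t → ℝ)).trans
      ((TwL k t).trans (WithLp.linearEquiv 2 ℝ (Fin k × NN t → ℝ)).symm)) x) c) ^ 2 =
        ∑ c, (x c) ^ 2 := Tw_sq (fun c => x c)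
    rw [h3, ← h1] at h2
    exact (sq_eq_sq₀ (norm_nonneg _) (norm_nonneg _)).1 h2

lemma continuous_Tw : Continuous (Tw (k := k) (t := t)) := by
  unfold Tw
  fun_prop

lemma measurePreserving_Tw (k t : ℕ) :
    MeasurePreserving (Tw (k := k) (t := t)) (gam k t) (gam k t) := by
  refine ⟨continuous_Tw.measurable, ?_⟩
  have h1 : (gam k t).map (WithLp.toLp 2) = stdGaussian (EuclideanSpace ℝ (Fin k × NN t)) :=
    map_pi_eq_stdGaussian
  have h2 : (stdGaussian (EuclideanSpace ℝ (Fin k × NN t))).map (TwI k t) =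
      stdGaussian (EuclideanSpace ℝ (Fin k × NN t)) := stdGaussian_map (TwI k t)
  have hm : Measurable (WithLp.toLp 2 : (Fin k × NN t → ℝ) → EuclideanSpace ℝ (Fin k × NN t)) := by
    fun_prop
  have hm' : Measurable (WithLp.ofLp : EuclideanSpace ℝ (Fin k × NN t) → (Fin k × NN t → ℝ)) := by
    fun_prop
  have h3 : ((gam k t).map Tw).map (WithLp.toLp 2) = (gam k t).map (WithLp.toLp 2) := by
    rw [Measure.map_map hm continuous_Tw.measurable]
    have : (WithLp.toLp 2 : (Fin k × NN t → ℝ) → EuclideanSpace ℝ (Fin k × NN t)) ∘ Tw =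
        (TwI k t) ∘ (WithLp.toLp 2) := by
      funext v
      rfl
    rw [this, ← Measure.map_map (TwI k t).continuous.measurable hm, h1, h2]
  have h4 := congrArg (Measure.map (WithLp.ofLp : EuclideanSpace ℝ (Fin k × NN t) →
    (Fin k × NN t → ℝ))) h3
  rw [Measure.map_map hm' hm, Measure.map_map hm' hm] at h4
  have h5 : (WithLp.ofLp : EuclideanSpace ℝ (Fin k × NN t) → (Fin k × NN t → ℝ)) ∘
      (WithLp.toLp 2) = id := by
    funext v; rfl
  rw [h5, Measure.map_id, Measure.map_id] at h4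
  exact h4

/-- product majorant -/
noncomputable def Pw (p : ℕ) (g : ℝ) (v : Fin k × NN t → ℝ) : ℝ :=
  ∏ c, (1 + g ^ p * v c ^ (2 * p))

/-- sum majorant of the bad event -/
noncomputable def Uw (m : ℕ) (g : ℝ) (v : Fin k × NN t → ℝ) : ℝ :=
  ∑ c, (2 * g * v c ^ 2) ^ m

lemma polyFn_Pw (p : ℕ) (g : ℝ) : PolyFn (Pw (k := k) (t := t) p g) := by
  unfold Pw
  refine PolyFn.prod _ fun c _ => ?_
  exact (PolyFn.const 1).add ((PolyFn.const (g ^ p)).mul ((PolyFn.coord c).pow (2 * p)))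

lemma polyFn_Uw (m : ℕ) (g : ℝ) : PolyFn (Uw (k := k) (t := t) m g) := by
  unfold Uw
  refine PolyFn.sum _ fun c _ => ?_
  exact ((PolyFn.const (2 * g)).mul ((PolyFn.coord c).pow 2)).pow m

/-- one-dimensional integral of the square of the majorant factor -/
lemma int_one (p : ℕ) : ∃ M : ℝ, 0 ≤ M ∧ ∀ g : ℝ, 0 ≤ g → g ≤ 1 →
    Integrable (fun x : ℝ => (1 + g ^ p * x ^ (2 * p)) ^ 2) (gaussianReal 0 1) ∧
    ∫ x, (1 + g ^ p * x ^ (2 * p)) ^ 2 ∂(gaussianReal 0 1) ≤ 1 + M * g ^ p := by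
  set μ₁ : ℝ := ∫ x, x ^ (2 * p) ∂(gaussianReal 0 1) with hμ₁
  set μ₂ : ℝ := ∫ x, x ^ (4 * p) ∂(gaussianReal 0 1) with hμ₂
  have h1 : 0 ≤ μ₁ := integral_nonneg fun x => by rw [pow_mul]; positivity
  have h2 : 0 ≤ μ₂ := integral_nonneg fun x => by
    rw [show 4 * p = 2 * (2 * p) by ring, pow_mul]; positivity
  refine ⟨2 * μ₁ + μ₂, by positivity, fun g hg0 hg1 => ?_⟩
  have hI1 : Integrable (fun x : ℝ => (1 : ℝ) + 2 * g ^ p * x ^ (2 * p)) (gaussianReal 0 1) :=
    (integrable_const _).add ((integrable_pow_gauss (2 * p)).const_mul _)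
  have hI2 : Integrable (fun x : ℝ => g ^ (2 * p) * x ^ (4 * p)) (gaussianReal 0 1) :=
    (integrable_pow_gauss (4 * p)).const_mul _
  have he : (fun x : ℝ => (1 + g ^ p * x ^ (2 * p)) ^ 2) =
      fun x : ℝ => (1 + 2 * g ^ p * x ^ (2 * p)) + g ^ (2 * p) * x ^ (4 * p) := by
    funext x
    rw [show 4 * p = 2 * p + 2 * p by ring, show g ^ (2 * p) = g ^ p * g ^ p by
      rw [← pow_add]; ring_nf, pow_add]
    ring
  rw [he]
  refine ⟨hI1.add hI2, ?_⟩
  rw [integral_add hI1 hI2, integral_add (integrable_const _)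
    ((integrable_pow_gauss (2 * p)).const_mul _), integral_const_mul, integral_const_mul]
  simp only [integral_const, probReal_univ, smul_eq_mul, mul_one]
  have h3 : g ^ (2 * p) ≤ g ^ p := pow_le_pow_of_le_one hg0 hg1 (by omega)
  have h4 := mul_le_mul_of_nonneg_right h3 h2
  rw [← hμ₁, ← hμ₂]
  nlinarith

lemma card_idx (k t : ℕ) : (Finset.univ : Finset (Fin k × NN t)).card = k * 2 ^ t := by
  simp [NN]

lemma pow_bound (k t p : ℕ) (M g : ℝ) (hM : 0 ≤ M) (hg : 0 ≤ g) (h : g ^ p * 2 ^ t ≤ 1) :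
    (1 + M * g ^ p) ^ (k * 2 ^ t) ≤ Real.exp (M * k) := by
  have h0 : 0 ≤ M * g ^ p := by positivity
  calc (1 + M * g ^ p) ^ (k * 2 ^ t) ≤ (Real.exp (M * g ^ p)) ^ (k * 2 ^ t) := by
        refine pow_le_pow_left₀ (by positivity) ?_ _
        have := Real.add_one_le_exp (M * g ^ p)
        linarith
    _ = Real.exp (((k * 2 ^ t : ℕ) : ℝ) * (M * g ^ p)) := by rw [Real.exp_nat_mul]
    _ ≤ Real.exp (M * k) := by
        apply Real.exp_le_exp.2
        push_cast
        have : (k : ℝ) * 2 ^ t * (M * g ^ p) = (M * k) * (g ^ p * 2 ^ t) := by ring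
        rw [this]
        have h2 : 0 ≤ M * k := by positivity
        nlinarith

lemma Pw_sq (p : ℕ) (g : ℝ) (v : Fin k × NN t → ℝ) :
    Pw p g v ^ 2 = ∏ c, (1 + g ^ p * v c ^ (2 * p)) ^ 2 := by
  unfold Pw
  rw [Finset.prod_pow]

theorem int_P (k p : ℕ) : ∃ K : ℝ, 0 ≤ K ∧ ∀ (t : ℕ) (g : ℝ), 0 ≤ g → g ≤ 1 →
    g ^ p * 2 ^ t ≤ 1 →
      Integrable (fun v : Fin k × NN t → ℝ => Pw p g v ^ 2) (gam k t) ∧
      ∫ v, Pw p g v ^ 2 ∂(gam k t) ≤ K := by
  obtain ⟨M, hM, h⟩ := int_one p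
  refine ⟨Real.exp (M * k), (Real.exp_pos _).le, fun t g hg0 hg1 hgt => ⟨?_, ?_⟩⟩
  · exact ((polyFn_Pw p g).pow 2).integrable
  · have h1 : ∫ v : Fin k × NN t → ℝ, Pw p g v ^ 2 ∂(gam k t) =
        ∏ c : Fin k × NN t, ∫ x, (1 + g ^ p * x ^ (2 * p)) ^ 2 ∂(gaussianReal 0 1) := by
      simp_rw [Pw_sq]
      unfold gam
      exact integral_fintype_prod_eq_prod (f := fun _ x => (1 + g ^ p * x ^ (2 * p)) ^ 2)
    rw [h1, Finset.prod_const, card_idx]
    refine le_trans (pow_le_pow_left₀ (integral_nonneg fun x => by positivity)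
      (h g hg0 hg1).2 _) (pow_bound k t p M g hM hg0 hgt)

theorem int_UP (k p m : ℕ) : ∃ K : ℝ, 0 ≤ K ∧ ∀ (t : ℕ) (g : ℝ), 0 ≤ g → g ≤ 1 →
    g ^ p * 2 ^ t ≤ 1 →
      Integrable (fun v : Fin k × NN t → ℝ => Uw m g v ^ 2 * Pw p g v ^ 2) (gam k t) ∧
      ∫ v, Uw m g v ^ 2 * Pw p g v ^ 2 ∂(gam k t) ≤ K * (2 ^ t) ^ 2 * g ^ (2 * m) := by
  obtain ⟨M, hM, h⟩ := int_one p
  set M' : ℝ := ∫ x, x ^ (4 * m) * (1 + x ^ (2 * p)) ^ 2 ∂(gaussianReal 0 1) with hM'
  have hM'0 : 0 ≤ M' := integral_nonneg fun x => by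
    rw [show 4 * m = 2 * (2 * m) by ring, pow_mul]; positivity
  have hM'i : Integrable (fun x : ℝ => x ^ (4 * m) * (1 + x ^ (2 * p)) ^ 2)
      (gaussianReal 0 1) := by
    have he : (fun x : ℝ => x ^ (4 * m) * (1 + x ^ (2 * p)) ^ 2) =
        fun x : ℝ => x ^ (4 * m) + 2 * x ^ (4 * m + 2 * p) + x ^ (4 * m + 4 * p) := by
      funext x
      rw [show 4 * p = 2 * p + 2 * p by ring, pow_add, pow_add, pow_add]
      ring
    rw [he]
    exact ((integrable_pow_gauss _).add ((integrable_pow_gauss _).const_mul _)).add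
      (integrable_pow_gauss _)
  refine ⟨(k : ℝ) ^ 2 * 4 ^ m * M' * Real.exp (M * k), by positivity,
    fun t g hg0 hg1 hgt => ⟨?_, ?_⟩⟩
  · exact (((polyFn_Uw m g).pow 2).mul ((polyFn_Pw p g).pow 2)).integrable
  · -- single coordinate integral
    have hc : ∀ c : Fin k × NN t,
        ∫ v : Fin k × NN t → ℝ, ((2 * g * v c ^ 2) ^ m) ^ 2 * Pw p g v ^ 2 ∂(gam k t) ≤
          (4 ^ m * g ^ (2 * m) * M') * Real.exp (M * k) := by
      intro c
      have e1 : ∀ v : Fin k × NN t → ℝ, ((2 * g * v c ^ 2) ^ m) ^ 2 * Pw p g v ^ 2 =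
          ∏ c', ((if c' = c then ((2 * g * v c' ^ 2) ^ m) ^ 2 else 1) *
            (1 + g ^ p * v c' ^ (2 * p)) ^ 2) := by
        intro v
        rw [Pw_sq, prod_mul_distrib, prod_ite_eq' univ c]
        simp
      simp_rw [e1]
      have e2 : ∫ v : Fin k × NN t → ℝ, ∏ c', ((if c' = c then ((2 * g * v c' ^ 2) ^ m) ^ 2 else 1) *
            (1 + g ^ p * v c' ^ (2 * p)) ^ 2) ∂(gam k t) =
          ∏ c', ∫ x, ((if c' = c then ((2 * g * x ^ 2) ^ m) ^ 2 else 1) *
            (1 + g ^ p * x ^ (2 * p)) ^ 2) ∂(gaussianReal 0 1) := by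
        unfold gam
        exact integral_fintype_prod_eq_prod
          (f := fun c' x => ((if c' = c then ((2 * g * x ^ 2) ^ m) ^ 2 else 1) *
            (1 + g ^ p * x ^ (2 * p)) ^ 2))
      rw [e2]
      have e3 : ∀ c' : Fin k × NN t, ∫ x, ((if c' = c then ((2 * g * x ^ 2) ^ m) ^ 2 else 1) *
            (1 + g ^ p * x ^ (2 * p)) ^ 2) ∂(gaussianReal 0 1) ≤
          (if c' = c then 4 ^ m * g ^ (2 * m) * M' else 1) * (1 + M * g ^ p) := by
        intro c'
        by_cases hcc : c' = c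
        · simp only [hcc, if_true]
          have e4 : ∫ x, ((2 * g * x ^ 2) ^ m) ^ 2 * (1 + g ^ p * x ^ (2 * p)) ^ 2
              ∂(gaussianReal 0 1) ≤ ∫ x, (4 ^ m * g ^ (2 * m)) *
                (x ^ (4 * m) * (1 + x ^ (2 * p)) ^ 2) ∂(gaussianReal 0 1) := by
            apply integral_mono_of_nonneg
            · exact Filter.Eventually.of_forall fun x => by positivity
            · exact hM'i.const_mul _
            · refine Filter.Eventually.of_forall fun x => ?_
              have e5 : ((2 * g * x ^ 2) ^ m) ^ 2 = (4 ^ m * g ^ (2 * m)) * x ^ (4 * m) := by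
                rw [show (4 : ℝ) ^ m = 2 ^ (2 * m) by rw [pow_mul]; norm_num]
                rw [mul_pow, mul_pow]
                ring
              simp only
              rw [e5, mul_assoc]
              have hx : 0 ≤ x ^ (4 * m) := by
                rw [show 4 * m = 2 * (2 * m) by ring, pow_mul]; positivity
              have hx2 : 0 ≤ x ^ (2 * p) := by rw [pow_mul]; positivity
              have hgp : g ^ p ≤ 1 := pow_le_one₀ hg0 hg1
              have hgp0 : 0 ≤ g ^ p := pow_nonneg hg0 _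
              have e6 : (1 + g ^ p * x ^ (2 * p)) ^ 2 ≤ (1 + x ^ (2 * p)) ^ 2 := by
                apply pow_le_pow_left₀ (by positivity)
                nlinarith
              exact mul_le_mul_of_nonneg_left (mul_le_mul_of_nonneg_left e6 hx) (by positivity)
          rw [integral_const_mul] at e4
          refine e4.trans ?_
          rw [← hM']
          have : 0 ≤ 4 ^ m * g ^ (2 * m) * M' := by positivity
          have h7 : 0 ≤ M * g ^ p := by positivity
          nlinarith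
        · simp only [hcc, if_false, one_mul]
          exact (h g hg0 hg1).2
      calc ∏ c', ∫ x, ((if c' = c then ((2 * g * x ^ 2) ^ m) ^ 2 else 1) *
            (1 + g ^ p * x ^ (2 * p)) ^ 2) ∂(gaussianReal 0 1)
          ≤ ∏ c' : Fin k × NN t, ((if c' = c then 4 ^ m * g ^ (2 * m) * M' else 1) *
              (1 + M * g ^ p)) := by
            apply Finset.prod_le_prod
            · intro c' _
              apply integral_nonneg
              intro x
              by_cases hcc : c' = c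
              · simp only [hcc, if_true]; positivity
              · simp only [hcc, if_false]; positivity
            · intro c' _
              exact e3 c'
        _ = (4 ^ m * g ^ (2 * m) * M') * (1 + M * g ^ p) ^ (k * 2 ^ t) := by
            rw [prod_mul_distrib, prod_ite_eq' univ c, Finset.prod_const, card_idx]
            simp
        _ ≤ (4 ^ m * g ^ (2 * m) * M') * Real.exp (M * k) :=
            mul_le_mul_of_nonneg_left (pow_bound k t p M g hM hg0 hgt) (by positivity)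
    have hint : ∀ c : Fin k × NN t, Integrable
        (fun v : Fin k × NN t → ℝ => ((2 * g * v c ^ 2) ^ m) ^ 2 * Pw p g v ^ 2) (gam k t) :=
      fun c => ((((PolyFn.const (2 * g)).mul ((PolyFn.coord c).pow 2)).pow m |>.pow 2).mul
        ((polyFn_Pw p g).pow 2)).integrable
    have hle : ∫ v, Uw m g v ^ 2 * Pw p g v ^ 2 ∂(gam k t) ≤
        ∫ v, ((k : ℝ) * 2 ^ t) * ∑ c, ((2 * g * v c ^ 2) ^ m) ^ 2 * Pw p g v ^ 2 ∂(gam k t) := by
      apply integral_mono_of_nonneg
      · exact Filter.Eventually.of_forall fun x => by positivity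
      · exact (integrable_finset_sum _ fun c _ => hint c).const_mul _
      · refine Filter.Eventually.of_forall fun v => ?_
        simp only
        rw [← sum_mul, ← mul_assoc]
        apply mul_le_mul_of_nonneg_right _ (by positivity)
        unfold Uw
        have := sq_sum_le_card_mul_sum_sq (s := (Finset.univ : Finset (Fin k × NN t)))
          (f := fun c => (2 * g * v c ^ 2) ^ m)
        rw [card_idx] at this
        push_cast at this
        exact this
    refine hle.trans ?_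
    rw [integral_const_mul, integral_finset_sum _ fun c _ => hint c]
    calc (k : ℝ) * 2 ^ t * ∑ c : Fin k × NN t,
          ∫ v : Fin k × NN t → ℝ, ((2 * g * v c ^ 2) ^ m) ^ 2 * Pw p g v ^ 2 ∂(gam k t)
        ≤ (k : ℝ) * 2 ^ t * ∑ _c : Fin k × NN t,
            ((4 ^ m * g ^ (2 * m) * M') * Real.exp (M * k)) := by
          apply mul_le_mul_of_nonneg_left _ (by positivity)
          exact sum_le_sum fun c _ => hc c
      _ = (k : ℝ) ^ 2 * 4 ^ m * M' * Real.exp (M * k) * (2 ^ t) ^ 2 * g ^ (2 * m) := by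
          rw [sum_const, card_idx, nsmul_eq_mul]
          push_cast
          ring

end Crest.Agent.R350
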